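import Crest.Agent.R220.Tool

/-!
Row 220 (S0341): assembling the local obstruction from its parts (choice of constants).
-/

set_option autoImplicit false
open scoped ContDiff Topology
open MeasureTheory Filter

namespace Crest.Agent.R220

namespace Asm

theorem abs_tri_le {u v w : Fin 3 → S} {p : ℝ × ℝ} {A B D : ℝ} (hu : ∀ i, |u i p| ≤ A)
    (hv : ∀ i, |v i p| ≤ B) (hw : ∀ i, |w i p| ≤ D) : |tri u v w p| ≤ 6 * (A * B * D) := by
  have hA : 0 ≤ A := (abs_nonneg _).trans (hu 0)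
  have hB : 0 ≤ B := (abs_nonneg _).trans (hv 0)
  have key : ∀ i j k, |u i p * (v j p * w k p)| ≤ A * B * D := by
    intro i j k
    rw [abs_mul, abs_mul, mul_assoc]
    exact mul_le_mul (hu i) (mul_le_mul (hv j) (hw k) (abs_nonneg _) hB) (by positivity) hA
  have e : tri u v w p = u 0 p * (v 1 p * w 2 p) - u 0 p * (v 2 p * w 1 p) +
      u 1 p * (v 2 p * w 0 p) - u 1 p * (v 0 p * w 2 p) + u 2 p * (v 0 p * w 1 p) -
      u 2 p * (v 1 p * w 0 p) := by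
    unfold tri; sev; ring
  have h1 := abs_le.1 (key 0 1 2)
  have h2 := abs_le.1 (key 0 2 1)
  have h3 := abs_le.1 (key 1 2 0)
  have h4 := abs_le.1 (key 1 0 2)
  have h5 := abs_le.1 (key 2 0 1)
  have h6 := abs_le.1 (key 2 1 0)
  rw [e, abs_le]
  constructor <;> linarith [h1.1, h1.2, h2.1, h2.2, h3.1, h3.2, h4.1, h4.2, h5.1, h5.2, h6.1, h6.2]

theorem dv_tri (z : ℝ × ℝ) (u v w : Fin 3 → S) :
    dv z (tri u v w) = tri (fun i => dv z (u i)) v w + tri u (fun i => dv z (v i)) w +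
      tri u v (fun i => dv z (w i)) := by
  unfold tri
  simp only [map_add, map_sub, dv_mul]
  ring

theorem dv_two (z : ℝ × ℝ) : dv z (2 : S) = 0 := by
  have : (2 : S) = 1 + 1 := by norm_num
  rw [this, map_add, dv_one, add_zero]

theorem exp_le_three {t : ℝ} (ht : |t| ≤ 1 / 2) : Real.exp (-(2 * t)) ≤ 3 := by
  have h1 : -(2 * t) ≤ 1 := by linarith [(abs_le.1 ht).1]
  exact (Real.exp_le_exp.2 h1).trans (Real.exp_one_lt_d9.le.trans (by norm_num))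

theorem third_le_exp {t : ℝ} (ht : |t| ≤ 1 / 2) : 1 / 3 ≤ Real.exp (2 * t) := by
  have h := exp_le_three ht
  rw [Real.exp_neg] at h
  have h0 := Real.exp_pos (2 * t)
  rw [inv_le_comm₀ h0 (by norm_num)] at h
  simpa using h

theorem abs_mul_tri_le {u v w : Fin 3 → S} {φ : S} {p : ℝ × ℝ} {M ρ : ℝ}
    (hφ : |φ p| ≤ 1 / 2) (hu : ∀ i, |u i p| ≤ 4 * ρ * M) (hv : ∀ i, |v i p| ≤ 2 * M)
    (hw : ∀ i, |w i p| ≤ 2 * M) :
    |(sexp (-(2 * φ)) * tri u v w : S) p| ≤ 288 * ρ * M ^ 3 := by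
  have h1 := abs_tri_le hu hv hw
  have h2 := exp_le_three hφ
  rw [mul_apply, abs_mul, sexp_apply, abs_of_pos (Real.exp_pos _)]
  sev
  calc Real.exp (-(2 * φ p)) * |tri u v w p| ≤ 3 * (6 * (4 * ρ * M * (2 * M) * (2 * M))) :=
        mul_le_mul h2 h1 (abs_nonneg _) (by norm_num)
    _ = _ := by ring

theorem abs_dv_mul_tri_le (z : ℝ × ℝ) {u v w : Fin 3 → S} {φ : S} {p : ℝ × ℝ} {M ρ ε : ℝ}
    (hφ : |φ p| ≤ 1 / 2) (hφ' : |dv z φ p| ≤ 20 * ε)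
    (hu : ∀ i, |u i p| ≤ 4 * ρ * M) (hv : ∀ i, |v i p| ≤ 2 * M) (hw : ∀ i, |w i p| ≤ 2 * M)
    (hu' : ∀ i, |dv z (u i) p| ≤ 8 * ρ ^ 2 * M) (hv' : ∀ i, |dv z (v i) p| ≤ 4 * ρ * M)
    (hw' : ∀ i, |dv z (w i) p| ≤ 4 * ρ * M) :
    |dv z (sexp (-(2 * φ)) * tri u v w) p| ≤ ρ * (M ^ 3 * (11520 * ε + 1728 * ρ)) := by
  have h0 := abs_mul_tri_le hφ hu hv hw
  have h1 := abs_tri_le (u := fun i => dv z (u i)) hu' hv hw
  have h2 := abs_tri_le (v := fun i => dv z (v i)) hu hv' hw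
  have h3 := abs_tri_le (w := fun i => dv z (w i)) hu hv hw'
  have h4 := exp_le_three hφ
  have e : dv z (sexp (-(2 * φ)) * tri u v w) p =
      -(2 * dv z φ p) * (sexp (-(2 * φ)) * tri u v w : S) p + Real.exp (-(2 * φ p)) *
        (tri (fun i => dv z (u i)) v w p + tri u (fun i => dv z (v i)) w p +
          tri u v (fun i => dv z (w i)) p) := by
    rw [dv_mul, dv_sexp, dv_tri, map_neg, dv_mul, dv_two]
    simp only [add_apply, mul_apply, neg_apply, zero_apply, two_apply, sexp_apply]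
    ring
  have hε : 0 ≤ 20 * ε := (abs_nonneg _).trans hφ'
  have a1 : |-(2 * dv z φ p) * (sexp (-(2 * φ)) * tri u v w : S) p| ≤
      2 * (20 * ε) * (288 * ρ * M ^ 3) := by
    rw [abs_mul, abs_neg, abs_mul, abs_two]
    exact mul_le_mul (by linarith) h0 (abs_nonneg _) (by linarith)
  have a2 : |tri (fun i => dv z (u i)) v w p + tri u (fun i => dv z (v i)) w p +
      tri u v (fun i => dv z (w i)) p| ≤ 576 * ρ ^ 2 * M ^ 3 := by
    refine (abs_add_three _ _ _).trans ((add_le_add (add_le_add h1 h2) h3).trans (le_of_eq ?_))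
    ring
  have a3 : |Real.exp (-(2 * φ p)) * (tri (fun i => dv z (u i)) v w p +
      tri u (fun i => dv z (v i)) w p + tri u v (fun i => dv z (w i)) p)| ≤
      3 * (576 * ρ ^ 2 * M ^ 3) := by
    rw [abs_mul, abs_of_pos (Real.exp_pos _)]
    exact mul_le_mul h4 a2 (abs_nonneg _) (by norm_num)
  rw [e]
  refine (abs_add_le _ _).trans ((add_le_add a1 a3).trans (le_of_eq ?_))
  ring

/-- The derivative bounds delivered by `TransferStmt`. -/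
def Bd (f : Fin 3 → S) (M ρ : ℝ) : Prop :=
  ∀ i j : ℕ, 1 ≤ i + j → i + j ≤ 7 → ∀ c, ∀ p ∈ Ω,
    |(dy^[i] (dx^[j] (f c))) p| ≤ 2 ^ (i + j) * ρ ^ (i + j - 1) * M

theorem bounds {f : Fin 3 → S} {φ : S} {M ρ ε : ℝ} (hB : Bd f M ρ) {p : ℝ × ℝ} (hp : p ∈ Ω)
    (h0 : |φ p| ≤ 1 / 2) (hx : |dx φ p| ≤ 20 * ε) (hy : |dy φ p| ≤ 20 * ε) :
    |sN f φ p| ≤ 288 * ρ * M ^ 3 ∧
    |dx (sN f φ) p| ≤ ρ * (M ^ 3 * (11520 * ε + 1728 * ρ)) ∧
    |dy (sN f φ) p| ≤ ρ * (M ^ 3 * (11520 * ε + 1728 * ρ)) ∧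
    |dx (sM f φ) p| ≤ ρ * (M ^ 3 * (11520 * ε + 1728 * ρ)) ∧
    |dy (sM f φ) p| ≤ ρ * (M ^ 3 * (11520 * ε + 1728 * ρ)) := by
  have b01 : ∀ c, |dx (f c) p| ≤ 2 * M := fun c =>
    (hB 0 1 (by norm_num) (by norm_num) c p hp).trans (le_of_eq (by norm_num))
  have b10 : ∀ c, |dy (f c) p| ≤ 2 * M := fun c =>
    (hB 1 0 (by norm_num) (by norm_num) c p hp).trans (le_of_eq (by norm_num))
  have b02 : ∀ c, |dx (dx (f c)) p| ≤ 4 * ρ * M := fun c =>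
    (hB 0 2 (by norm_num) (by norm_num) c p hp).trans (le_of_eq (by norm_num))
  have b11 : ∀ c, |dy (dx (f c)) p| ≤ 4 * ρ * M := fun c =>
    (hB 1 1 (by norm_num) (by norm_num) c p hp).trans (le_of_eq (by norm_num))
  have b20 : ∀ c, |dy (dy (f c)) p| ≤ 4 * ρ * M := fun c =>
    (hB 2 0 (by norm_num) (by norm_num) c p hp).trans (le_of_eq (by norm_num))
  have b12 : ∀ c, |dy (dx (dx (f c))) p| ≤ 8 * ρ ^ 2 * M := fun c =>
    (hB 1 2 (by norm_num) (by norm_num) c p hp).trans (le_of_eq (by norm_num))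
  have b21 : ∀ c, |dy (dy (dx (f c))) p| ≤ 8 * ρ ^ 2 * M := fun c =>
    (hB 2 1 (by norm_num) (by norm_num) c p hp).trans (le_of_eq (by norm_num))
  have b30 : ∀ c, |dy (dy (dy (f c))) p| ≤ 8 * ρ ^ 2 * M := fun c =>
    (hB 3 0 (by norm_num) (by norm_num) c p hp).trans (le_of_eq (by norm_num))
  have b11' : ∀ c, |dx (dy (f c)) p| ≤ 4 * ρ * M := fun c => by rw [dx_dy]; exact b11 c
  have b12' : ∀ c, |dx (dy (dx (f c))) p| ≤ 8 * ρ ^ 2 * M := fun c => by rw [dx_dy]; exact b12 c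
  have b21' : ∀ c, |dx (dy (dy (f c))) p| ≤ 8 * ρ ^ 2 * M := fun c => by
    rw [dx_dy, dx_dy]; exact b21 c
  exact ⟨abs_mul_tri_le h0 b20 b01 b10,
    abs_dv_mul_tri_le (1, 0) h0 hx b20 b01 b10 b21' b02 b11',
    abs_dv_mul_tri_le (0, 1) h0 hy b20 b01 b10 b30 b11 b20,
    abs_dv_mul_tri_le (1, 0) h0 hx b11 b01 b10 b12' b02 b11',
    abs_dv_mul_tri_le (0, 1) h0 hy b11 b01 b10 b21 b11 b20⟩

theorem mvt {g : S} {K : ℝ} (h : ∀ p ∈ Ω, |dx g p| ≤ K ∧ |dy g p| ≤ K) {p : ℝ × ℝ} (hp : p ∈ Ω) :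
    |g p - g 0| ≤ 6 * K := by
  have hK : 0 ≤ K := (abs_nonneg _).trans (h 0 zero_mem_Ω).1
  have := (convex_ball (0 : ℝ × ℝ) 3).norm_image_sub_le_of_norm_fderiv_le (𝕜 := ℝ)
    (f := (g : ℝ × ℝ → ℝ)) (C := K + K) (fun q _ => S.diff _ q)
    (fun q hq => (norm_fderiv_le _ q).trans (add_le_add (h q hq).1 (h q hq).2))
    (x := 0) (y := p) zero_mem_Ω hp
  rw [sub_zero, Real.norm_eq_abs] at this
  have h3 := mem_Ω.1 hp
  nlinarith

theorem cy_tri {k : ℕ} {u v w : ℕ → Fin 3 → S} (hu : ∀ i, Cy k (fun n => u n i))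
    (hv : ∀ i, Cy k (fun n => v n i)) (hw : ∀ i, Cy k (fun n => w n i)) :
    Cy k (fun n => tri (u n) (v n) (w n)) :=
  (((hu 0).mul (((hv 1).mul (hw 2)).sub ((hv 2).mul (hw 1)))).add
    ((hu 1).mul (((hv 2).mul (hw 0)).sub ((hv 0).mul (hw 2))))).add
    ((hu 2).mul (((hv 0).mul (hw 1)).sub ((hv 1).mul (hw 0))))

theorem cy_of_Bd {f : ℕ → Fin 3 → S} {M ρ : ℝ} (hB : ∀ n, Bd (f n) M ρ) (i j : ℕ)
    (h1 : 1 ≤ i + j) (h2 : i + j ≤ 2) (c : Fin 3) : Cy 5 (fun n => dy^[i] (dx^[j] (f n c))) := by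
  intro k hk
  refine SB.of_le (K := 2 ^ (k + i + j) * ρ ^ (k + i + j - 1) * M) fun n p hp => ?_
  have := hB n (k + i) j (by omega) (by omega) c p hp
  rwa [Function.iterate_add_apply] at this

theorem ev_le {g : ℝ → ℝ} (hg : Continuous g) {b : ℝ} (hb : g 0 < b) :
    ∀ᶠ x in 𝓝[>] (0 : ℝ), g x ≤ b :=
  (((hg.tendsto 0).eventually (gt_mem_nhds hb)).mono fun _ h => h.le).filter_mono nhdsWithin_le_nhds

/-- Build the normalised data from a family of isometric immersions. -/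
theorem nonempty_data (hg : GeoStmt) (h2 : ModelFamStmt) (c1 : ∀ p, 0 ≤ chi0 p) (c2 : 0 < chi0 0)
    (c3 : ∀ p, 1 < ‖p‖ → chi0 p = 0) {q : ℕ} (hq : 7 ≤ q) {δ M μ ρ ε : ℝ} (hM : 0 < M)
    (hμ : 0 < μ) (hρ : 0 < ρ) (hε : 0 < ε) (s1 : 6 * (M ^ 3 * (11520 * ε + 1728 * ρ)) ≤ δ * μ)
    (s2 : 20 * (288 * ρ * M ^ 3) ^ 2 ≤ δ) (s3 : ε ≤ δ * (ρ * μ) ^ 2)
    (l : ℕ → ℝ) (hl1 : ∀ n, 1 ≤ l n) (hl : Tendsto l atTop atTop)
    (hs : ∀ n, ∀ p ∈ Ω,
      |phi q ε (l n ^ 2) p| ≤ 1 / 2 ∧ |dx (phi q ε (l n ^ 2)) p| ≤ 20 * ε ∧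
      |dy (phi q ε (l n ^ 2)) p| ≤ 20 * ε ∧
      |kap (phi q ε (l n ^ 2)) p - ε * (p.1 ^ 2 + p.2 ^ 2 - 1)| ≤ δ * ε ∧
      |dx (kap (phi q ε (l n ^ 2))) p - ε * (2 * p.1)| ≤ δ * ε ∧
      |dy (kap (phi q ε (l n ^ 2))) p - ε * (2 * p.2)| ≤ δ * ε)
    (f : ℕ → Fin 3 → S) (hI : ∀ n, Isom (f n) (phi q ε (l n ^ 2))) (hB : ∀ n, Bd (f n) M ρ)
    (hM0 : ∀ n, sM (f n) (phi q ε (l n ^ 2)) 0 = 0)
    (hN0 : ∀ n, ρ * μ ≤ sN (f n) (phi q ε (l n ^ 2)) 0) : Nonempty (Data q δ) := by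
  obtain ⟨F1, F2, F3, F4, F5, F6, F7, F8, F9⟩ :=
    h2 q hq ε (fun n => l n ^ 2) (fun n => one_le_pow₀ (hl1 n))
  set φ : ℕ → S := fun n => phi q ε (l n ^ 2) with hφ
  set N0 : ℕ → ℝ := fun n => sN (f n) (φ n) 0 with hN0def
  have hρμ : 0 < ρ * μ := mul_pos hρ hμ
  have hN0l : ∀ n, ρ * μ ≤ N0 n := hN0
  have hN0p : ∀ n, 0 < N0 n := fun n => hρμ.trans_le (hN0l n)
  have hb : ∀ n, ∀ p ∈ Ω, _ := fun n p hp =>
    bounds (hB n) hp (hs n p hp).1 (hs n p hp).2.1 (hs n p hp).2.2.1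
  have hN0u : ∀ n, N0 n ≤ 288 * ρ * M ^ 3 := fun n =>
    (le_abs_self _).trans (hb n 0 zero_mem_Ω).1
  have hU : 0 < 288 * ρ * M ^ 3 := by positivity
  set d : ℕ → ℝ := fun n => (N0 n)⁻¹ with hd
  have hdp : ∀ n, 0 < d n := fun n => inv_pos.2 (hN0p n)
  have hdu : ∀ n, d n ≤ (ρ * μ)⁻¹ := fun n => inv_anti₀ hρμ (hN0l n)
  have hdl : ∀ n, (288 * ρ * M ^ 3)⁻¹ ≤ d n := fun n => inv_anti₀ (hN0p n) (hN0u n)
  have hda : ∀ n, |d n| ≤ (ρ * μ)⁻¹ := fun n => by rw [abs_of_pos (hdp n)]; exact hdu n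
  have hd2 : ∀ n, |d n ^ 2| ≤ (ρ * μ)⁻¹ ^ 2 := fun n => by
    rw [abs_pow]; exact pow_le_pow_left₀ (abs_nonneg _) (hda n) 2
  have hd2' : ∀ n, |-d n ^ 2| ≤ (ρ * μ)⁻¹ ^ 2 := fun n => by rw [abs_neg]; exact hd2 n
  have hd2l : ∀ n, (288 * ρ * M ^ 3)⁻¹ ^ 2 ≤ d n ^ 2 := fun n =>
    pow_le_pow_left₀ (by positivity) (hdl n) 2
  have hδ : 0 < δ := lt_of_lt_of_le (by positivity) s2
  -- scaled first-derivative bound
  set K : ℝ := M ^ 3 * (11520 * ε + 1728 * ρ) with hK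
  have hKp : 0 < K := by positivity
  have hsc : ∀ n (t : ℝ), |t| ≤ ρ * K → |d n * t| ≤ δ / 6 := fun n t ht => by
    rw [abs_mul]
    calc |d n| * |t| ≤ (ρ * μ)⁻¹ * (ρ * K) := mul_le_mul (hda n) ht (abs_nonneg _) (by positivity)
      _ = K / μ := by field_simp
      _ ≤ δ / 6 := by rw [div_le_div_iff₀ hμ (by norm_num)]; linarith
  have h20 : ∀ n, 20 * ε ≤ δ * (d n ^ 2 * ε) := fun n => by
    have h1 : 20 ≤ δ * d n ^ 2 := by
      calc (20 : ℝ) = 20 * (288 * ρ * M ^ 3) ^ 2 * (288 * ρ * M ^ 3)⁻¹ ^ 2 := by field_simp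
        _ ≤ δ * d n ^ 2 := mul_le_mul s2 (hd2l n) (by positivity) hδ.le
    nlinarith
  have hκ : ∀ n (t s : ℝ), |t - ε * s| ≤ δ * ε → |d n ^ 2 * t - d n ^ 2 * ε * s| ≤
      δ * (d n ^ 2 * ε) := fun n t s h => by
    have e : d n ^ 2 * t - d n ^ 2 * ε * s = d n ^ 2 * (t - ε * s) := by ring
    rw [e, abs_mul, abs_of_nonneg (sq_nonneg _)]
    calc d n ^ 2 * |t - ε * s| ≤ d n ^ 2 * (δ * ε) := mul_le_mul_of_nonneg_left h (sq_nonneg _)
      _ = _ := by ring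
  have cy := cy_of_Bd hB
  refine ⟨{
    L := fun n => d n • sL (f n) (φ n)
    M := fun n => d n • sM (f n) (φ n)
    N := fun n => d n • sN (f n) (φ n)
    κ := fun n => d n ^ 2 • kap (φ n)
    a := fun n => dx (φ n)
    b := fun n => dy (φ n)
    w := fun n => (-d n ^ 2) • sexp (2 * φ n)
    g := fun n => d n ^ 2 • (dy^[q] (kap (φ n)) + sexp (2 * φ n) * Psi q chi0 (l n ^ 2))
    e := fun n => d n ^ 2 * ε
    l := l
    χ := chi0
    e0 := (288 * ρ * M ^ 3)⁻¹ ^ 2 * min ε (1 / 3)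
    e0_pos := by positivity
    he := fun n => ⟨mul_le_mul (hd2l n) (min_le_left _ _) (by positivity) (sq_nonneg _), ?_⟩
    gauss := fun n p hp => ?_
    cod1 := fun n p hp => ?_
    cod2 := fun n p hp => ?_
    small := fun n p hp => ?_
    smallκ := fun n p hp => ?_
    M0 := fun n => ?_
    CL := (F3.mul (cy_tri (cy 0 2 (by norm_num) le_rfl) (cy 0 1 le_rfl (by norm_num))
      (cy 1 0 le_rfl (by norm_num)))).smul hda
    CM := (F3.mul (cy_tri (cy 1 1 (by norm_num) le_rfl) (cy 0 1 le_rfl (by norm_num))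
      (cy 1 0 le_rfl (by norm_num)))).smul hda
    CN := (F3.mul (cy_tri (cy 2 0 (by norm_num) le_rfl) (cy 0 1 le_rfl (by norm_num))
      (cy 1 0 le_rfl (by norm_num)))).smul hda
    Ca := F1
    Cb := F2
    Cκ := F4.smul hd2
    Hκ := F5.smul hd2
    top := fun n p _ => ?_
    hg := F9.smul hd2
    hw := F6.smul hd2'
    hwx := by simpa only [map_smul] using F7.smul hd2'
    hwy := by simpa only [map_smul] using F8.smul hd2'
    hw0 := fun n => ?_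
    χ_nonneg := c1
    χ_pos := c2
    χ_supp := c3
    hl1 := hl1
    hl := hl }⟩
  · calc d n ^ 2 * ε ≤ (ρ * μ)⁻¹ ^ 2 * (δ * (ρ * μ) ^ 2) :=
          mul_le_mul ((le_abs_self _).trans (hd2 n)) s3 hε.le (by positivity)
      _ = δ := by field_simp
  · have := (hg (f n) (φ n) (hI n) p hp).1
    sev
    rw [← this]; ring
  · have := (hg (f n) (φ n) (hI n) p hp).2.1
    simp only [map_smul, smul_apply]
    linear_combination d n * this
  · have := (hg (f n) (φ n) (hI n) p hp).2.2.1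
    simp only [map_smul, smul_apply]
    linear_combination d n * this
  · have m1 := mvt (g := d n • sN (f n) (φ n)) (K := δ / 6) (fun p hp => by
      simp only [map_smul, smul_apply]
      exact ⟨hsc n _ (hb n p hp).2.1, hsc n _ (hb n p hp).2.2.1⟩) hp
    have m2 := mvt (g := d n • sM (f n) (φ n)) (K := δ / 6) (fun p hp => by
      simp only [map_smul, smul_apply]
      exact ⟨hsc n _ (hb n p hp).2.2.2.1, hsc n _ (hb n p hp).2.2.2.2⟩) hp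
    have e1 : (d n • sN (f n) (φ n) : S) 0 = 1 := by
      rw [smul_apply]; exact inv_mul_cancel₀ (hN0p n).ne'
    have e2 : (d n • sM (f n) (φ n) : S) 0 = 0 := by
      rw [smul_apply, hM0 n, mul_zero]
    rw [e1] at m1
    rw [e2, sub_zero] at m2
    refine ⟨m1.trans (le_of_eq (by ring)), m2.trans (le_of_eq (by ring)), ?_, ?_⟩
    · simp only [map_smul, smul_apply]
      exact (hsc n _ (hb n p hp).2.2.1).trans (by linarith)
    · simp only [map_smul, smul_apply]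
      exact (hsc n _ (hb n p hp).2.2.2.2).trans (by linarith)
  · obtain ⟨-, k1, k2, k3, k4, k5⟩ := hs n p hp
    simp only [map_smul, smul_apply]
    exact ⟨hκ n _ _ k3, hκ n _ _ k4, hκ n _ _ k5, k1.trans (h20 n), k2.trans (h20 n)⟩
  · rw [smul_apply, hM0 n, mul_zero]
  · rw [dyi_smul]
    sev
    ring
  · rw [smul_apply, abs_mul, abs_neg, abs_of_nonneg (sq_nonneg _), sexp_apply,
      abs_of_pos (Real.exp_pos _), mul_apply, two_apply]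
    exact mul_le_mul (hd2l n) ((min_le_right _ _).trans (third_le_exp (hs n 0 zero_mem_Ω).1))
      (by positivity) (sq_nonneg _)

end Asm

/-- The local obstruction from its parts. -/
theorem local_of_parts (hc : CoreStmt) (hg : GeoStmt) (ht : TransferStmt) (h1 : ModelSmallStmt)
    (h2 : ModelFamStmt) (h3 : ModelE2Stmt) (c1 : ∀ p, 0 ≤ chi0 p) (c2 : 0 < chi0 0)
    (c3 : ∀ p, 1 < ‖p‖ → chi0 p = 0) : LocalStmt := by
  intro M' μ r j hμ hr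
  set M : ℝ := max M' 1 with hMdef
  have hM : 0 < M := lt_of_lt_of_le one_pos (le_max_right _ _)
  have hq : 7 ≤ j + 7 := by omega
  obtain ⟨δ, hδ, hD⟩ := hc (j + 7) hq
  -- choice of `ρ`
  obtain ⟨ρ, hρ, r1, r2', r3⟩ : ∃ ρ : ℝ, 0 < ρ ∧ 6 * ρ ≤ r ∧ 20 * (288 * ρ * M ^ 3) ^ 2 ≤ δ ∧
      6 * (M ^ 3 * (1728 * ρ)) ≤ δ * μ / 2 := by
    have e1 := Asm.ev_le (g := fun ρ => 6 * ρ) (by fun_prop) (b := r) (by simpa using hr)
    have e2 := Asm.ev_le (g := fun ρ => 20 * (288 * ρ * M ^ 3) ^ 2) (by fun_prop) (b := δ)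
      (by simpa using hδ)
    have e3 := Asm.ev_le (g := fun ρ => 6 * (M ^ 3 * (1728 * ρ))) (by fun_prop) (b := δ * μ / 2)
      (by simp only [mul_zero]; positivity)
    obtain ⟨ρ, h0, h⟩ := ((eventually_mem_nhdsWithin).and (e1.and (e2.and e3))).exists
    exact ⟨ρ, h0, h.1, h.2.1, h.2.2⟩
  obtain ⟨ε₁, hε₁, H1⟩ := h1 (j + 7) hq δ hδ
  obtain ⟨ε₃, hε₃, l₃, H3⟩ := h3 (j + 7) j ρ (by omega) hρ
  -- choice of `ε`
  obtain ⟨ε, hε, t1, t2, t3, t4⟩ : ∃ ε : ℝ, 0 < ε ∧ ε ≤ ε₁ ∧ ε ≤ ε₃ ∧ ε ≤ δ * (ρ * μ) ^ 2 ∧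
      6 * (M ^ 3 * (11520 * ε)) ≤ δ * μ / 2 := by
    have e1 := Asm.ev_le (g := fun ε => ε) (by fun_prop) (b := ε₁) hε₁
    have e2 := Asm.ev_le (g := fun ε => ε) (by fun_prop) (b := ε₃) hε₃
    have e3 := Asm.ev_le (g := fun ε => ε) (by fun_prop) (b := δ * (ρ * μ) ^ 2) (by positivity)
    have e4 := Asm.ev_le (g := fun ε => 6 * (M ^ 3 * (11520 * ε))) (by fun_prop) (b := δ * μ / 2)
      (by simp only [mul_zero]; positivity)
    obtain ⟨ε, h0, h⟩ := ((eventually_mem_nhdsWithin).and (e1.and (e2.and (e3.and e4)))).exists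
    exact ⟨ε, h0, h.1, h.2.1, h.2.2.1, h.2.2.2⟩
  obtain ⟨l₁, H1'⟩ := H1 ε hε t1
  set l : ℕ → ℝ := fun n => max (max l₁ l₃) 1 + n with hl
  have hl1 : ∀ n, 1 ≤ l n := fun n =>
    (le_max_right _ _).trans (le_add_of_nonneg_right (Nat.cast_nonneg n))
  have hl2 : ∀ n, max l₁ l₃ ≤ l n ^ 2 := fun n => by
    have a1 : max l₁ l₃ ≤ l n :=
      (le_max_left _ _).trans (le_add_of_nonneg_right (Nat.cast_nonneg n))
    nlinarith [hl1 n]
  have hlt : Tendsto l atTop atTop := tendsto_atTop_add_const_left _ _ tendsto_natCast_atTop_atTop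
  by_contra hcon
  have key : ∀ n, ∃ f : Fin 3 → S, Isom f (phi (j + 7) ε (l n ^ 2)) ∧ Asm.Bd f M ρ ∧
      sM f (phi (j + 7) ε (l n ^ 2)) 0 = 0 ∧ ρ * μ ≤ sN f (phi (j + 7) ε (l n ^ 2)) 0 := by
    intro n
    obtain ⟨a1, a2, a3⟩ := H3 ε (l n ^ 2) hε t2 ((le_max_right _ _).trans (hl2 n))
    by_contra hn
    refine hcon ⟨_, a1, fun x hx => a2 x (r1.trans hx), a3, fun F b1 b2 b3 => ?_⟩
    by_contra hlt'
    exact hn (ht _ (contDiff_Theta (j + 7) ε (l n ^ 2)) M μ ρ r F hρ r1 b1 b2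
      (fun k hk x hx => (b3 k hk x hx).trans (le_max_left _ _)) (not_le.1 hlt'))
  choose f hI hB hM0 hN0 using key
  exact hD.false (Classical.choice (Asm.nonempty_data hg h2 c1 c2 c3 hq hM hμ hρ hε
    (by nlinarith) r2' t3 l hl1 hlt (fun n => H1' _ ((le_max_left _ _).trans (hl2 n))) f hI hB hM0
    hN0))

end Crest.Agent.R220
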