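import Mathlib

/-!
Row 220 (S0341): the differential ring of smooth functions on the plane.
-/

set_option autoImplicit false
open scoped ContDiff
open MeasureTheory

namespace Crest.Agent.R220

/-- Smooth real functions on `ℝ × ℝ`. -/
def S0 : Subalgebra ℝ (ℝ × ℝ → ℝ) where
  carrier := {f | ContDiff ℝ ∞ f}
  mul_mem' := fun {a b} (ha : ContDiff ℝ ∞ a) (hb : ContDiff ℝ ∞ b) =>
    show ContDiff ℝ ∞ (fun p => a p * b p) from ha.mul hb
  add_mem' := fun {a b} (ha : ContDiff ℝ ∞ a) (hb : ContDiff ℝ ∞ b) =>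
    show ContDiff ℝ ∞ (fun p => a p + b p) from ha.add hb
  algebraMap_mem' := fun c => show ContDiff ℝ ∞ (fun _ : ℝ × ℝ => c) from contDiff_const

/-- The ring of smooth real functions on `ℝ × ℝ`. -/
def S : Type := S0

noncomputable instance S.instCommRing : CommRing S := S0.toCommRing
noncomputable instance S.instAlgebra : Algebra ℝ S := S0.algebra

/-- The underlying function. -/
@[coe] def S.val (f : S) : ℝ × ℝ → ℝ := Subtype.val (show S0 from f)

instance : CoeFun S (fun _ => ℝ × ℝ → ℝ) := ⟨S.val⟩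

theorem S.smooth (f : S) : ContDiff ℝ ∞ (f : ℝ × ℝ → ℝ) := (show S0 from f).2
theorem S.cont (f : S) : Continuous (f : ℝ × ℝ → ℝ) := (S.smooth f).continuous
theorem S.diff (f : S) : Differentiable ℝ (f : ℝ × ℝ → ℝ) :=
  (S.smooth f).differentiable (by simp)

/-- Bundle a smooth function. -/
def mk (f : ℝ × ℝ → ℝ) (hf : ContDiff ℝ ∞ f) : S := (⟨f, hf⟩ : S0)

@[simp] theorem mk_apply (f : ℝ × ℝ → ℝ) (hf : ContDiff ℝ ∞ f) (p : ℝ × ℝ) : mk f hf p = f p := rfl

theorem S.ext {f g : S} (h : ∀ p, f p = g p) : f = g := Subtype.ext (funext h)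

/-- Constants. -/
noncomputable def C (c : ℝ) : S := algebraMap ℝ S c
/-- First coordinate. -/
def X : S := mk (fun p => p.1) contDiff_fst
/-- Second coordinate. -/
def Y : S := mk (fun p => p.2) contDiff_snd

@[simp] theorem C_apply (c : ℝ) (p : ℝ × ℝ) : C c p = c := rfl
@[simp] theorem X_apply (p : ℝ × ℝ) : X p = p.1 := rfl
@[simp] theorem Y_apply (p : ℝ × ℝ) : Y p = p.2 := rfl
@[simp] theorem add_apply (f g : S) (p : ℝ × ℝ) : (f + g : S) p = f p + g p := rfl
@[simp] theorem sub_apply (f g : S) (p : ℝ × ℝ) : (f - g : S) p = f p - g p := rfl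
@[simp] theorem mul_apply (f g : S) (p : ℝ × ℝ) : (f * g : S) p = f p * g p := rfl
@[simp] theorem neg_apply (f : S) (p : ℝ × ℝ) : (-f : S) p = -f p := rfl
@[simp] theorem zero_apply (p : ℝ × ℝ) : (0 : S) p = 0 := rfl
@[simp] theorem one_apply (p : ℝ × ℝ) : (1 : S) p = 1 := rfl
@[simp] theorem smul_apply (c : ℝ) (f : S) (p : ℝ × ℝ) : (c • f : S) p = c * f p := rfl
@[simp] theorem pow_apply (f : S) (k : ℕ) (p : ℝ × ℝ) : (f ^ k : S) p = f p ^ k := by
  induction k with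
  | zero => simp
  | succ k ih => rw [pow_succ, mul_apply, ih, pow_succ]
@[simp] theorem natCast_apply (k : ℕ) (p : ℝ × ℝ) : (k : S) p = k := by
  induction k with
  | zero => simp
  | succ k ih => rw [Nat.cast_succ, add_apply, ih, one_apply, Nat.cast_succ]
@[simp] theorem two_apply (p : ℝ × ℝ) : (2 : S) p = 2 := by
  have : (2 : S) = 1 + 1 := by norm_num
  rw [this, add_apply, one_apply]; norm_num
theorem sum_apply {ι : Type*} (s : Finset ι) (f : ι → S) (p : ℝ × ℝ) :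
    (∑ i ∈ s, f i : S) p = ∑ i ∈ s, f i p := by
  classical
  induction s using Finset.induction_on with
  | empty => simp
  | insert a s ha ih => rw [Finset.sum_insert ha, Finset.sum_insert ha, add_apply, ih]

/-- Push evaluation at a point through the ring operations of `S`. -/
macro "sev" loc:(Lean.Parser.Tactic.location)? : tactic =>
  `(tactic| simp only [add_apply, sub_apply, mul_apply, neg_apply, zero_apply, one_apply, smul_apply,
      pow_apply, natCast_apply, two_apply, C_apply, X_apply, Y_apply, mk_apply] $[$loc]?)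

/-- Directional derivative. -/
noncomputable def dv (v : ℝ × ℝ) : S →ₗ[ℝ] S where
  toFun f := mk (fun p => fderiv ℝ (f : ℝ × ℝ → ℝ) p v)
    (((S.smooth f).fderiv_right (m := ∞) (by simp)).clm_apply contDiff_const)
  map_add' f g := S.ext fun p => by
    change fderiv ℝ ((f : ℝ × ℝ → ℝ) + (g : ℝ × ℝ → ℝ)) p v = _
    rw [fderiv_add (S.diff f p) (S.diff g p)]; rfl
  map_smul' c f := S.ext fun p => by
    change fderiv ℝ (c • (f : ℝ × ℝ → ℝ)) p v = _
    rw [fderiv_const_smul (S.diff f p)]; rfl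

theorem dv_apply (v : ℝ × ℝ) (f : S) (p : ℝ × ℝ) :
    dv v f p = fderiv ℝ (f : ℝ × ℝ → ℝ) p v := rfl

theorem dv_mul (v : ℝ × ℝ) (f g : S) : dv v (f * g) = dv v f * g + f * dv v g := S.ext fun p => by
  change fderiv ℝ ((f : ℝ × ℝ → ℝ) * (g : ℝ × ℝ → ℝ)) p v = _
  rw [fderiv_mul (S.diff f p) (S.diff g p)]
  simp only [_root_.add_apply, _root_.smul_apply, smul_eq_mul,
    add_apply, mul_apply, dv_apply]
  ring

theorem dv_C (v : ℝ × ℝ) (c : ℝ) : dv v (C c) = 0 := S.ext fun p => by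
  change fderiv ℝ (fun _ => c) p v = 0
  simp

theorem dv_one (v : ℝ × ℝ) : dv v 1 = 0 := dv_C v 1

theorem dv_pow (v : ℝ × ℝ) (f : S) (k : ℕ) : dv v (f ^ (k + 1)) = (k + 1 : ℕ) * f ^ k * dv v f := by
  induction k with
  | zero => simp
  | succ k ih => rw [pow_succ, dv_mul, ih]; push_cast; ring

theorem dv_comm (v w : ℝ × ℝ) (f : S) : dv v (dv w f) = dv w (dv v f) := S.ext fun p => by
  have h2 : ContDiffAt ℝ 2 (f : ℝ × ℝ → ℝ) p := ((S.smooth f).of_le (by norm_cast)).contDiffAt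
  have hs := h2.isSymmSndFDerivAt (by simp)
  have hd : DifferentiableAt ℝ (fderiv ℝ (f : ℝ × ℝ → ℝ)) p :=
    (((S.smooth f).fderiv_right (m := ∞) (by simp)).differentiable (by simp)) p
  have key : ∀ a b : ℝ × ℝ, dv a (dv b f) p = fderiv ℝ (fderiv ℝ (f : ℝ × ℝ → ℝ)) p a b := by
    intro a b
    change fderiv ℝ (fun q => fderiv ℝ (f : ℝ × ℝ → ℝ) q b) p a = _
    rw [fderiv_clm_apply hd (differentiableAt_const _)]
    simp
  rw [key, key, hs.eq]

/-- `∂/∂x`. -/
noncomputable def dx : S →ₗ[ℝ] S := dv (1, 0)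
/-- `∂/∂y`. -/
noncomputable def dy : S →ₗ[ℝ] S := dv (0, 1)

theorem dx_apply (f : S) (p : ℝ × ℝ) : dx f p = fderiv ℝ (f : ℝ × ℝ → ℝ) p (1, 0) := rfl
theorem dy_apply (f : S) (p : ℝ × ℝ) : dy f p = fderiv ℝ (f : ℝ × ℝ → ℝ) p (0, 1) := rfl
theorem dx_mul (f g : S) : dx (f * g) = dx f * g + f * dx g := dv_mul _ f g
theorem dy_mul (f g : S) : dy (f * g) = dy f * g + f * dy g := dv_mul _ f g
@[simp] theorem dx_C (c : ℝ) : dx (C c) = 0 := dv_C _ c
@[simp] theorem dy_C (c : ℝ) : dy (C c) = 0 := dv_C _ c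
@[simp] theorem dx_one : dx 1 = 0 := dv_one _
@[simp] theorem dy_one : dy 1 = 0 := dv_one _
theorem dx_pow (f : S) (k : ℕ) : dx (f ^ (k + 1)) = (k + 1 : ℕ) * f ^ k * dx f := dv_pow _ f k
theorem dy_pow (f : S) (k : ℕ) : dy (f ^ (k + 1)) = (k + 1 : ℕ) * f ^ k * dy f := dv_pow _ f k
theorem dx_dy (f : S) : dx (dy f) = dy (dx f) := dv_comm _ _ f
@[simp] theorem dx_X : dx X = 1 := S.ext fun p => by
  change fderiv ℝ (fun p : ℝ × ℝ => p.1) p (1, 0) = 1
  rw [fderiv_fst]; rfl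
@[simp] theorem dy_X : dy X = 0 := S.ext fun p => by
  change fderiv ℝ (fun p : ℝ × ℝ => p.1) p (0, 1) = 0
  rw [fderiv_fst]; rfl
@[simp] theorem dx_Y : dx Y = 0 := S.ext fun p => by
  change fderiv ℝ (fun p : ℝ × ℝ => p.2) p (1, 0) = 0
  rw [fderiv_snd]; rfl
@[simp] theorem dy_Y : dy Y = 1 := S.ext fun p => by
  change fderiv ℝ (fun p : ℝ × ℝ => p.2) p (0, 1) = 1
  rw [fderiv_snd]; rfl
theorem natCast_eq_C (k : ℕ) : (k : S) = C k := S.ext fun p => by simp
@[simp] theorem dx_natCast (k : ℕ) : dx (k : S) = 0 := by rw [natCast_eq_C, dx_C]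
@[simp] theorem dy_natCast (k : ℕ) : dy (k : S) = 0 := by rw [natCast_eq_C, dy_C]
@[simp] theorem dx_two : dx (2 : S) = 0 := by simpa using dx_natCast 2
@[simp] theorem dy_two : dy (2 : S) = 0 := by simpa using dy_natCast 2
theorem C_mul_eq_smul (c : ℝ) (f : S) : C c * f = c • f := S.ext fun _ => rfl

theorem fderiv_eq (f : S) (p v : ℝ × ℝ) :
    fderiv ℝ (f : ℝ × ℝ → ℝ) p v = v.1 * dx f p + v.2 * dy f p := by
  have : v = v.1 • ((1, 0) : ℝ × ℝ) + v.2 • ((0, 1) : ℝ × ℝ) := by ext <;> simp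
  conv_lhs => rw [this]
  rw [map_add, map_smul, map_smul]; rfl

theorem norm_fderiv_le (f : S) (p : ℝ × ℝ) :
    ‖fderiv ℝ (f : ℝ × ℝ → ℝ) p‖ ≤ |dx f p| + |dy f p| := by
  refine ContinuousLinearMap.opNorm_le_bound _ (by positivity) fun v => ?_
  rw [fderiv_eq, Real.norm_eq_abs]
  have h1 : |v.1| ≤ ‖v‖ := norm_fst_le v
  have h2 : |v.2| ≤ ‖v‖ := norm_snd_le v
  calc |v.1 * dx f p + v.2 * dy f p| ≤ |v.1| * |dx f p| + |v.2| * |dy f p| := by
        rw [← abs_mul, ← abs_mul]; exact abs_add_le _ _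
    _ ≤ ‖v‖ * |dx f p| + ‖v‖ * |dy f p| := by gcongr
    _ = _ := by ring

/-! ### Iterated `y`-derivatives -/

theorem dyi_add (m : ℕ) (f g : S) : dy^[m] (f + g) = dy^[m] f + dy^[m] g := iterate_map_add dy m f g
theorem dyi_sub (m : ℕ) (f g : S) : dy^[m] (f - g) = dy^[m] f - dy^[m] g := iterate_map_sub dy m f g
theorem dyi_neg (m : ℕ) (f : S) : dy^[m] (-f) = -dy^[m] f := iterate_map_neg dy m f
theorem dyi_smul (m : ℕ) (c : ℝ) (f : S) : dy^[m] (c • f) = c • dy^[m] f := by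
  induction m with
  | zero => rfl
  | succ m ih => rw [Function.iterate_succ_apply', ih, map_smul, Function.iterate_succ_apply']
theorem dyi_succ (m : ℕ) (f : S) : dy^[m + 1] f = dy (dy^[m] f) := Function.iterate_succ_apply' _ _ _
theorem dyi_succ' (m : ℕ) (f : S) : dy^[m + 1] f = dy^[m] (dy f) := rfl
theorem dx_dyi (m : ℕ) (f : S) : dx (dy^[m] f) = dy^[m] (dx f) := by
  induction m with
  | zero => rfl
  | succ m ih => rw [dyi_succ, dx_dy, ih, dyi_succ]

/-- Leibniz rule. -/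
theorem dyi_mul (m : ℕ) (f g : S) :
    dy^[m] (f * g) = ∑ i ∈ Finset.range (m + 1), (m.choose i : S) * (dy^[i] f * dy^[m - i] g) := by
  induction m with
  | zero => simp
  | succ m ih =>
    rw [dyi_succ, ih, map_sum,
      Finset.sum_choose_succ_mul (fun i j => dy^[i] f * dy^[j] g) m, ← Finset.sum_add_distrib]
    refine Finset.sum_congr rfl fun i hi => ?_
    have hi' : i ≤ m := Nat.lt_succ_iff.1 (Finset.mem_range.1 hi)
    rw [dy_mul, dy_mul, dy_natCast, Nat.succ_sub hi', dyi_succ, dyi_succ]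
    ring

/-! ### Locality -/

theorem dv_congr {U : Set (ℝ × ℝ)} (hU : IsOpen U) {f g : S} (h : ∀ p ∈ U, f p = g p)
    (v : ℝ × ℝ) : ∀ p ∈ U, dv v f p = dv v g p := fun p hp => by
  have : (f : ℝ × ℝ → ℝ) =ᶠ[nhds p] g := Filter.eventually_of_mem (hU.mem_nhds hp) h
  rw [dv_apply, dv_apply, this.fderiv_eq]

theorem dx_congr {U : Set (ℝ × ℝ)} (hU : IsOpen U) {f g : S} (h : ∀ p ∈ U, f p = g p) :
    ∀ p ∈ U, dx f p = dx g p := dv_congr hU h _
theorem dy_congr {U : Set (ℝ × ℝ)} (hU : IsOpen U) {f g : S} (h : ∀ p ∈ U, f p = g p) :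
    ∀ p ∈ U, dy f p = dy g p := dv_congr hU h _
theorem dyi_congr {U : Set (ℝ × ℝ)} (hU : IsOpen U) {f g : S} (h : ∀ p ∈ U, f p = g p) (m : ℕ) :
    ∀ p ∈ U, (dy^[m] f) p = (dy^[m] g) p := by
  induction m with
  | zero => exact h
  | succ m ih => rw [dyi_succ, dyi_succ]; exact dy_congr hU ih

/-! ### Composition -/

/-- Post-composition with a smooth function of one variable. -/
def comp1 (h : ℝ → ℝ) (hh : ContDiff ℝ ∞ h) (f : S) : S := mk (fun p => h (f p)) (hh.comp (S.smooth f))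

@[simp] theorem comp1_apply (h : ℝ → ℝ) (hh : ContDiff ℝ ∞ h) (f : S) (p : ℝ × ℝ) :
    comp1 h hh f p = h (f p) := rfl

theorem contDiff_deriv' {h : ℝ → ℝ} (hh : ContDiff ℝ ∞ h) : ContDiff ℝ ∞ (deriv h) :=
  (contDiff_infty_iff_deriv.1 hh).2

theorem dv_comp1 (v : ℝ × ℝ) (h : ℝ → ℝ) (hh : ContDiff ℝ ∞ h) (f : S) :
    dv v (comp1 h hh f) = comp1 (deriv h) (contDiff_deriv' hh) f * dv v f := S.ext fun p => by
  have h1 : HasDerivAt h (deriv h (f p)) (f p) := (hh.differentiable (by simp) _).hasDerivAt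
  have := h1.comp_hasFDerivAt p (S.diff f p).hasFDerivAt
  change fderiv ℝ (h ∘ (f : ℝ × ℝ → ℝ)) p v = _
  rw [this.fderiv]; rfl

theorem dx_comp1 (h : ℝ → ℝ) (hh : ContDiff ℝ ∞ h) (f : S) :
    dx (comp1 h hh f) = comp1 (deriv h) (contDiff_deriv' hh) f * dx f := dv_comp1 _ h hh f
theorem dy_comp1 (h : ℝ → ℝ) (hh : ContDiff ℝ ∞ h) (f : S) :
    dy (comp1 h hh f) = comp1 (deriv h) (contDiff_deriv' hh) f * dy f := dv_comp1 _ h hh f

/-- Exponential. -/
noncomputable def sexp (f : S) : S := comp1 Real.exp Real.contDiff_exp f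

@[simp] theorem sexp_apply (f : S) (p : ℝ × ℝ) : sexp f p = Real.exp (f p) := rfl
theorem dv_sexp (v : ℝ × ℝ) (f : S) : dv v (sexp f) = sexp f * dv v f := by
  rw [sexp, dv_comp1]; congr 1; exact S.ext fun p => by simp
theorem dx_sexp (f : S) : dx (sexp f) = sexp f * dx f := dv_sexp _ f
theorem dy_sexp (f : S) : dy (sexp f) = sexp f * dy f := dv_sexp _ f

/-- Dilation `f (c • ·)`. -/
def dil (c : ℝ) (f : S) : S := mk (fun p => f (c • p)) ((S.smooth f).comp (contDiff_const_smul c))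

@[simp] theorem dil_apply (c : ℝ) (f : S) (p : ℝ × ℝ) : dil c f p = f (c • p) := rfl

theorem dv_dil (v : ℝ × ℝ) (c : ℝ) (f : S) : dv v (dil c f) = c • dil c (dv v f) := S.ext fun p => by
  have h1 : HasFDerivAt (fun q : ℝ × ℝ => c • q) (c • ContinuousLinearMap.id ℝ (ℝ × ℝ)) p :=
    (hasFDerivAt_id p).const_smul c
  have := ((S.diff f (c • p)).hasFDerivAt).comp p h1
  change fderiv ℝ ((f : ℝ × ℝ → ℝ) ∘ fun q : ℝ × ℝ => c • q) p v = _
  rw [this.fderiv]
  simp [dv_apply]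

theorem dx_dil (c : ℝ) (f : S) : dx (dil c f) = c • dil c (dx f) := dv_dil _ c f
theorem dy_dil (c : ℝ) (f : S) : dy (dil c f) = c • dil c (dy f) := dv_dil _ c f
theorem dyi_dil (m : ℕ) (c : ℝ) (f : S) : dy^[m] (dil c f) = c ^ m • dil c (dy^[m] f) := by
  induction m with
  | zero => simp
  | succ m ih => rw [dyi_succ, ih, map_smul, dy_dil, dyi_succ, smul_smul, pow_succ]

/-- Laplacian. -/
noncomputable def lap (f : S) : S := dx (dx f) + dy (dy f)

/-- A function smooth on an open ball agrees on a smaller closed ball with an element of `S`. -/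
theorem exists_extension {f : ℝ × ℝ → ℝ} {r R : ℝ} (hr : 0 < r) (hrR : r < R)
    (hf : ContDiffOn ℝ ∞ f (Metric.ball 0 R)) : ∃ g : S, ∀ p, ‖p‖ ≤ r → g p = f p := by
  let b : ContDiffBump (0 : ℝ × ℝ) := ⟨r, (r + R) / 2, hr, by linarith⟩
  refine ⟨mk (fun p => b p * f p) ?_, fun p hp => ?_⟩
  · rw [contDiff_iff_contDiffAt]
    intro p
    by_cases hp : ‖p‖ < R
    · exact b.contDiff.contDiffAt.mul
        (hf.contDiffAt (Metric.isOpen_ball.mem_nhds (by simpa using hp)))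
    · have : (fun p => b p * f p) =ᶠ[nhds p] fun _ => 0 := by
        have ho : IsOpen {q : ℝ × ℝ | (r + R) / 2 < ‖q‖} := isOpen_lt continuous_const continuous_norm
        filter_upwards [ho.mem_nhds (show (r + R) / 2 < ‖p‖ by linarith)] with q hq
        rw [b.zero_of_le_dist (by simpa [b] using hq.le), zero_mul]
      exact contDiffAt_const.congr_of_eventuallyEq this
  · rw [mk_apply, b.one_of_mem_closedBall (by simpa [b] using hp), one_mul]

end Crest.Agent.R220
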