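import Mathlib

/-!
Row 220 (S0341): positivity of the multiplier form.
-/

set_option autoImplicit false
open Filter Topology

namespace Crest.Agent.R220.Pos

/-- Coefficient of `V²`. -/
noncomputable def cQQ (m : ℕ) (x y ν M Ny My e _κ _κx _κy a b : ℝ) : ℝ :=
  let t := M * ν
  let νy := -(ν ^ 2 * Ny)
  let ty := My * ν + M * νy
  let wb := (y + x * t) * ν ^ (2 * m + 2)
  let wby := (1 + x * ty) * ν ^ (2 * m + 2) + (y + x * t) * (2 * m + 2) * ν ^ (2 * m + 1) * νy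
  wby / 2 - wb * (2 * (e * a) * t) - (1 / 2 - ty * (x / 2)) / 2 -
    x / 2 * (2 * (m + 1) * ty - 2 * t * (e * b + t * (e * a)))

/-- Coefficient of `P²`, divided by `e`. -/
noncomputable def cPP (m : ℕ) (x y ν M Ny My e κ κx κy a b : ℝ) : ℝ :=
  let t := M * ν
  let νy := -(ν ^ 2 * Ny)
  let ty := My * ν + M * νy
  let k := κ * ν ^ 2
  let Λ := 1 + t ^ 2 + e * k
  let νx := -(ν ^ 2 * My) - e * a * ν * Λ
  let ky := κy * ν ^ 2 + 2 * κ * ν * νy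
  let kx := κx * ν ^ 2 + 2 * κ * ν * νx
  let τ := κy * ν ^ 2 + κ * ν * νy - Λ * (b + t * a)
  let wb := (y + x * t) * ν ^ (2 * m + 2)
  let wby := (1 + x * ty) * ν ^ (2 * m + 2) + (y + x * t) * (2 * m + 2) * ν ^ (2 * m + 1) * νy
  let α₁ := ty + e * a * (1 + t ^ 2 - e * k)
  let α₂ := -((m + 1) * ky) - τ - (b + t * a) * (1 + t ^ 2 - e * k)
  (-(wby * k) / 2) - wb * (ky / 2 + α₂) + (1 / 2 - ty * (x / 2)) * k / 2 +
    x / 2 * ((kx - t * ky) / 2 + k * α₁)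

/-- Coefficient of `P V`, divided by `e`. -/
noncomputable def cPQ (m : ℕ) (x y ν M Ny _My e κ _κx κy a b : ℝ) : ℝ :=
  let t := M * ν
  let νy := -(ν ^ 2 * Ny)
  let k := κ * ν ^ 2
  let Λ := 1 + t ^ 2 + e * k
  let ky := κy * ν ^ 2 + 2 * κ * ν * νy
  let τ := κy * ν ^ 2 + κ * ν * νy - Λ * (b + t * a)
  let wb := (y + x * t) * ν ^ (2 * m + 2)
  let α₂ := -((m + 1) * ky) - τ - (b + t * a) * (1 + t ^ 2 - e * k)
  (-(x * τ * ν ^ (2 * m + 2))) + wb * ((2 * m + 2) * a * Λ - a * (1 + t ^ 2 - e * k) + 2 * t * (b + t * a))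
    - x / 2 * ky - x / 2 * (α₂ - k * (2 * (e * a) * t))

/-- Substitute small parameters. -/
def ev (f : ℝ → ℝ → ℝ → ℝ → ℝ → ℝ → ℝ → ℝ → ℝ → ℝ → ℝ → ℝ → ℝ) (u : Fin 10 → ℝ) (z : ℝ × ℝ) : ℝ :=
  f z.1 z.2 (1 + u 0) (u 1) (u 2) (u 3) (u 4) (z.1 ^ 2 + z.2 ^ 2 - 1 + u 5) (2 * z.1 + u 6)
    (2 * z.2 + u 7) (u 8) (u 9)

theorem cont_QQ (m : ℕ) : Continuous fun w : (Fin 10 → ℝ) × (ℝ × ℝ) => ev (cQQ m) w.1 w.2 := by
  simp only [ev, cQQ]; fun_prop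
theorem cont_PP (m : ℕ) : Continuous fun w : (Fin 10 → ℝ) × (ℝ × ℝ) => ev (cPP m) w.1 w.2 := by
  simp only [ev, cPP]; fun_prop
theorem cont_PQ (m : ℕ) : Continuous fun w : (Fin 10 → ℝ) × (ℝ × ℝ) => ev (cPQ m) w.1 w.2 := by
  simp only [ev, cPQ]; fun_prop

theorem QQ_zero (m : ℕ) (z : ℝ × ℝ) : ev (cQQ m) 0 z = 1 / 4 := by
  simp [ev, cQQ]; norm_num
theorem PP_zero (m : ℕ) (z : ℝ × ℝ) :
    ev (cPP m) 0 z = 1 / 4 + z.1 ^ 2 / 4 + (2 * m + 11 / 4) * z.2 ^ 2 := by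
  simp [ev, cPP]; ring

theorem eventually_pos (m : ℕ) : ∀ᶠ u in 𝓝 (0 : Fin 10 → ℝ), ∀ z ∈ Metric.closedBall (0 : ℝ × ℝ) 3,
    0 < ev (cQQ m) u z - 1 / 16 ∧
      0 < 4 * (ev (cQQ m) u z - 1 / 16) * (ev (cPP m) u z - 1 / 16) - u 4 * ev (cPQ m) u z ^ 2 := by
  refine (isCompact_closedBall (0 : ℝ × ℝ) 3).eventually_forall_of_forall_eventually fun z _ => ?_
  have h1 := cont_QQ m
  have h2 := cont_PP m
  have h3 := cont_PQ m
  refine Eventually.and ?_ ?_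
  · refine Continuous.continuousAt (f := fun w : (Fin 10 → ℝ) × (ℝ × ℝ) => ev (cQQ m) w.1 w.2 - 1 / 16)
      (by fun_prop) |>.eventually (lt_mem_nhds ?_)
    simp only [QQ_zero]; norm_num
  · refine Continuous.continuousAt (f := fun w : (Fin 10 → ℝ) × (ℝ × ℝ) =>
      4 * (ev (cQQ m) w.1 w.2 - 1 / 16) * (ev (cPP m) w.1 w.2 - 1 / 16) - w.1 4 * ev (cPQ m) w.1 w.2 ^ 2)
      (by fun_prop) |>.eventually (lt_mem_nhds ?_)
    simp only [QQ_zero, PP_zero, Pi.zero_apply]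
    have : (0 : ℝ) ≤ (2 * m + 11 / 4) * z.2 ^ 2 := by positivity
    nlinarith [sq_nonneg z.1]

theorem quad {A B C e X Y : ℝ} (he : 0 ≤ e) (hA : 0 < A) (h : 0 < 4 * A * B - e * C ^ 2) :
    0 ≤ A * Y ^ 2 + e * B * X ^ 2 + e * C * (X * Y) := by
  have h1 : 4 * A * (A * Y ^ 2 + e * B * X ^ 2 + e * C * (X * Y)) =
      (2 * A * Y + e * C * X) ^ 2 + e * (4 * A * B - e * C ^ 2) * X ^ 2 := by ring
  have h2 : 0 ≤ 4 * A * (A * Y ^ 2 + e * B * X ^ 2 + e * C * (X * Y)) := by rw [h1]; positivity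
  exact (mul_nonneg_iff_of_pos_left (by positivity)).1 h2

theorem exists_delta (q : ℕ) : ∃ δ : ℝ, 0 < δ ∧ δ ≤ 1 / 4 ∧ ∀ m ≤ q,
    ∀ x y ν M Ny My e κ κx κy a b : ℝ, |x| ≤ 3 → |y| ≤ 3 → |ν - 1| ≤ 2 * δ → |M| ≤ δ → |Ny| ≤ δ →
      |My| ≤ δ → 0 ≤ e → e ≤ δ → |κ - (x ^ 2 + y ^ 2 - 1)| ≤ δ → |κx - 2 * x| ≤ δ →
      |κy - 2 * y| ≤ δ → |a| ≤ δ → |b| ≤ δ → ∀ X Y : ℝ, e / 16 * (X ^ 2 + Y ^ 2) ≤
        cQQ m x y ν M Ny My e κ κx κy a b * Y ^ 2 + e * cPP m x y ν M Ny My e κ κx κy a b * X ^ 2 +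
          e * cPQ m x y ν M Ny My e κ κx κy a b * (X * Y) := by
  have h := (eventually_all_finset (Finset.range (q + 1))).2 fun m _ => eventually_pos m
  obtain ⟨ε, hε, h⟩ := Metric.eventually_nhds_iff.1 h
  refine ⟨min (ε / 4) (1 / 4), by positivity, min_le_right _ _, ?_⟩
  intro m hm x y ν M Ny My e κ κx κy a b hx hy h0 h1 h2 h3 he h4 h5 h6 h7 h8 h9 X Y
  have hδ : min (ε / 4) (1 / 4) ≤ ε / 4 := min_le_left _ _
  have hδ' : min (ε / 4) (1 / 4) ≤ 1 / 4 := min_le_right _ _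
  let u : Fin 10 → ℝ := ![ν - 1, M, Ny, My, e, κ - (x ^ 2 + y ^ 2 - 1), κx - 2 * x, κy - 2 * y, a, b]
  have hu : dist u 0 < ε := by
    rw [dist_zero_right, pi_norm_lt_iff hε]
    have he' : |e| ≤ min (ε / 4) (1 / 4) := by rwa [abs_of_nonneg he]
    intro i
    fin_cases i <;> simp only [u, Real.norm_eq_abs] <;> simp <;> linarith
  obtain ⟨p1, p2⟩ := h hu m (Finset.mem_range.2 (by omega)) (x, y) (by
    simp only [mem_closedBall_zero_iff, Prod.norm_mk, Real.norm_eq_abs]; exact max_le hx hy)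
  have key : ∀ f, ev f u (x, y) = f x y ν M Ny My e κ κx κy a b := fun f => by simp [ev, u]
  have hu4 : u 4 = e := by simp [u]
  rw [key, key, key, hu4] at p2
  rw [key] at p1
  have := quad (X := X) (Y := Y) he p1 p2
  have h10 : e * Y ^ 2 ≤ 1 * Y ^ 2 := mul_le_mul_of_nonneg_right (by linarith) (sq_nonneg _)
  nlinarith

end Crest.Agent.R220.Pos
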