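import Crest.Agent.R220.Reg
import Crest.Agent.R220.Pos

/-!
Row 220 (S0341): the bootstrap and the analytic core.
-/

set_option autoImplicit false
open scoped ContDiff
open MeasureTheory Filter

namespace Crest.Agent.R220

theorem lb_dil {u : S} (hu : Test u) {lam : ℕ → ℝ} (hl : ∀ n, 0 < lam n) :
    LB (fun n => lam n • dil (lam n) u) := fun ζ hζ => by
  obtain ⟨B, hB0, hB⟩ := hζ.bound
  refine ⟨B ^ 2 * ∫ p, u p ^ 2, fun n => ?_⟩
  have hi : Integrable (fun p => u p ^ 2) := by simpa using hu.integrable_sq 1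
  have hi' : Integrable (fun p : ℝ × ℝ => u (lam n • p) ^ 2) := hi.comp_smul (hl n).ne'
  have hc : ∫ p : ℝ × ℝ, u (lam n • p) ^ 2 = (lam n ^ 2)⁻¹ * ∫ p, u p ^ 2 := by
    rw [Measure.integral_comp_smul volume (fun p => u p ^ 2) (lam n)]
    simp [abs_of_pos (hl n)]
  calc ∫ p, (ζ p * (lam n • dil (lam n) u : S) p) ^ 2
      ≤ ∫ p : ℝ × ℝ, B ^ 2 * lam n ^ 2 * u (lam n • p) ^ 2 := by
        refine integral_mono (hζ.integrable_sq _) (hi'.const_mul _) fun p => ?_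
        have h2 : ζ p ^ 2 ≤ B ^ 2 := by
          rw [← sq_abs]; exact pow_le_pow_left₀ (abs_nonneg _) (hB p) 2
        simp only [smul_apply, dil_apply, mul_pow, mul_assoc]
        exact mul_le_mul_of_nonneg_right h2 (by positivity)
    _ = _ := by
        rw [integral_const_mul, hc]
        have := (hl n).ne'
        field_simp

theorem mul_Psi (q : ℕ) (χ : S) (lam : ℝ) :
    X * Psi q χ lam = lam • dil lam (X * dy^[q] (lap χ)) ∧
      Y * Psi q χ lam = lam • dil lam (Y * dy^[q] (lap χ)) := by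
  constructor <;> refine S.ext fun p => ?_ <;> simp [Psi] <;> ring

namespace Data
variable {q : ℕ} {δ : ℝ} (D : Data q δ)

theorem weighted {i : ℕ} (hi : i ≤ q) :
    LB (fun n => X * dy^[i] (D.κ n)) ∧ LB (fun n => Y * dy^[i] (D.κ n)) := by
  rcases hi.lt_or_eq with hi | rfl
  · exact ⟨(SB.const _).mul_LB (D.Hκ i (by omega)), (SB.const _).mul_LB (D.Hκ i (by omega))⟩
  · have hχ : Test D.χ := ⟨1, by norm_num, D.χ_supp⟩
    have hl : ∀ n, 0 < D.l n ^ 2 := fun n => by have := D.hl1 n; positivity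
    constructor
    · refine ((D.hw.mul_LB (lb_dil ((hχ.lap.dyi i).mul_left X) hl)).add
        ((SB.const X).mul_LB D.hg)).congr fun n p hp => ?_
      rw [← (mul_Psi i D.χ _).1]; sev; rw [D.top n p hp]; ring
    · refine ((D.hw.mul_LB (lb_dil ((hχ.lap.dyi i).mul_left Y) hl)).add
        ((SB.const Y).mul_LB D.hg)).congr fun n p hp => ?_
      rw [← (mul_Psi i D.χ _).2]; sev; rw [D.top n p hp]; ring

/-- `∂_y^m N`. -/
noncomputable def P (m n : ℕ) : S := dy^[m] (D.N n)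
/-- `∂_y^m M - t ∂_y^m N`. -/
noncomputable def V (m n : ℕ) : S := dy^[m] (D.M n) - D.t n * dy^[m] (D.N n)
/-- Remainder in `∂_y^m L`. -/
noncomputable def ρ (m n : ℕ) : S :=
  dy^[m] (D.L n) - ((D.t n ^ 2 - D.k n) * D.P m n + 2 * D.t n * D.V m n)
/-- Coefficients of the differentiated system. -/
noncomputable def α₁ (n : ℕ) : S := dy (D.t n) + D.a n * (1 + D.t n ^ 2 - D.k n)
@[inherit_doc α₁] noncomputable def β₁ (n : ℕ) : S := 2 * D.a n * D.t n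
@[inherit_doc α₁] noncomputable def α₂ (m n : ℕ) : S :=
  -((m + 1 : ℕ) * dy (D.k n)) - (dx (D.t n) - D.t n * dy (D.t n)) -
    (D.b n + D.t n * D.a n) * (1 + D.t n ^ 2 - D.k n)
@[inherit_doc α₁] noncomputable def β₂ (m n : ℕ) : S :=
  2 * (m + 1 : ℕ) * dy (D.t n) - 2 * D.t n * (D.b n + D.t n * D.a n)
/-- Sources of the differentiated system. -/
noncomputable def h₁ (m n : ℕ) : S :=
  dx (D.P m n) - D.t n * dy (D.P m n) - (dy (D.V m n) + D.α₁ n * D.P m n + D.β₁ n * D.V m n)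
@[inherit_doc h₁] noncomputable def h₂ (m n : ℕ) : S :=
  dx (D.V m n) - D.t n * dy (D.V m n) -
    (-(D.k n * dy (D.P m n)) + D.α₂ m n * D.P m n + D.β₂ m n * D.V m n + D.ν n * dy^[m + 1] (D.κ n))

variable {D}

theorem gauss_i (i n : ℕ) : ∀ p ∈ Ω,
    (dy^[i] (D.L n * D.N n)) p - (dy^[i] (D.M n * D.M n)) p = (dy^[i] (D.κ n)) p := fun p hp => by
  rw [← sub_apply, ← dyi_sub]
  exact dyi_congr isOpen_Ω (fun p hp => by sev; linear_combination D.gauss n p hp) i p hp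

theorem dxN_i (i n : ℕ) : ∀ p ∈ Ω, dx (dy^[i] (D.N n)) p =
    dy (dy^[i] (D.M n)) p + (dy^[i] (D.a n * (D.L n + D.N n))) p := fun p hp => by
  rw [dx_dyi, dyi_congr isOpen_Ω (dxN n) i p hp, dyi_add, add_apply, ← dyi_succ, dyi_succ']

theorem dxM_i (i n : ℕ) : ∀ p ∈ Ω, dx (dy^[i] (D.M n)) p =
    dy (dy^[i] (D.L n)) p - (dy^[i] (D.b n * (D.L n + D.N n))) p := fun p hp => by
  rw [dx_dyi, dyi_congr isOpen_Ω (dxM n) i p hp, dyi_sub, sub_apply, ← dyi_succ, dyi_succ']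

theorem dyL (hδ : δ ≤ 1 / 4) (n : ℕ) : ∀ p ∈ Ω, dy (D.L n) p =
    (2 * D.M n p * dy (D.M n) p + dy (D.κ n) p) * D.ν n p -
      (D.M n p ^ 2 + D.κ n p) * (D.ν n p ^ 2 * dy (D.N n) p) := fun p hp => by
  rw [dy_congr isOpen_Ω (L_eq hδ n) p hp]
  simp only [dy_mul, map_add]
  sev
  rw [dy_nu hδ n p hp]; ring

section level
variable (hδ : δ ≤ 1 / 4) {j : ℕ} (hj : 3 ≤ j) (hjq : j + 3 ≤ q - 1) (hL : Hy (j + 2) D.L)
  (hM : Hy (j + 2) D.M) (hN : Hy (j + 2) D.N)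
include hδ hj hjq hL hM hN

theorem lb_ρ : LB (D.ρ (j + 3)) := by
  obtain ⟨cL, cM, cN⟩ := cy_of_hy hδ (by omega) hL hM hN
  refine ((sb_nu (D := D) hδ).mul_LB (((D.Hκ (j + 3) hjq).sub (rem3 hj hL hN cL cN)).add
    (rem3 hj hM hM cM cM))).congr fun n p hp => ?_
  have h1 := gauss_i (D := D) (j + 3) n p hp
  have h2 := inv (D := D) hδ n p hp
  have h3 := L_eq (D := D) hδ n p hp
  simp only [ρ, P, V, t, k]
  sev; sev at h3
  rw [← h1, h3]
  linear_combination (dy^[j + 3] (D.L n)) p * h2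

theorem lb_h₁ : LB (D.h₁ (j + 3)) := by
  refine ((D.Ca.sb.mul_LB (lb_ρ hδ hj hjq hL hM hN)).add
    (rem1 (D.Ca.mono hjq) (hL.add hN))).congr fun n p hp => ?_
  have h1 := dxN_i (D := D) (j + 3) n p hp
  simp only [h₁, ρ, P, V, α₁, β₁, map_sub, dy_mul, dyi_add]
  sev
  rw [h1]; ring

theorem lb_h₂ : LB (D.h₂ (j + 3)) := by
  obtain ⟨cL, cM, cN⟩ := cy_of_hy hδ (by omega) hL hM hN
  have hρ := lb_ρ hδ hj hjq hL hM hN
  have r1 := rem1 (D.Ca.mono hjq) (hL.add hN)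
  have r2 := rem1 (D.Cb.mono hjq) (hL.add hN)
  have sν := sb_nu (D := D) hδ
  refine ((((sν.mul_LB ((rem4 hj hM hM cM cM).sub (rem4 hj hL hN cL cN))).sub
    ((((SB.const ((j + 4 : ℕ) : S)).mul sν).mul (D.CN 1 (by omega))).mul_LB hρ)).sub
    ((D.Cb.sb.mul_LB hρ).add r2)).sub ((cy_t (D := D) hδ).sb.mul_LB ((D.Ca.sb.mul_LB hρ).add r1))).congr
    fun n p hp => ?_
  have h1 := dxN_i (D := D) (j + 3) n p hp
  have h1' := dxM_i (D := D) (j + 3) n p hp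
  have h2 := inv (D := D) hδ n p hp
  have h3 := L_eq (D := D) hδ n p hp
  have h4 := gauss_i (D := D) (j + 4) n p hp
  have h5 := dyL (D := D) hδ n p hp
  have h6 := dy_nu (D := D) hδ n p hp
  simp only [h₂, ρ, P, V, α₂, β₂, t, k, map_sub, dy_mul, dx_mul, dyi_add, sq, Function.iterate_one]
  sev; sev at h3
  rw [h1, h1', ← h4, h3, h5, h6]
  push_cast
  linear_combination (dy (dy^[j + 3] (D.L n))) p * h2

theorem ell (hq : 7 ≤ q) (ζ : S) (hζ : Test ζ) (hζ0 : ∀ p, ‖p‖ < 2 → ζ p = 0) :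
    TL (fun n => ζ * D.P (j + 3) n) ∧ TL (fun n => ζ * D.V (j + 3) n) := by
  have hLN := hL.add hN
  have he0 := D.e0_pos
  refine elliptic (P' := fun n => dy^[j + 2] (D.N n)) (Q' := fun n => dy^[j + 2] (D.M n))
    (a := fun n => dy^[j + 2] (D.a n * (D.L n + D.N n)))
    (ρ := fun n => D.ρ (j + 3) n - dy^[j + 2] (D.b n * (D.L n + D.N n))) (c := D.e0 / 2)
    (by positivity) (by linarith [(D.he 0).1, (D.he 0).2]) (cy_t (D := D) hδ).sb (cy_k (D := D) hq hδ).sb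
    (hN _ le_rfl) ((D.Ca.mono (by omega)).mul_Hy hLN _ le_rfl)
    ((lb_ρ hδ hj hjq hL hM hN).sub ((D.Cb.mono (by omega)).mul_Hy hLN _ le_rfl))
    (fun n p _ => ?_) (fun n p _ => ?_) (fun n p hp => ?_) (fun n p hp => ?_)
    (fun n p hp h2 => ?_) hζ hζ0
  · rw [P, dyi_succ (j + 2)]
  · simp only [P, V, dyi_succ (j + 2)]; sev; ring
  · rw [dxN_i _ n p hp]; simp only [P, V, dyi_succ (j + 2)]; sev; ring
  · rw [dxM_i _ n p hp]; simp only [ρ, dyi_succ (j + 2)]; sev; ring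
  · simp only [k]; sev
    obtain ⟨h3, h4⟩ := abs_le.1 (nu_near (D := D) hδ n p hp)
    obtain ⟨h5, -⟩ := abs_le.1 (D.smallκ n p hp).1
    obtain ⟨h6, h7⟩ := D.he n
    have h8 : 4 ≤ p.1 ^ 2 + p.2 ^ 2 := by
      rw [Prod.norm_def, le_max_iff, Real.norm_eq_abs, Real.norm_eq_abs] at h2
      rcases h2 with h2 | h2
      · nlinarith [sq_abs p.1, sq_nonneg p.2]
      · nlinarith [sq_abs p.2, sq_nonneg p.1]
    have h9 : 2 * D.e0 ≤ D.κ n p := by nlinarith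
    have h10 : 1 / 4 ≤ D.ν n p ^ 2 := by nlinarith
    nlinarith

theorem lb_PV (hq : 7 ≤ q)
    (hpos : ∀ x y ν M Ny My e κ κx κy a b : ℝ, |x| ≤ 3 → |y| ≤ 3 → |ν - 1| ≤ 2 * δ → |M| ≤ δ →
      |Ny| ≤ δ → |My| ≤ δ → 0 ≤ e → e ≤ δ → |κ - (x ^ 2 + y ^ 2 - 1)| ≤ δ → |κx - 2 * x| ≤ δ →
      |κy - 2 * y| ≤ δ → |a| ≤ δ → |b| ≤ δ → ∀ X Y : ℝ, e / 16 * (X ^ 2 + Y ^ 2) ≤
        Pos.cQQ (j + 3) x y ν M Ny My e κ κx κy a b * Y ^ 2 +
          e * Pos.cPP (j + 3) x y ν M Ny My e κ κx κy a b * X ^ 2 +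
          e * Pos.cPQ (j + 3) x y ν M Ny My e κ κx κy a b * (X * Y)) :
    LB (D.P (j + 3)) ∧ LB (D.V (j + 3)) := by
  have he0 := D.e0_pos
  have sν := sb_nu (D := D) hδ
  have st := (cy_t (D := D) hδ).sb
  have sk := (cy_k (D := D) hq hδ).sb
  have swa : SB (fun _ => C (1 / 2) * X) := SB.const _
  have swb := ((SB.const Y).add ((SB.const X).mul st)).mul (sν.pow (2 * (j + 3) + 1 + 1))
  have H1 := lb_h₁ hδ hj hjq hL hM hN
  have H2 := lb_h₂ hδ hj hjq hL hM hN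
  obtain ⟨wX, wY⟩ := D.weighted (i := j + 3 + 1) (by omega)
  refine energy (t := D.t) (k := D.k) (α₁ := D.α₁) (β₁ := D.β₁) (α₂ := D.α₂ (j + 3))
    (β₂ := D.β₂ (j + 3)) (h₁ := D.h₁ (j + 3))
    (h₂ := fun n => D.ν n * dy^[j + 3 + 1] (D.κ n) + D.h₂ (j + 3) n) (c := D.e0 / 16)
    (by positivity) st sk swa swb ?_ ?_ (fun n p _ => ?_) (fun n p _ => ?_) (fun n p hp x y => ?_)
    (ell hδ hj hjq hL hM hN hq)
  · refine ((((sν.pow (2 * (j + 3) + 1 + 1)).mul sν).mul_LB (wY.add (st.mul_LB wX))).add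
      ((swb.mul_LB H2).sub ((swa.mul sk).mul_LB H1))).congr fun n p _ => ?_
    sev; ring
  · refine (((swb.mul_LB H1).add (swa.mul_LB H2)).add
      (((SB.const (C (1 / 2))).mul sν).mul_LB wX)).congr fun n p _ => ?_
    sev; ring
  · simp only [h₁]; sev; ring
  · simp only [h₂]; sev; ring
  · obtain ⟨e1, e2⟩ := D.he n
    have he : 0 < D.e n := by linarith
    obtain ⟨s1, s2, s3, s4⟩ := D.small n p hp
    obtain ⟨s5, s6, s7, s8, s9⟩ := D.smallκ n p hp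
    have hdiv : ∀ u v : ℝ, |u - D.e n * v| ≤ δ * D.e n → |u / D.e n - v| ≤ δ := fun u v h => by
      have : u / D.e n - v = (u - D.e n * v) / D.e n := by field_simp
      rw [this, abs_div, abs_of_pos he, div_le_iff₀ he]; exact h
    have hdiv' : ∀ u : ℝ, |u| ≤ δ * D.e n → |u / D.e n| ≤ δ := fun u h => by
      simpa using hdiv u 0 (by simpa using h)
    have hp3 := (mem_Ω.1 hp).le
    have key := hpos p.1 p.2 _ _ _ _ _ _ _ _ _ _ ((abs_fst_le p).trans hp3)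
      ((abs_snd_le p).trans hp3) (nu_near (D := D) hδ n p hp) s2 s3 s4 he.le e2 (hdiv _ _ s5) (hdiv _ _ s6)
      (hdiv _ _ s7) (hdiv' _ s8) (hdiv' _ s9) x y
    have h0 : D.e0 / 16 * (x ^ 2 + y ^ 2) ≤ D.e n / 16 * (x ^ 2 + y ^ 2) := by gcongr
    refine h0.trans (key.trans (le_of_eq ?_))
    have h2 := inv (D := D) hδ n p hp
    have h3 := L_eq (D := D) hδ n p hp
    have h5 := dyL (D := D) hδ n p hp
    have h6 := dy_nu (D := D) hδ n p hp
    have h7 := dx_nu (D := D) hδ n p hp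
    have h8 := dxN (D := D) n p hp
    have h9 := dxM (D := D) n p hp
    sev at h3 h8 h9
    have hν : D.ν n p ≠ 0 := left_ne_zero_of_mul_eq_one h2
    have hN' : D.N n p = (D.ν n p)⁻¹ := eq_inv_of_mul_eq_one_right h2
    rw [h3, hN'] at h8 h9
    rw [h5] at h9
    rw [h8] at h7
    simp only [α₁, β₁, α₂, β₂, t, k, map_add, dx_mul, dy_mul, dx_pow, dy_pow, dx_X, dx_Y, dy_X,
      dy_Y, dx_C, dy_C, Pos.cQQ, Pos.cPP, Pos.cPQ]
    sev
    rw [h9, h7, h6]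
    push_cast
    field_simp
    ring

theorem step (hq : 7 ≤ q) (h : LB (D.P (j + 3)) ∧ LB (D.V (j + 3))) :
    Hy (j + 3) D.L ∧ Hy (j + 3) D.M ∧ Hy (j + 3) D.N := by
  have st := (cy_t (D := D) hδ).sb
  have sk := (cy_k (D := D) hq hδ).sb
  have ext : ∀ f : ℕ → S, Hy (j + 2) f → LB (fun n => dy^[j + 3] (f n)) → Hy (j + 3) f :=
    fun f h1 h2 i hi => by
      rcases hi.lt_or_eq with hi | rfl
      · exact h1 i (by omega)
      · exact h2
  refine ⟨ext _ hL ?_, ext _ hM ?_, ext _ hN h.1⟩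
  · refine ((lb_ρ hδ hj hjq hL hM hN).add ((((st.pow 2).sub sk).mul_LB h.1).add
      (((SB.const 2).mul st).mul_LB h.2))).congr fun n p _ => ?_
    simp only [ρ]; sev; ring
  · refine (h.2.add (st.mul_LB h.1)).congr fun n p _ => ?_
    simp only [V, P]; sev; ring

end level

end Data

theorem core (hfin : FinalStmt) : CoreStmt := fun q hq => by
  obtain ⟨δ, hδ0, hδ, hpos⟩ := Pos.exists_delta q
  refine ⟨δ, hδ0, ⟨fun D => ?_⟩⟩
  have ind : ∀ j, 3 ≤ j → j + 2 ≤ q - 1 → Hy (j + 2) D.L ∧ Hy (j + 2) D.M ∧ Hy (j + 2) D.N := by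
    intro j hj
    induction j, hj using Nat.le_induction with
    | base => exact fun _ => ⟨D.CL.toHy, D.CM.toHy, D.CN.toHy⟩
    | succ j hj ih =>
      intro h
      obtain ⟨hL, hM, hN⟩ := ih (by omega)
      exact Data.step hδ hj h hL hM hN hq
        (Data.lb_PV hδ hj h hL hM hN hq (hpos (j + 3) (by omega)))
  obtain ⟨j, rfl⟩ : ∃ j, q = j + 4 := ⟨q - 4, by omega⟩
  have hj : 3 ≤ j := by omega
  obtain ⟨hL, hM, hN⟩ := ind j hj (by omega)
  have hjq : j + 3 ≤ j + 4 - 1 := by omega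
  obtain ⟨hP, hV⟩ := Data.lb_PV hδ hj hjq hL hM hN hq (hpos (j + 3) (by omega))
  have H1 := Data.lb_h₁ hδ hj hjq hL hM hN
  have H2 := Data.lb_h₂ hδ hj hjq hL hM hN
  have sν := Data.sb_nu (D := D) hδ
  have ct := Data.cy_t (D := D) hδ
  have ck := Data.cy_k (D := D) hq hδ
  have st := ct.sb
  have sk := ck.sb
  have sty : SB (fun n => dy (D.t n)) := ct 1 (by omega)
  have sky : SB (fun n => dy (D.k n)) := ck 1 (by omega)
  have sνy : SB (fun n => dy (D.ν n)) := Data.cy_nu hδ D.CN 1 (by omega)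
  have stx := Data.sb_dxt (D := D) hδ
  have sl := ((SB.const 1).add (st.pow 2)).sub sk
  have sba := D.Cb.sb.add (st.mul D.Ca.sb)
  have a1 : SB D.α₁ := sty.add (D.Ca.sb.mul sl)
  have b1 : SB D.β₁ := ((SB.const 2).mul D.Ca.sb).mul st
  have a2 : SB (D.α₂ (j + 3)) :=
    ((((SB.const _).mul sky).neg).sub (stx.sub (st.mul sty))).sub (sba.mul sl)
  have b2 : SB (D.β₂ (j + 3)) :=
    ((SB.const _).mul sty).sub (((SB.const 2).mul st).mul sba)
  have he0 := D.e0_pos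
  refine hfin (j + 4) D.χ D.l (D.P (j + 3)) (D.V (j + 3)) D.t D.k (fun n => D.ν n * D.w n) _ _
    (D.e0 / 2) D.χ_nonneg D.χ_pos D.χ_supp D.hl hP hV
    (((a1.mul_LB hP).add (b1.mul_LB hV)).add H1)
    ((((a2.mul_LB hP).add (b2.mul_LB hV)).add H2).add (sν.mul_LB D.hg)) stx sty
    (Data.sb_dxk hδ) sky ?_ ?_ (fun n => ?_) (fun n => ?_) (by positivity) (fun n => ?_)
    (fun n p _ => ?_) (fun n p hp => ?_)
  · simp only [dx_mul]
    exact ((Data.sb_dxnu hδ).mul D.hw).add (sν.mul D.hwx)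
  · simp only [dy_mul]
    exact (sνy.mul D.hw).add (sν.mul D.hwy)
  · simp [Data.t, D.M0 n]
  · obtain ⟨h3, h4⟩ := abs_le.1 (Data.nu_near (D := D) hδ n 0 zero_mem_Ω)
    obtain ⟨h5, h6⟩ := abs_le.1 (D.smallκ n 0 zero_mem_Ω).1
    obtain ⟨h7, h8⟩ := D.he n
    simp only [Prod.fst_zero, Prod.snd_zero] at h5 h6
    have h9 : D.κ n 0 ≤ 0 := by nlinarith
    have h10 : -(2 / 5) ≤ D.κ n 0 := by nlinarith
    have h11 : D.ν n 0 ^ 2 ≤ 9 / 4 := by nlinarith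
    simp only [Data.k]; sev
    constructor <;> nlinarith [sq_nonneg (D.ν n 0)]
  · obtain ⟨h3, h4⟩ := abs_le.1 (Data.nu_near (D := D) hδ n 0 zero_mem_Ω)
    have h5 := D.hw0 n
    rw [mul_apply, abs_mul, abs_of_pos (show 0 < D.ν n 0 by linarith)]
    nlinarith
  · simp only [Data.h₁]; sev; ring
  · have : (dy^[j + 3 + 1] (D.κ n)) p = _ := D.top n p hp
    simp only [Data.h₂]; sev
    rw [this]; ring

end Crest.Agent.R220
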