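import Mathlib

/-!
Row 220 (S0341): the local obstruction statement.
-/

set_option autoImplicit false
open scoped ContDiff

namespace Crest.Agent.R220

/-- The Euclidean plane. -/
abbrev E2 := EuclideanSpace ℝ (Fin 2)
/-- Euclidean three-space. -/
abbrev E3 := EuclideanSpace ℝ (Fin 3)

/-- Local obstruction: there are arbitrarily `C^j`-small conformal factors supported in an
arbitrarily small ball such that every isometric immersion of `e^{2Φ} δ` on that ball with `C^7`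
norm at most `M` has second derivative at most `μ` at the centre. -/
def LocalStmt : Prop :=
  ∀ (M μ r : ℝ) (j : ℕ), 0 < μ → 0 < r →
    ∃ Φ : E2 → ℝ, ContDiff ℝ ∞ Φ ∧ (∀ x, r ≤ ‖x‖ → Φ x = 0) ∧
      (∀ k ≤ j, ∀ x, ‖iteratedFDeriv ℝ k Φ x‖ ≤ (1 / 2 : ℝ) ^ j) ∧
      ∀ F : E2 → E3, ContDiffOn ℝ ∞ F (Metric.ball 0 r) →
        (∀ x ∈ Metric.ball (0 : E2) r, ∀ v w : E2,
          inner ℝ (fderiv ℝ F x v) (fderiv ℝ F x w) = Real.exp (2 * Φ x) * inner ℝ v w) →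
        (∀ k ≤ 7, ∀ x ∈ Metric.ball (0 : E2) r, ‖iteratedFDeriv ℝ k F x‖ ≤ M) →
        ‖fderiv ℝ (fderiv ℝ F) 0‖ ≤ μ

/-- The statement of S0341. -/
def MainStmt : Prop :=
    ∃ g : EuclideanSpace ℝ (Fin 2) →
        (EuclideanSpace ℝ (Fin 2) →L[ℝ] EuclideanSpace ℝ (Fin 2) →L[ℝ] ℝ),
      ContDiffOn ℝ ∞ g {x : EuclideanSpace ℝ (Fin 2) | ∀ i, x i ∈ Set.Ioo (-1 : ℝ) 1} ∧
      (∀ x ∈ {x : EuclideanSpace ℝ (Fin 2) | ∀ i, x i ∈ Set.Ioo (-1 : ℝ) 1}, ∀ v w, g x v w = g x w v) ∧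
      (∀ x ∈ {x : EuclideanSpace ℝ (Fin 2) | ∀ i, x i ∈ Set.Ioo (-1 : ℝ) 1}, ∀ v, v ≠ 0 → 0 < g x v v) ∧
      ∀ U : Set (EuclideanSpace ℝ (Fin 2)), IsOpen U → (0 : EuclideanSpace ℝ (Fin 2)) ∈ U →
        U ⊆ {x : EuclideanSpace ℝ (Fin 2) | ∀ i, x i ∈ Set.Ioo (-1 : ℝ) 1} →
        ¬ ∃ F : EuclideanSpace ℝ (Fin 2) → EuclideanSpace ℝ (Fin 3), ContDiffOn ℝ ∞ F U ∧
          ∀ x ∈ U, ∀ v w, @inner ℝ (EuclideanSpace ℝ (Fin 3)) _ (fderiv ℝ F x v) (fderiv ℝ F x w)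
            = g x v w

end Crest.Agent.R220
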