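import Crest.Agent.R220.Basic
import Crest.Agent.R220.Local

/-!
Row 220 (S0341): definitions and the statements of the pieces of the proof.
-/

set_option autoImplicit false
open scoped ContDiff
open MeasureTheory Filter

namespace Crest.Agent.R220

/-- The open square `(-3,3)^2`. -/
def Ω : Set (ℝ × ℝ) := Metric.ball 0 3

/-- Test functions: supported in a smaller closed square. -/
def Test (ζ : S) : Prop := ∃ r : ℝ, r < 3 ∧ ∀ p, r < ‖p‖ → ζ p = 0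

/-- Locally uniformly `L²`-bounded families. -/
def LB (f : ℕ → S) : Prop := ∀ ζ : S, Test ζ → ∃ K : ℝ, ∀ n, ∫ p, (ζ p * f n p) ^ 2 ≤ K

/-- Locally uniformly bounded families. -/
def SB (f : ℕ → S) : Prop := ∀ r : ℝ, r < 3 → ∃ K : ℝ, ∀ n p, ‖p‖ ≤ r → |f n p| ≤ K

/-- `y`-derivatives up to order `k` are `LB`. -/
def Hy (k : ℕ) (f : ℕ → S) : Prop := ∀ i ≤ k, LB (fun n => dy^[i] (f n))

/-- `y`-derivatives up to order `k` are `SB`. -/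
def Cy (k : ℕ) (f : ℕ → S) : Prop := ∀ i ≤ k, SB (fun n => dy^[i] (f n))

/-- The concentrated source `λ² (∂_y^q Δ χ)(λ ·)`. -/
noncomputable def Psi (q : ℕ) (χ : S) (lam : ℝ) : S := lam ^ 2 • dil lam (dy^[q] (lap χ))

/-- The final contradiction (testing the transport equation along a characteristic). -/
def FinalStmt : Prop :=
  ∀ (q : ℕ) (χ : S) (l : ℕ → ℝ) (P Q t k w b₁ b₂ : ℕ → S) (c : ℝ),
    (∀ p, 0 ≤ χ p) → 0 < χ 0 → (∀ p, 1 < ‖p‖ → χ p = 0) → Tendsto l atTop atTop →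
    LB P → LB Q → LB b₁ → LB b₂ →
    SB (fun n => dx (t n)) → SB (fun n => dy (t n)) → SB (fun n => dx (k n)) →
    SB (fun n => dy (k n)) → SB (fun n => dx (w n)) → SB (fun n => dy (w n)) →
    (∀ n, t n 0 = 0) → (∀ n, -1 ≤ k n 0 ∧ k n 0 ≤ 0) → 0 < c → (∀ n, c ≤ |w n 0|) →
    (∀ n, ∀ p ∈ Ω, dx (P n) p - t n p * dy (P n) p = dy (Q n) p + b₁ n p) →
    (∀ n, ∀ p ∈ Ω, dx (Q n) p - t n p * dy (Q n) p
      = -(k n p * dy (P n) p) + w n p * Psi q χ (l n ^ 2) p + b₂ n p) →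
    False

/-- A family of normalised solutions of the Gauss-Codazzi system. -/
structure Data (q : ℕ) (δ : ℝ) where
  L : ℕ → S
  M : ℕ → S
  N : ℕ → S
  κ : ℕ → S
  a : ℕ → S
  b : ℕ → S
  w : ℕ → S
  g : ℕ → S
  e : ℕ → ℝ
  l : ℕ → ℝ
  χ : S
  e0 : ℝ
  e0_pos : 0 < e0
  he : ∀ n, e0 ≤ e n ∧ e n ≤ δ
  gauss : ∀ n, ∀ p ∈ Ω, L n p * N n p - M n p ^ 2 = κ n p
  cod1 : ∀ n, ∀ p ∈ Ω, dy (L n) p - dx (M n) p = b n p * (L n p + N n p)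
  cod2 : ∀ n, ∀ p ∈ Ω, dy (M n) p - dx (N n) p = -(a n p * (L n p + N n p))
  small : ∀ n, ∀ p ∈ Ω,
    |N n p - 1| ≤ δ ∧ |M n p| ≤ δ ∧ |dy (N n) p| ≤ δ ∧ |dy (M n) p| ≤ δ
  smallκ : ∀ n, ∀ p ∈ Ω,
    |κ n p - e n * (p.1 ^ 2 + p.2 ^ 2 - 1)| ≤ δ * e n ∧ |dx (κ n) p - e n * (2 * p.1)| ≤ δ * e n ∧
      |dy (κ n) p - e n * (2 * p.2)| ≤ δ * e n ∧ |a n p| ≤ δ * e n ∧ |b n p| ≤ δ * e n
  M0 : ∀ n, M n 0 = 0
  CL : Cy 5 L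
  CM : Cy 5 M
  CN : Cy 5 N
  Ca : Cy (q - 1) a
  Cb : Cy (q - 1) b
  Cκ : Cy (q - 2) κ
  Hκ : Hy (q - 1) κ
  top : ∀ n, ∀ p ∈ Ω, (dy^[q] (κ n)) p = w n p * Psi q χ (l n ^ 2) p + g n p
  hg : LB g
  hw : SB w
  hwx : SB (fun n => dx (w n))
  hwy : SB (fun n => dy (w n))
  hw0 : ∀ n, e0 ≤ |w n 0|
  χ_nonneg : ∀ p, 0 ≤ χ p
  χ_pos : 0 < χ 0
  χ_supp : ∀ p, 1 < ‖p‖ → χ p = 0
  hl1 : ∀ n, 1 ≤ l n
  hl : Tendsto l atTop atTop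

/-- The analytic core. -/
def CoreStmt : Prop := ∀ q : ℕ, 7 ≤ q → ∃ δ : ℝ, 0 < δ ∧ IsEmpty (Data q δ)

/-! ### Geometry -/

/-- Triple product. -/
noncomputable def tri (u v w : Fin 3 → S) : S :=
  u 0 * (v 1 * w 2 - v 2 * w 1) + u 1 * (v 2 * w 0 - v 0 * w 2) + u 2 * (v 0 * w 1 - v 1 * w 0)

/-- Coefficients of the second fundamental form of `f` (isometric for `e^{2φ} δ`). -/
noncomputable def sL (f : Fin 3 → S) (φ : S) : S :=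
  sexp (-(2 * φ)) * tri (fun i => dx (dx (f i))) (fun i => dx (f i)) (fun i => dy (f i))
@[inherit_doc sL] noncomputable def sM (f : Fin 3 → S) (φ : S) : S :=
  sexp (-(2 * φ)) * tri (fun i => dy (dx (f i))) (fun i => dx (f i)) (fun i => dy (f i))
@[inherit_doc sL] noncomputable def sN (f : Fin 3 → S) (φ : S) : S :=
  sexp (-(2 * φ)) * tri (fun i => dy (dy (f i))) (fun i => dx (f i)) (fun i => dy (f i))

/-- `f` is isometric for the metric `e^{2φ} δ` on `Ω`. -/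
def Isom (f : Fin 3 → S) (φ : S) : Prop :=
  ∀ p ∈ Ω, ∑ i, dx (f i) p ^ 2 = Real.exp (2 * φ p) ∧ ∑ i, dy (f i) p ^ 2 = Real.exp (2 * φ p) ∧
    ∑ i, dx (f i) p * dy (f i) p = 0

/-- `-e^{2φ} Δφ`, the determinant of the second fundamental form. -/
noncomputable def kap (φ : S) : S := -(sexp (2 * φ) * lap φ)

/-- Gauss, Codazzi and the length of the second derivatives. -/
def GeoStmt : Prop :=
  ∀ (f : Fin 3 → S) (φ : S), Isom f φ → ∀ p ∈ Ω,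
    sL f φ p * sN f φ p - sM f φ p ^ 2 = kap φ p ∧
    dy (sL f φ) p - dx (sM f φ) p = dy φ p * (sL f φ p + sN f φ p) ∧
    dy (sM f φ) p - dx (sN f φ) p = -(dx φ p * (sL f φ p + sN f φ p)) ∧
    ∑ i, dx (dx (f i)) p ^ 2 = sL f φ p ^ 2 + Real.exp (2 * φ p) * (dx φ p ^ 2 + dy φ p ^ 2) ∧
    ∑ i, dy (dx (f i)) p ^ 2 = sM f φ p ^ 2 + Real.exp (2 * φ p) * (dx φ p ^ 2 + dy φ p ^ 2) ∧
    ∑ i, dy (dy (f i)) p ^ 2 = sN f φ p ^ 2 + Real.exp (2 * φ p) * (dx φ p ^ 2 + dy φ p ^ 2)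

/-- `x² + y²`. -/
noncomputable def r2 : S := X ^ 2 + Y ^ 2

/-- Rescale, rotate (and reflect) an isometric immersion of a radial conformal metric. -/
def TransferStmt : Prop :=
  ∀ (Θ : ℝ → ℝ) (hΘ : ContDiff ℝ ∞ Θ) (M μ ρ r : ℝ) (F : E2 → E3), 0 < ρ → 6 * ρ ≤ r →
    ContDiffOn ℝ ∞ F (Metric.ball 0 r) →
    (∀ x ∈ Metric.ball (0 : E2) r, ∀ v w : E2, inner ℝ (fderiv ℝ F x v) (fderiv ℝ F x w)
      = Real.exp (2 * Θ (‖x‖ ^ 2 / ρ ^ 2)) * inner ℝ v w) →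
    (∀ k ≤ 7, ∀ x ∈ Metric.ball (0 : E2) r, ‖iteratedFDeriv ℝ k F x‖ ≤ M) →
    μ < ‖fderiv ℝ (fderiv ℝ F) 0‖ →
    ∃ f : Fin 3 → S, Isom f (comp1 Θ hΘ r2) ∧
      (∀ i j : ℕ, 1 ≤ i + j → i + j ≤ 7 → ∀ c, ∀ p ∈ Ω,
        |(dy^[i] (dx^[j] (f c))) p| ≤ 2 ^ (i + j) * ρ ^ (i + j - 1) * M) ∧
      sM f (comp1 Θ hΘ r2) 0 = 0 ∧ ρ * μ ≤ sN f (comp1 Θ hΘ r2) 0

/-! ### The model conformal factor -/

/-- Radial profile of the conformal factor. -/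
noncomputable def Theta (q : ℕ) (ε lam : ℝ) (u : ℝ) : ℝ :=
  ε * ((u / 4 - u ^ 2 / 16) * Real.smoothTransition (19 - u)) +
    (lam ^ q)⁻¹ * expNegInvGlue (1 - lam ^ 2 * u)

theorem contDiff_Theta (q : ℕ) (ε lam : ℝ) : ContDiff ℝ ∞ (Theta q ε lam) := by
  unfold Theta
  refine (contDiff_const.mul (ContDiff.mul (by fun_prop) ?_)).add (contDiff_const.mul ?_)
  · exact Real.smoothTransition.contDiff.comp (by fun_prop)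
  · exact expNegInvGlue.contDiff.comp (by fun_prop)

/-- The model conformal factor. -/
noncomputable def phi (q : ℕ) (ε lam : ℝ) : S := comp1 (Theta q ε lam) (contDiff_Theta q ε lam) r2

/-- The radial bump. -/
noncomputable def chi0 : S := comp1 expNegInvGlue expNegInvGlue.contDiff (1 - r2)

/-- Pointwise smallness of the model. -/
def ModelSmallStmt : Prop :=
  ∀ q : ℕ, 7 ≤ q → ∀ δ : ℝ, 0 < δ → ∃ ε₀ : ℝ, 0 < ε₀ ∧ ∀ ε : ℝ, 0 < ε → ε ≤ ε₀ →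
    ∃ l₀ : ℝ, ∀ lam : ℝ, l₀ ≤ lam → ∀ p ∈ Ω,
      |phi q ε lam p| ≤ 1 / 2 ∧ |dx (phi q ε lam) p| ≤ 20 * ε ∧ |dy (phi q ε lam) p| ≤ 20 * ε ∧
      |kap (phi q ε lam) p - ε * (p.1 ^ 2 + p.2 ^ 2 - 1)| ≤ δ * ε ∧
      |dx (kap (phi q ε lam)) p - ε * (2 * p.1)| ≤ δ * ε ∧
      |dy (kap (phi q ε lam)) p - ε * (2 * p.2)| ≤ δ * ε

/-- Uniform bounds for the model family. -/
def ModelFamStmt : Prop :=
  ∀ q : ℕ, 7 ≤ q → ∀ (ε : ℝ) (lam : ℕ → ℝ), (∀ n, 1 ≤ lam n) →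
    Cy (q - 1) (fun n => dx (phi q ε (lam n))) ∧ Cy (q - 1) (fun n => dy (phi q ε (lam n))) ∧
    Cy 5 (fun n => sexp (-(2 * phi q ε (lam n)))) ∧
    Cy (q - 2) (fun n => kap (phi q ε (lam n))) ∧ Hy (q - 1) (fun n => kap (phi q ε (lam n))) ∧
    SB (fun n => sexp (2 * phi q ε (lam n))) ∧ SB (fun n => dx (sexp (2 * phi q ε (lam n)))) ∧
    SB (fun n => dy (sexp (2 * phi q ε (lam n)))) ∧
    LB (fun n => dy^[q] (kap (phi q ε (lam n))) + sexp (2 * phi q ε (lam n)) * Psi q chi0 (lam n))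

/-- `C^j`-smallness of the rescaled model on the Euclidean plane. -/
def ModelE2Stmt : Prop :=
  ∀ (q j : ℕ) (ρ : ℝ), j < q → 0 < ρ → ∃ ε₀ : ℝ, 0 < ε₀ ∧ ∃ l₀ : ℝ, ∀ ε lam : ℝ, 0 < ε → ε ≤ ε₀ →
    l₀ ≤ lam →
      ContDiff ℝ ∞ (fun x : E2 => Theta q ε lam (‖x‖ ^ 2 / ρ ^ 2)) ∧
      (∀ x : E2, 6 * ρ ≤ ‖x‖ → Theta q ε lam (‖x‖ ^ 2 / ρ ^ 2) = 0) ∧
      ∀ k ≤ j, ∀ x : E2,
        ‖iteratedFDeriv ℝ k (fun x : E2 => Theta q ε lam (‖x‖ ^ 2 / ρ ^ 2)) x‖ ≤ (1 / 2 : ℝ) ^ j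

end Crest.Agent.R220
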