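import Crest.Agent.R220.Tool

/-!
Row 220 (S0341): the two abstract energy estimates.
-/

set_option autoImplicit false
open scoped ContDiff
open MeasureTheory Filter

namespace Crest.Agent.R220

/-- Families supported in a fixed smaller square and bounded in `L²`. -/
def TL (u : ℕ → S) : Prop :=
  (∃ r : ℝ, r < 3 ∧ ∀ n p, r < ‖p‖ → u n p = 0) ∧ IB (fun n p => u n p ^ 2)

/-- Families supported in a fixed smaller square. -/
def TS (u : ℕ → S) : Prop := ∃ r : ℝ, r < 3 ∧ ∀ n p, r < ‖p‖ → u n p = 0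

theorem TS.test {u : ℕ → S} (h : TS u) (n : ℕ) : Test (u n) := by
  obtain ⟨r, hr, h⟩ := h
  exact ⟨r, hr, h n⟩

theorem Test.ts {ζ : S} (h : Test ζ) (f : ℕ → S) : TS (fun n => ζ * f n) := by
  obtain ⟨r, hr, h⟩ := h
  exact ⟨r, hr, fun n p hp => by rw [mul_apply, h p hp, zero_mul]⟩

theorem TS.integrable_sq {u : ℕ → S} (h : TS u) (n : ℕ) : Integrable (fun p => u n p ^ 2) := by
  simpa using (h.test n).integrable_sq 1

theorem LB.tl {f : ℕ → S} (h : LB f) {ζ : S} (hζ : Test ζ) : TL (fun n => ζ * f n) :=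
  ⟨hζ.ts f, h.ib hζ⟩

theorem TL.add {u v : ℕ → S} (h : TL u) (h' : TL v) : TL (fun n => u n + v n) := by
  have hs : TS (fun n => u n + v n) := by
    obtain ⟨r, hr, h⟩ := h.1
    obtain ⟨r', hr', h'⟩ := h'.1
    exact ⟨max r r', max_lt hr hr', fun n p hp => by
      rw [add_apply, h n p (lt_of_le_of_lt (le_max_left _ _) hp),
        h' n p (lt_of_le_of_lt (le_max_right _ _) hp), add_zero]⟩
  refine ⟨hs, ((h.2.const_mul (c := 2) (by norm_num)).add
    (h'.2.const_mul (c := 2) (by norm_num))).of_le hs.integrable_sq fun n p => ?_⟩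
  simp only [add_apply]
  nlinarith [sq_nonneg (u n p - v n p)]

theorem SB.mul_TL {f u : ℕ → S} (hf : SB f) (h : TL u) : TL (fun n => f n * u n) := by
  obtain ⟨r, hr, hz⟩ := h.1
  have hs : TS (fun n => f n * u n) := ⟨r, hr, fun n p hp => by rw [mul_apply, hz n p hp, mul_zero]⟩
  obtain ⟨K, hK0, hK⟩ := hf.bound hr
  refine ⟨hs, (h.2.const_mul (c := K ^ 2) (sq_nonneg _)).of_le hs.integrable_sq fun n p => ?_⟩
  simp only [mul_apply]
  by_cases hp : r < ‖p‖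
  · simp [hz n p hp]
  · have h1 : f n p ^ 2 ≤ K ^ 2 := by
      rw [← sq_abs]; exact pow_le_pow_left₀ (abs_nonneg _) (hK n p (not_lt.1 hp)) 2
    rw [mul_pow]
    exact mul_le_mul_of_nonneg_right h1 (sq_nonneg _)

/-- Absorption. -/
theorem absorb {A B U V u v w z : ℕ → S} {c : ℝ} (hc : 0 < c) (hA : TS A) (hB : TS B) (hU : TS U)
    (hV : TS V) (hu : TL u) (hv : TL v) (hw : TL w) (hz : TL z)
    (h : ∀ n, ∀ p ∈ Ω, c * (U n p ^ 2 + V n p ^ 2) ≤
      dx (A n) p + dy (B n) p + U n p * u n p + V n p * v n p + w n p * z n p) :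
    TL U ∧ TL V := by
  have hc2 : 0 ≤ 2 / c := by positivity
  have hc3 : 0 ≤ 1 / (2 * c) := by positivity
  have key : IB (fun n p => U n p ^ 2 + V n p ^ 2) := by
    refine ((((((IB.div hA.test hB.test).add (hu.2.const_mul hc3)).add (hv.2.const_mul hc3)).add
      hw.2).add hz.2).const_mul hc2).of_le
      (fun n => (hU.integrable_sq n).add (hV.integrable_sq n)) fun n p => ?_
    by_cases hp : p ∈ Ω
    · have h1 := h n p hp
      have h2 : ∀ x y : ℝ, x * y ≤ c / 2 * x ^ 2 + 1 / (2 * c) * y ^ 2 := fun x y => by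
        have : c / 2 * x ^ 2 + 1 / (2 * c) * y ^ 2 - x * y = 1 / (2 * c) * (c * x - y) ^ 2 := by
          field_simp; ring
        have := mul_nonneg hc3 (sq_nonneg (c * x - y))
        linarith
      have h3 := h2 (U n p) (u n p)
      have h4 := h2 (V n p) (v n p)
      have h5 : w n p * z n p ≤ w n p ^ 2 + z n p ^ 2 := by nlinarith [sq_nonneg (w n p - z n p)]
      rw [div_mul_eq_mul_div, le_div_iff₀ hc]
      linarith
    · simp only [(hU.test n).eq_zero hp, (hV.test n).eq_zero hp, (hA.test n).dx.eq_zero hp,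
        (hB.test n).dy.eq_zero hp]
      have := mul_nonneg hc3 (sq_nonneg (u n p))
      have := mul_nonneg hc3 (sq_nonneg (v n p))
      have := sq_nonneg (w n p)
      have := sq_nonneg (z n p)
      have : 0 ≤ 2 / c * (0 + 0 + 1 / (2 * c) * u n p ^ 2 + 1 / (2 * c) * v n p ^ 2 + w n p ^ 2 +
        z n p ^ 2) := by positivity
      simpa using this
  exact ⟨⟨hU, key.of_le hU.integrable_sq fun n p => by nlinarith [sq_nonneg (V n p)]⟩,
    ⟨hV, key.of_le hV.integrable_sq fun n p => by nlinarith [sq_nonneg (U n p)]⟩⟩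

/-- The elliptic estimate in the annulus. -/
theorem elliptic {P' Q' P V t k a ρ : ℕ → S} {c : ℝ} (hc : 0 < c) (hc1 : c ≤ 1) (ht : SB t)
    (hk : SB k) (hP' : LB P') (ha : LB a) (hρ : LB ρ)
    (e1 : ∀ n, ∀ p ∈ Ω, dy (P' n) p = P n p)
    (e2 : ∀ n, ∀ p ∈ Ω, dy (Q' n) p = V n p + t n p * P n p)
    (e3 : ∀ n, ∀ p ∈ Ω, dx (P' n) p = V n p + t n p * P n p + a n p)
    (e4 : ∀ n, ∀ p ∈ Ω, dx (Q' n) p =
      (t n p ^ 2 - k n p) * P n p + 2 * t n p * V n p + ρ n p)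
    (hpos : ∀ n, ∀ p ∈ Ω, 2 ≤ ‖p‖ → c ≤ k n p) {ζ : S} (hζ : Test ζ)
    (hζ0 : ∀ p, ‖p‖ < 2 → ζ p = 0) : TL (fun n => ζ * P n) ∧ TL (fun n => ζ * V n) := by
  have x1 := hP'.tl hζ.dx
  have y1 := hP'.tl hζ.dy
  have a1 := ha.tl hζ
  have r1 := hρ.tl hζ
  have c2 := SB.const (2 : S)
  refine absorb (A := fun n => ζ * (ζ * P' n * dy (Q' n))) (B := fun n => ζ * -(ζ * P' n * dx (Q' n)))
    (u := fun n => -(2 * t n) * (dx ζ * P' n) + 2 * (t n ^ 2 - k n) * (dy ζ * P' n) +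
      -t n * (ζ * a n) + ζ * ρ n)
    (v := fun n => -2 * (dx ζ * P' n) + 2 * (2 * t n) * (dy ζ * P' n) + -1 * (ζ * a n))
    (w := fun n => 2 * (ζ * ρ n)) (z := fun n => dy ζ * P' n)
    hc (hζ.ts _) (hζ.ts _) (hζ.ts _) (hζ.ts _)
    (((((c2.mul ht).neg.mul_TL x1).add ((c2.mul ((ht.pow 2).sub hk)).mul_TL y1)).add
      (ht.neg.mul_TL a1)).add r1)
    (((c2.neg.mul_TL x1).add ((c2.mul (c2.mul ht)).mul_TL y1)).add ((SB.const (-1)).mul_TL a1))
    (c2.mul_TL r1) y1 fun n p hp => ?_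
  simp only [dx_mul, dy_mul, map_neg, dx_dy]
  sev
  rw [e1 n p hp, e2 n p hp, e3 n p hp, e4 n p hp]
  by_cases h2 : ‖p‖ < 2
  · simp [hζ0 p h2]
  · have h3 := hpos n p hp (not_lt.1 h2)
    have h4 : c * (ζ p * P n p) ^ 2 ≤ k n p * (ζ p * P n p) ^ 2 :=
      mul_le_mul_of_nonneg_right h3 (sq_nonneg _)
    have h5 : c * (ζ p * V n p) ^ 2 ≤ 1 * (ζ p * V n p) ^ 2 :=
      mul_le_mul_of_nonneg_right hc1 (sq_nonneg _)
    nlinarith

/-- The multiplier estimate. -/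
theorem energy {P V t k α₁ β₁ α₂ β₂ h₁ h₂ wa wb : ℕ → S} {c : ℝ} (hc : 0 < c) (ht : SB t)
    (hk : SB k) (hwa : SB wa) (hwb : SB wb)
    (hg₁ : LB (fun n => wb n * h₂ n - wa n * k n * h₁ n))
    (hg₂ : LB (fun n => wb n * h₁ n + wa n * h₂ n))
    (s1 : ∀ n, ∀ p ∈ Ω, dx (P n) p - t n p * dy (P n) p =
      dy (V n) p + α₁ n p * P n p + β₁ n p * V n p + h₁ n p)
    (s2 : ∀ n, ∀ p ∈ Ω, dx (V n) p - t n p * dy (V n) p =
      -(k n p * dy (P n) p) + α₂ n p * P n p + β₂ n p * V n p + h₂ n p)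
    (hpos : ∀ n, ∀ p ∈ Ω, ∀ x y : ℝ, c * (x ^ 2 + y ^ 2) ≤
      (dy (wb n) p / 2 - wb n p * β₁ n p
          - (dx (wa n) p - t n p * dy (wa n) p - dy (t n) p * wa n p) / 2 - wa n p * β₂ n p) * y ^ 2 +
      (-(dy (wb n) p * k n p) / 2 - wb n p * (dy (k n) p / 2 + α₂ n p)
          + (dx (wa n) p - t n p * dy (wa n) p - dy (t n) p * wa n p) * k n p / 2
          + wa n p * ((dx (k n) p - t n p * dy (k n) p) / 2 + k n p * α₁ n p)) * x ^ 2 +
      (-(dx (wb n) p - t n p * dy (wb n) p - dy (t n) p * wb n p) - wb n p * (α₁ n p + β₂ n p)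
          - (dy (wa n) p * k n p + wa n p * dy (k n) p) - wa n p * (α₂ n p - k n p * β₁ n p)) * (x * y))
    (hell : ∀ ζ : S, Test ζ → (∀ p, ‖p‖ < 2 → ζ p = 0) →
      TL (fun n => ζ * P n) ∧ TL (fun n => ζ * V n)) : LB P ∧ LB V := by
  have key : ∀ χ : S, Test χ → (∀ p, ‖p‖ ≤ 2 → χ p = 1) →
      TL (fun n => χ * P n) ∧ TL (fun n => χ * V n) := by
    intro χ hχ h1
    have hd : ∀ v, ∀ p, ‖p‖ < 2 → dv v χ p = 0 := fun v p hp => by
      have := dv_congr (Metric.isOpen_ball (x := (0 : ℝ × ℝ)) (ε := 2)) (f := χ) (g := 1)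
        (fun q hq => h1 q (le_of_lt (by simpa using hq))) v p (by simpa using hp)
      rwa [dv_one] at this
    obtain ⟨xP, xV⟩ := hell (dx χ) hχ.dx (hd _)
    obtain ⟨yP, yV⟩ := hell (dy χ) hχ.dy (hd _)
    have c2 := SB.const (2 : S)
    have z0 : TL (fun n => χ * (0 : S)) := (SB.const 0).toLB.tl hχ
    refine absorb
      (A := fun n => χ * (χ * (-(wb n * P n * V n) - C (1 / 2) * wa n * (V n * V n - k n * P n * P n))))
      (B := fun n => χ * (χ * (t n * (wb n * P n * V n + C (1 / 2) * wa n * (V n * V n - k n * P n * P n))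
        + C (1 / 2) * wb n * (V n * V n - k n * P n * P n) - wa n * k n * P n * V n)))
      (u := fun n => 2 * wb n * (dx χ * V n) + -(wa n * k n) * (dx χ * P n) +
        (2 * (wa n * k n) - 2 * (t n * wb n)) * (dy χ * V n) +
        (t n * wa n * k n + wb n * k n) * (dy χ * P n) + χ * (wb n * h₂ n - wa n * k n * h₁ n))
      (v := fun n => wa n * (dx χ * V n) + -(t n * wa n + wb n) * (dy χ * V n) +
        χ * (wb n * h₁ n + wa n * h₂ n))
      (w := fun n => χ * 0) (z := fun n => χ * 0)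
      hc (hχ.ts _) (hχ.ts _) (hχ.ts _) (hχ.ts _)
      ((((((c2.mul hwb).mul_TL xV).add ((hwa.mul hk).neg.mul_TL xP)).add
        (((c2.mul (hwa.mul hk)).sub (c2.mul (ht.mul hwb))).mul_TL yV)).add
        ((((ht.mul hwa).mul hk).add (hwb.mul hk)).mul_TL yP)).add (hg₁.tl hχ))
      (((hwa.mul_TL xV).add (((ht.mul hwa).add hwb).neg.mul_TL yV)).add (hg₂.tl hχ)) z0 z0
      fun n p hp => ?_
    have h2 := hpos n p hp (χ p * P n p) (χ p * V n p)
    have e1 := s1 n p hp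
    have e2 := s2 n p hp
    simp only [dx_mul, dy_mul, map_neg, map_add, map_sub, dx_C, dy_C]
    sev
    refine h2.trans (le_of_eq ?_)
    rw [sub_eq_iff_eq_add] at e1 e2
    rw [e1, e2]
    ring
  exact ⟨LB.of_bump fun χ hχ h1 => (key χ hχ h1).1.2.2, LB.of_bump fun χ hχ h1 => (key χ hχ h1).2.2.2⟩

end Crest.Agent.R220
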