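import Crest.Agent.R220.Tool

/-!
Row 220 (S0341): the final contradiction (testing the transport equation along a characteristic).
-/

set_option autoImplicit false
open scoped ContDiff
open MeasureTheory Filter

namespace Crest.Agent.R220

namespace Fin474

/-- A thin strip around the line `y + s x = 0`. -/
def T (l s : ℝ) : Set (ℝ × ℝ) := {p | |p.1| ≤ 2 / l ∧ |p.2 + s * p.1| ≤ 3 / l ^ 2}

theorem isClosed_T (l s : ℝ) : IsClosed (T l s) := by
  have h1 : IsClosed {p : ℝ × ℝ | |p.1| ≤ 2 / l} := isClosed_le (by fun_prop) continuous_const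
  have h2 : IsClosed {p : ℝ × ℝ | |p.2 + s * p.1| ≤ 3 / l ^ 2} :=
    isClosed_le (by fun_prop) continuous_const
  exact h1.inter h2

theorem vol_T (l s : ℝ) :
    volume (T l s) = ENNReal.ofReal (2 * (3 / l ^ 2)) * ENNReal.ofReal (2 * (2 / l)) := by
  rw [show (volume : Measure (ℝ × ℝ)) = volume.prod volume from rfl,
    Measure.prod_apply (isClosed_T l s).measurableSet]
  have h : ∀ x : ℝ, volume (Prod.mk x ⁻¹' T l s) =
      (Metric.closedBall (0 : ℝ) (2 / l)).indicator (fun _ => ENNReal.ofReal (2 * (3 / l ^ 2))) x := by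
    intro x
    by_cases hx : |x| ≤ 2 / l
    · have h1 : Prod.mk x ⁻¹' T l s = Metric.closedBall (-(s * x)) (3 / l ^ 2) := by
        ext y
        simp [T, hx, Real.dist_eq]
      rw [h1, Real.volume_closedBall, Set.indicator_of_mem (by simpa using hx)]
    · have h1 : Prod.mk x ⁻¹' T l s = ∅ := by
        ext y
        simp [T, hx]
      rw [h1, measure_empty, Set.indicator_of_notMem (by simpa using hx)]
  simp_rw [h]
  rw [lintegral_indicator measurableSet_closedBall, setLIntegral_const, Real.volume_closedBall]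

theorem norm_le_of_mem_T {l s : ℝ} (hl : 3 ≤ l) (hs0 : 0 ≤ s) (hs1 : s ≤ 1) {p : ℝ × ℝ}
    (hp : p ∈ T l s) : ‖p‖ ≤ 3 / l := by
  obtain ⟨h1, h2⟩ := hp
  have hl0 : 0 < l := by linarith
  have h3 : 3 / l ^ 2 ≤ 1 / l := by
    rw [div_le_div_iff₀ (by positivity) hl0]; nlinarith
  have h4 : |s * p.1| ≤ 2 / l := by
    rw [abs_mul, abs_of_nonneg hs0]
    exact (mul_le_of_le_one_left (abs_nonneg _) hs1).trans h1
  have h5 : |p.2| ≤ |p.2 + s * p.1| + |s * p.1| := by
    have := abs_sub (p.2 + s * p.1) (s * p.1)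
    simpa using this
  have h6 : (3 : ℝ) / l = 1 / l + 2 / l := by ring
  have h7 : (0 : ℝ) ≤ 1 / l := by positivity
  rw [Prod.norm_def]
  refine max_le ?_ ?_
  · rw [Real.norm_eq_abs]; linarith
  · rw [Real.norm_eq_abs]; linarith

theorem norm_le_one_of_mem_T {l s : ℝ} (hl : 3 ≤ l) (hs0 : 0 ≤ s) (hs1 : s ≤ 1) {p : ℝ × ℝ}
    (hp : p ∈ T l s) : ‖p‖ ≤ 1 :=
  (norm_le_of_mem_T hl hs0 hs1 hp).trans (by rw [div_le_one (by linarith)]; exact hl)

theorem integrable_ind_T (l s : ℝ) : Integrable ((T l s).indicator fun _ => (1 : ℝ)) :=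
  (integrable_indicator_iff (isClosed_T l s).measurableSet).2
    (integrableOn_const (by
      rw [vol_T]; exact ENNReal.mul_ne_top ENNReal.ofReal_ne_top ENNReal.ofReal_ne_top))

theorem integral_ind_T {l : ℝ} (hl : 0 < l) (s : ℝ) :
    ∫ p, (T l s).indicator (fun _ => (1 : ℝ)) p = 24 / l ^ 3 := by
  rw [integral_indicator (isClosed_T l s).measurableSet]
  simp only [integral_const, MeasurableSet.univ, Set.univ_inter,
    smul_eq_mul, mul_one, Measure.real, Measure.restrict_apply, vol_T, ENNReal.toReal_mul]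
  rw [ENNReal.toReal_ofReal (by positivity), ENNReal.toReal_ofReal (by positivity)]
  field_simp
  ring

/-- Families supported in the strip and of size `O(l)`. -/
def Sm (l s : ℕ → ℝ) (h : ℕ → S) : Prop :=
  ∃ C : ℝ, ∀ᶠ n in atTop, ∀ p, (p ∉ T (l n) (s n) → h n p = 0) ∧
    (p ∈ T (l n) (s n) → |h n p| ≤ C * l n)

theorem Sm.add {l s : ℕ → ℝ} {h g : ℕ → S} (hh : Sm l s h) (hg : Sm l s g) :
    Sm l s (fun n => h n + g n) := by
  obtain ⟨C, hC⟩ := hh
  obtain ⟨C', hC'⟩ := hg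
  refine ⟨C + C', ?_⟩
  filter_upwards [hC, hC'] with n h1 h2 p
  refine ⟨fun hp => by rw [add_apply, (h1 p).1 hp, (h2 p).1 hp, add_zero], fun hp => ?_⟩
  rw [add_apply, add_mul]
  exact (abs_add_le _ _).trans (add_le_add ((h1 p).2 hp) ((h2 p).2 hp))

theorem Sm.smul {l s : ℕ → ℝ} {h : ℕ → S} (hh : Sm l s h) {c : ℕ → ℝ} (hc : ∀ n, |c n| ≤ 1) :
    Sm l s (fun n => c n • h n) := by
  obtain ⟨C, hC⟩ := hh
  refine ⟨C, ?_⟩
  filter_upwards [hC] with n h1 p
  refine ⟨fun hp => by rw [smul_apply, (h1 p).1 hp, mul_zero], fun hp => ?_⟩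
  rw [smul_apply, abs_mul]
  exact (mul_le_of_le_one_left (abs_nonneg _) (hc n)).trans ((h1 p).2 hp)

theorem Sm.sub {l s : ℕ → ℝ} {h g : ℕ → S} (hh : Sm l s h) (hg : Sm l s g) :
    Sm l s (fun n => h n - g n) := by
  have := hh.add (hg.smul (c := fun _ => -1) (fun _ => by simp))
  have e : (fun n => h n - g n) = fun n => h n + (-1 : ℝ) • g n :=
    funext fun n => S.ext fun p => by sev; ring
  rw [e]; exact this

theorem test_of_T {l s : ℝ} (hl : 3 ≤ l) (hs0 : 0 ≤ s) (hs1 : s ≤ 1) {h : S}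
    (hh : ∀ p, p ∉ T l s → h p = 0) : Test h :=
  ⟨1, by norm_num, fun p hp => hh p fun hm => by
    linarith [norm_le_one_of_mem_T hl hs0 hs1 hm]⟩

/-- The key estimate. -/
theorem key {l s : ℕ → ℝ} (hl : Tendsto l atTop atTop) (hs0 : ∀ n, 0 ≤ s n) (hs1 : ∀ n, s n ≤ 1)
    {h f : ℕ → S} (hh : Sm l s h) (hf : LB f) :
    Tendsto (fun n => ∫ p, h n p * f n p) atTop (nhds 0) := by
  obtain ⟨C, hC⟩ := hh
  obtain ⟨ζ, hζ, hζ1, -⟩ := exists_bump (r := 1) (by norm_num)
  obtain ⟨K, hK⟩ := hf ζ hζ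
  have hlim : Tendsto (fun n => (K + 6 * C ^ 2) / Real.sqrt (l n)) atTop (nhds 0) :=
    tendsto_const_nhds.div_atTop (Real.tendsto_sqrt_atTop.comp hl)
  refine squeeze_zero_norm' ?_ hlim
  filter_upwards [hC, hl.eventually_ge_atTop 3] with n h1 h3
  set r := Real.sqrt (l n) with hr
  have hl0 : 0 < l n := by linarith
  have hr0 : 0 < r := Real.sqrt_pos.2 hl0
  have hrr : l n = r ^ 2 := (Real.sq_sqrt hl0.le).symm
  have ht : Test (h n) := test_of_T h3 (hs0 n) (hs1 n) fun p => (h1 p).1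
  calc ‖∫ p, h n p * f n p‖ ≤ ∫ p, ‖h n p * f n p‖ := norm_integral_le_integral_norm _
    _ ≤ ∫ p, (r⁻¹ * (ζ p * f n p) ^ 2 +
          (r * (C * l n) ^ 2 / 4) * (T (l n) (s n)).indicator (fun _ => (1 : ℝ)) p) := by
        refine integral_mono (ht.integrable_mul _).norm
          (((hζ.integrable_sq _).const_mul _).add ((integrable_ind_T _ _).const_mul _)) fun p => ?_
        by_cases hp : p ∈ T (l n) (s n)
        · simp only [Set.indicator_of_mem hp, hζ1 p (norm_le_one_of_mem_T h3 (hs0 n) (hs1 n) hp),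
            one_mul, mul_one, Real.norm_eq_abs, abs_mul]
          have h2 := (h1 p).2 hp
          have h4 : |h n p| * |f n p| ≤ C * l n * |f n p| :=
            mul_le_mul_of_nonneg_right h2 (abs_nonneg _)
          refine h4.trans ?_
          rw [← sq_abs (f n p)]
          have h5 : 0 ≤ r⁻¹ * (|f n p| - r * (C * l n) / 2) ^ 2 := by positivity
          have h6 : r⁻¹ * (|f n p| - r * (C * l n) / 2) ^ 2 =
              r⁻¹ * |f n p| ^ 2 + r * (C * l n) ^ 2 / 4 - C * l n * |f n p| := by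
            field_simp; ring
          linarith
        · simp only [Set.indicator_of_notMem hp, (h1 p).1 hp, zero_mul, norm_zero, mul_zero, add_zero]
          positivity
    _ = r⁻¹ * (∫ p, (ζ p * f n p) ^ 2) + (r * (C * l n) ^ 2 / 4) * (24 / l n ^ 3) := by
        rw [integral_add ((hζ.integrable_sq _).const_mul _) ((integrable_ind_T _ _).const_mul _),
          integral_const_mul, integral_const_mul, integral_ind_T hl0]
    _ ≤ r⁻¹ * K + (r * (C * l n) ^ 2 / 4) * (24 / l n ^ 3) := by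
        gcongr; exact hK n
    _ = (K + 6 * C ^ 2) / r := by
        rw [hrr]; field_simp; ring

/-! ### The test function -/

/-- Cut-off equal to one on `[-2,2]`, vanishing outside `(-3,3)`. -/
noncomputable def β : ContDiffBump (0 : ℝ) := ⟨2, 3, by norm_num, by norm_num⟩
/-- Cut-off equal to one on `[-1,1]`, vanishing outside `(-2,2)`. -/
noncomputable def γ : ContDiffBump (0 : ℝ) := ⟨1, 2, by norm_num, by norm_num⟩

/-- The profile across the characteristic. -/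
noncomputable def V0 (a : ℝ) : ℝ := Real.exp a * β a
/-- The profile along the characteristic. -/
noncomputable def c2 (a : ℝ) : ℝ := γ a

theorem V0_smooth : ContDiff ℝ ∞ V0 := Real.contDiff_exp.mul β.contDiff
theorem c2_smooth : ContDiff ℝ ∞ c2 := γ.contDiff

/-- Bounded functions vanishing outside `[-r, r]`. -/
def Prof (r : ℝ) (u : ℝ → ℝ) : Prop := (∃ A : ℝ, 0 ≤ A ∧ ∀ a, |u a| ≤ A) ∧ ∀ a, r < |a| → u a = 0

theorem prof_of {r : ℝ} {u : ℝ → ℝ} (hu : Continuous u) (h : ∀ a, r < |a| → u a = 0) : Prof r u := by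
  have hc : HasCompactSupport u :=
    HasCompactSupport.intro (isCompact_closedBall (0 : ℝ) r) fun a ha => h a (by simpa using ha)
  obtain ⟨A, hA⟩ := hu.bounded_above_of_compact_support hc
  exact ⟨⟨A, (norm_nonneg _).trans (hA 0), hA⟩, h⟩

theorem deriv_zero {r : ℝ} {u : ℝ → ℝ} (h : ∀ a, r < |a| → u a = 0) (a : ℝ) (ha : r < |a|) :
    deriv u a = 0 := by
  have ho : IsOpen {b : ℝ | r < |b|} := isOpen_lt continuous_const continuous_abs
  have : u =ᶠ[nhds a] fun _ => 0 := Filter.eventually_of_mem (ho.mem_nhds ha) h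
  rw [this.deriv_eq, deriv_const]

theorem V0_zero (a : ℝ) (ha : 3 < |a|) : V0 a = 0 := by
  rw [V0, β.zero_of_le_dist (by simpa [β] using ha.le), mul_zero]
theorem c2_zero (a : ℝ) (ha : 2 < |a|) : c2 a = 0 :=
  γ.zero_of_le_dist (by simpa [γ] using ha.le)
theorem V0_one (a : ℝ) (ha : |a| ≤ 2) : V0 a = Real.exp a := by
  rw [V0, β.one_of_mem_closedBall (by simpa [β] using ha), mul_one]
theorem c2_one (a : ℝ) (ha : |a| ≤ 1) : c2 a = 1 :=
  γ.one_of_mem_closedBall (by simpa [γ] using ha)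

theorem prof_V0 : Prof 3 V0 := prof_of V0_smooth.continuous V0_zero
theorem prof_V0' : Prof 3 (deriv V0) :=
  prof_of (contDiff_deriv' V0_smooth).continuous (deriv_zero V0_zero)
theorem prof_c2 : Prof 2 c2 := prof_of c2_smooth.continuous c2_zero
theorem prof_c2' : Prof 2 (deriv c2) :=
  prof_of (contDiff_deriv' c2_smooth).continuous (deriv_zero c2_zero)

theorem prof_T {u w : ℝ → ℝ} (hu : Prof 3 u) (hw : Prof 2 w) :
    ∃ A : ℝ, 0 ≤ A ∧ ∀ l s : ℝ, 0 < l → ∀ p : ℝ × ℝ,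
      (p ∉ T l s → u (l ^ 2 * (p.2 + s * p.1)) * w (l * p.1) = 0) ∧
      |u (l ^ 2 * (p.2 + s * p.1)) * w (l * p.1)| ≤ A := by
  obtain ⟨⟨A, hA0, hA⟩, hu⟩ := hu
  obtain ⟨⟨B, hB0, hB⟩, hw⟩ := hw
  refine ⟨A * B, by positivity, fun l s hl p => ⟨fun hp => ?_, ?_⟩⟩
  · simp only [T, Set.mem_ofPred_eq, not_and_or, not_le] at hp
    rcases hp with hp | hp
    · rw [hw _ (by rw [abs_mul, abs_of_pos hl]; rw [div_lt_iff₀ hl] at hp; linarith), mul_zero]
    · have hl2 : 0 < l ^ 2 := by positivity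
      rw [hu _ (by rw [abs_mul, abs_of_pos hl2]; rw [div_lt_iff₀ hl2] at hp; linarith), zero_mul]
  · rw [abs_mul]; exact mul_le_mul (hA _) (hB _) (abs_nonneg _) hA0

/-- The test function. -/
noncomputable def v (l s : ℝ) : S :=
  comp1 V0 V0_smooth (l ^ 2 • (Y + s • X)) * comp1 c2 c2_smooth (l • X)

theorem v_apply (l s : ℝ) (p : ℝ × ℝ) :
    v l s p = V0 (l ^ 2 * (p.2 + s * p.1)) * c2 (l * p.1) := rfl

theorem dy_v (l s : ℝ) (p : ℝ × ℝ) :
    dy (v l s) p = l ^ 2 * (deriv V0 (l ^ 2 * (p.2 + s * p.1)) * c2 (l * p.1)) := by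
  simp only [v, dy_mul, dy_comp1, map_smul, map_add, dy_X, dy_Y]
  simp only [comp1_apply, add_apply, mul_apply, smul_apply, X_apply, Y_apply, one_apply, zero_apply]
  ring

theorem D_v (l s : ℝ) (p : ℝ × ℝ) :
    (dx (v l s) - s • dy (v l s) : S) p =
      l * (V0 (l ^ 2 * (p.2 + s * p.1)) * deriv c2 (l * p.1)) := by
  simp only [v, dy_mul, dy_comp1, dx_mul, dx_comp1, map_smul, map_add, dy_X, dy_Y, dx_X, dx_Y]
  simp only [comp1_apply, add_apply, sub_apply, mul_apply, smul_apply, X_apply, Y_apply, one_apply,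
    zero_apply]
  ring

theorem sm_v {l : ℕ → ℝ} (s : ℕ → ℝ) (hl : Tendsto l atTop atTop) :
    Sm l s (fun n => v (l n) (s n)) := by
  obtain ⟨A, hA0, hA⟩ := prof_T prof_V0 prof_c2
  refine ⟨A, ?_⟩
  filter_upwards [hl.eventually_ge_atTop 3] with n h3 p
  have := hA (l n) (s n) (by linarith) p
  rw [v_apply]
  exact ⟨this.1, fun _ => this.2.trans (by nlinarith)⟩

theorem sm_D {l : ℕ → ℝ} (s : ℕ → ℝ) (hl : Tendsto l atTop atTop) :
    Sm l s (fun n => dx (v (l n) (s n)) - s n • dy (v (l n) (s n))) := by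
  obtain ⟨A, hA0, hA⟩ := prof_T prof_V0 prof_c2'
  refine ⟨A, ?_⟩
  filter_upwards [hl.eventually_ge_atTop 3] with n h3 p
  have h0 : 0 < l n := by linarith
  have := hA (l n) (s n) h0 p
  rw [D_v]
  refine ⟨fun hp => by rw [this.1 hp, mul_zero], fun _ => ?_⟩
  rw [abs_mul, abs_of_pos h0, mul_comm]
  exact mul_le_mul_of_nonneg_right this.2 h0.le

theorem sm_dy {l s : ℕ → ℝ} (hl : Tendsto l atTop atTop) (hs0 : ∀ n, 0 ≤ s n) (hs1 : ∀ n, s n ≤ 1)
    {u : ℕ → S} (hx : SB (fun n => dx (u n))) (hy : SB (fun n => dy (u n))) (h0 : ∀ n, u n 0 = 0) :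
    Sm l s (fun n => dy (v (l n) (s n) * u n)) := by
  obtain ⟨A, hA0, hA⟩ := prof_T prof_V0 prof_c2
  obtain ⟨B, hB0, hB⟩ := prof_T prof_V0' prof_c2
  obtain ⟨K, hK0, hK⟩ := SB.lip hx hy (r := 1) (by norm_num)
  obtain ⟨K', hK0', hK'⟩ := hy.bound (r := 1) (by norm_num)
  refine ⟨3 * B * K + A * K', ?_⟩
  filter_upwards [hl.eventually_ge_atTop 3] with n h3 p
  have hl0 : 0 < l n := by linarith
  have h1 := hA (l n) (s n) hl0 p
  have h2 := hB (l n) (s n) hl0 p
  rw [dy_mul, add_apply, mul_apply, mul_apply, dy_v, v_apply]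
  refine ⟨fun hp => by rw [h1.1 hp, h2.1 hp]; ring, fun hp => ?_⟩
  have hp1 := norm_le_one_of_mem_T h3 (hs0 n) (hs1 n) hp
  have hp3 := norm_le_of_mem_T h3 (hs0 n) (hs1 n) hp
  have hu : |u n p| ≤ K * (3 / l n) := by
    have := hK n p hp1
    rw [h0, sub_zero] at this
    exact this.trans (mul_le_mul_of_nonneg_left hp3 hK0)
  refine (abs_add_le _ _).trans ?_
  rw [abs_mul, abs_mul, abs_mul _ (dy (u n) p), abs_of_pos (by positivity : 0 < l n ^ 2)]
  have e1 : l n ^ 2 * |deriv V0 (l n ^ 2 * (p.2 + s n * p.1)) * c2 (l n * p.1)| * |u n p|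
      ≤ l n ^ 2 * B * (K * (3 / l n)) :=
    mul_le_mul (mul_le_mul_of_nonneg_left h2.2 (by positivity)) hu (abs_nonneg _) (by positivity)
  have e2 : |V0 (l n ^ 2 * (p.2 + s n * p.1)) * c2 (l n * p.1)| * |dy (u n) p| ≤ A * K' :=
    mul_le_mul h1.2 (hK' n p hp1) (abs_nonneg _) hA0
  have e3 : l n ^ 2 * B * (K * (3 / l n)) = 3 * B * K * l n := by field_simp
  have e4 : A * K' ≤ A * K' * l n := le_mul_of_one_le_right (by positivity) (by linarith)
  nlinarith

/-! ### The integrated identity -/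

theorem mul_eq_zero_of {ζ E : S} (hζ : Test ζ) (hE : ∀ p ∈ Ω, E p = 0) : ζ * E = 0 :=
  S.ext fun p => by
    by_cases hp : p ∈ Ω
    · rw [mul_apply, hE p hp, mul_zero, zero_apply]
    · rw [mul_apply, hζ.eq_zero hp, zero_mul, zero_apply]

theorem Test.sub' {ζ ξ : S} (h : Test ζ) (h' : Test ξ) : Test (ζ - ξ) := by
  have := h.add (h'.mul (-1))
  rwa [mul_neg, mul_one, ← sub_eq_add_neg] at this

theorem Test.smul' {ζ : S} (h : Test ζ) (c : ℝ) : Test (c • ζ) := by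
  rw [← C_mul_eq_smul]; exact h.mul_left _

theorem ident {ζ P Q t k G b₁ b₂ : S} {s : ℝ} (hζ : Test ζ) (hs : s ^ 2 = -k 0)
    (h1 : ∀ p ∈ Ω, dx P p - t p * dy P p = dy Q p + b₁ p)
    (h2 : ∀ p ∈ Ω, dx Q p - t p * dy Q p = -(k p * dy P p) + G p + b₂ p) :
    ∫ p, ζ p * G p =
      (∫ p, (dy (ζ * t) - (dx ζ - s • dy ζ) : S) p * Q p) +
      (∫ p, (dy (ζ * (s • t - (k - C (k 0)))) - s • (dx ζ - s • dy ζ) : S) p * P p) -
      (∫ p, ζ p * b₂ p) - ∫ p, (s • ζ : S) p * b₁ p := by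
  have e1 : ζ * (dx P - t * dy P - (dy Q + b₁)) = 0 :=
    mul_eq_zero_of hζ fun p hp => by sev; linarith [h1 p hp]
  have e2 : ζ * (dx Q - t * dy Q - (-(k * dy P) + G + b₂)) = 0 :=
    mul_eq_zero_of hζ fun p hp => by sev; linarith [h2 p hp]
  have e3 : C s * C s = -C (k 0) := S.ext fun p => by sev; linarith
  set m : S := s • t - (k - C (k 0)) with hm
  set A : S := ζ * (Q + s • P) with hA
  set B : S := ζ * (-(s • (Q + s • P)) - t * Q - m * P) with hB
  have e : ζ * G = dx A + dy B + (dy (ζ * t) - (dx ζ - s • dy ζ)) * Q +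
      (dy (ζ * m) - s • (dx ζ - s • dy ζ)) * P - ζ * b₂ - (s • ζ) * b₁ := by
    rw [hA, hB]
    simp only [dx_mul, dy_mul, map_add, map_sub, map_neg, map_smul]
    simp only [hm, ← C_mul_eq_smul]
    linear_combination (-1 : S) * e2 - C s * e1 + (ζ * dy P) * e3
  have tA : Test A := hζ.mul _
  have tB : Test B := hζ.mul _
  have tD : Test (dx ζ - s • dy ζ) := Test.sub' hζ.dx (Test.smul' hζ.dy s)
  have i1 := tA.dx.integrable
  have i2 := tB.dy.integrable
  have i3 := (Test.sub' (hζ.mul t).dy tD).integrable_mul Q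
  have i4 := (Test.sub' (hζ.mul m).dy (Test.smul' tD s)).integrable_mul P
  have i5 := hζ.integrable_mul b₂
  have i6 := (Test.smul' hζ s).integrable_mul b₁
  calc ∫ p, ζ p * G p = ∫ p, (dx A p + dy B p + (dy (ζ * t) - (dx ζ - s • dy ζ) : S) p * Q p +
      (dy (ζ * m) - s • (dx ζ - s • dy ζ) : S) p * P p - ζ p * b₂ p - (s • ζ : S) p * b₁ p) := by
        refine integral_congr_ae (Eventually.of_forall fun p => ?_)
        exact congrArg (fun f : S => f p) e
    _ = _ := by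
        have j1 := integral_add i1 i2
        have j2 := integral_add (i1.add i2) i3
        have j3 := integral_add ((i1.add i2).add i3) i4
        have j4 := integral_sub (((i1.add i2).add i3).add i4) i5
        have j5 := integral_sub ((((i1.add i2).add i3).add i4).sub i5) i6
        simp only [Pi.add_apply, Pi.sub_apply] at j2 j3 j4 j5
        rw [j5, j4, j3, j2, j1, tA.integral_dx, tB.integral_dy]
        ring

/-! ### The main term -/

/-- The exponential weight. -/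
noncomputable def E (s : ℝ) : S := sexp (Y + s • X)

theorem E_apply (s : ℝ) (p : ℝ × ℝ) : E s p = Real.exp (p.2 + s * p.1) := rfl

theorem dy_E (s : ℝ) : dy (E s) = E s := by
  simp only [E, dy_sexp, map_add, map_smul, dy_X, dy_Y, smul_zero, add_zero, mul_one]

theorem dx_E (s : ℝ) : dx (E s) = s • E s := by
  simp only [E, dx_sexp, map_add, map_smul, dx_X, dx_Y, zero_add, mul_smul_comm, mul_one]

theorem int_dy {φ : S} (hφ : Test φ) (s : ℝ) : ∫ p, dy φ p * E s p = -∫ p, φ p * E s p := by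
  have := hφ.ibp_y (E s)
  rw [dy_E] at this
  linarith

theorem int_dx {φ : S} (hφ : Test φ) (s : ℝ) : ∫ p, dx φ p * E s p = -(s * ∫ p, φ p * E s p) := by
  have := hφ.ibp_x (E s)
  rw [dx_E] at this
  have h2 : ∫ p, φ p * (s • E s : S) p = s * ∫ p, φ p * E s p := by
    rw [← integral_const_mul]
    refine integral_congr_ae (Eventually.of_forall fun p => ?_)
    simp only [smul_apply]; ring
  linarith

theorem int_dyi {φ : S} (hφ : Test φ) (s : ℝ) (q : ℕ) :
    ∫ p, (dy^[q] φ) p * E s p = (-1) ^ q * ∫ p, φ p * E s p := by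
  induction q with
  | zero => simp
  | succ q ih => rw [dyi_succ, int_dy (hφ.dyi q), ih, pow_succ]; ring

theorem int_lap {φ : S} (hφ : Test φ) (s : ℝ) :
    ∫ p, lap φ p * E s p = (1 + s ^ 2) * ∫ p, φ p * E s p := by
  have : ∫ p, lap φ p * E s p = (∫ p, dx (dx φ) p * E s p) + ∫ p, dy (dy φ) p * E s p := by
    rw [← integral_add (hφ.dx.dx.integrable_mul _) (hφ.dy.dy.integrable_mul _)]
    refine integral_congr_ae (Eventually.of_forall fun p => ?_)
    simp only [lap, add_apply]; ring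
  rw [this, int_dx hφ.dx, int_dx hφ, int_dy hφ.dy, int_dy hφ]
  ring

theorem abs_lin_le {s : ℝ} (hs0 : 0 ≤ s) (hs1 : s ≤ 1) {p : ℝ × ℝ} (hp : ‖p‖ ≤ 1) :
    |p.2 + s * p.1| ≤ 2 := by
  have h1 := abs_fst_le p
  have h2 := abs_snd_le p
  have h3 : |s * p.1| ≤ |p.1| := by
    rw [abs_mul, abs_of_nonneg hs0]; exact mul_le_of_le_one_left (abs_nonneg _) hs1
  linarith [abs_add_le p.2 (s * p.1)]

theorem main_lower {χ : S} (h0 : ∀ p, 0 ≤ χ p) (hz : ∀ p, 1 < ‖p‖ → χ p = 0) (q : ℕ) {s : ℝ}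
    (hs0 : 0 ≤ s) (hs1 : s ≤ 1) :
    Real.exp (-2) * ∫ p, χ p ≤ |∫ p, (dy^[q] (lap χ)) p * E s p| := by
  have hχ : Test χ := ⟨1, by norm_num, hz⟩
  have h1 : Real.exp (-2) * ∫ p, χ p ≤ ∫ p, χ p * E s p := by
    rw [← integral_const_mul]
    refine integral_mono (hχ.integrable.const_mul _) (hχ.integrable_mul _) fun p => ?_
    by_cases hp : 1 < ‖p‖
    · simp [hz p hp]
    · have := abs_lin_le hs0 hs1 (not_lt.1 hp)
      have h2 : Real.exp (-2) ≤ E s p := by
        rw [E_apply]; exact Real.exp_le_exp.2 (abs_le.1 this).1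
      simp only [mul_comm (Real.exp (-2))]
      exact mul_le_mul_of_nonneg_left h2 (h0 p)
  have h2 : 0 ≤ Real.exp (-2) * ∫ p, χ p := mul_nonneg (Real.exp_pos _).le (integral_nonneg h0)
  rw [int_dyi hχ.lap, int_lap hχ, abs_mul, abs_pow, abs_neg, abs_one, one_pow, one_mul,
    abs_of_nonneg (mul_nonneg (by positivity) (h2.trans h1))]
  nlinarith [mul_nonneg (sq_nonneg s) (h2.trans h1)]

theorem psi_zero {χ : S} (hz : ∀ p, 1 < ‖p‖ → χ p = 0) (q : ℕ) (p : ℝ × ℝ) (hp : 1 < ‖p‖) :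
    (dy^[q] (lap χ)) p = 0 := by
  have ho : IsOpen {p : ℝ × ℝ | 1 < ‖p‖} := isOpen_lt continuous_const continuous_norm
  have h0 : ∀ p ∈ {p : ℝ × ℝ | 1 < ‖p‖}, χ p = (0 : S) p := fun p hp => hz p hp
  have h1 : ∀ p ∈ {p : ℝ × ℝ | 1 < ‖p‖}, lap χ p = (0 : S) p := fun p hp => by
    have a := dx_congr ho (dx_congr ho h0) p hp
    have b := dy_congr ho (dy_congr ho h0) p hp
    simp only [map_zero] at a b
    rw [lap, add_apply, a, b, zero_apply, add_zero]
  have := dyi_congr ho h1 q p hp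
  rwa [iterate_map_zero] at this

theorem scale {χ : S} (hz : ∀ p, 1 < ‖p‖ → χ p = 0) (q : ℕ) {l s : ℝ} (hl : 1 ≤ l) (hs0 : 0 ≤ s)
    (hs1 : s ≤ 1) (w : S) :
    ∫ p, v l s p * (w * Psi q χ (l ^ 2) : S) p =
      ∫ z, dil (l ^ 2)⁻¹ w z * ((dy^[q] (lap χ)) z * E s z) := by
  have hl0 : 0 < l := by linarith
  have hl2 : 0 < l ^ 2 := by positivity
  have h1 := Measure.integral_comp_smul (volume : Measure (ℝ × ℝ))
    (fun z => dil (l ^ 2)⁻¹ w z * ((dy^[q] (lap χ)) z * E s z)) (l ^ 2)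
  have hf : Module.finrank ℝ (ℝ × ℝ) = 2 := by simp
  rw [hf, abs_of_pos (by positivity), smul_eq_mul] at h1
  have h2 : ∫ p, v l s p * (w * Psi q χ (l ^ 2) : S) p = (l ^ 2) ^ 2 * ∫ p : ℝ × ℝ,
      dil (l ^ 2)⁻¹ w (l ^ 2 • p) * ((dy^[q] (lap χ)) (l ^ 2 • p) * E s (l ^ 2 • p)) := by
    rw [← integral_const_mul]
    refine integral_congr_ae (Eventually.of_forall fun p => ?_)
    simp only [Psi, mul_apply, smul_apply, dil_apply, smul_smul, inv_mul_cancel₀ hl2.ne', one_smul]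
    by_cases hp : 1 < ‖l ^ 2 • p‖
    · rw [psi_zero hz q _ hp]; ring
    · have hp' := not_lt.1 hp
      have a := abs_lin_le hs0 hs1 hp'
      have b := (abs_fst_le _).trans hp'
      simp only [Prod.smul_fst, Prod.smul_snd, smul_eq_mul] at a b
      have a' : l ^ 2 * (p.2 + s * p.1) = l ^ 2 * p.2 + s * (l ^ 2 * p.1) := by ring
      have b' : |l * p.1| ≤ 1 := by
        refine le_trans ?_ b
        rw [abs_mul, abs_mul, abs_of_pos hl0, abs_of_pos hl2]
        exact mul_le_mul_of_nonneg_right (by nlinarith) (abs_nonneg _)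
      rw [v_apply, a', V0_one _ a, c2_one _ b', E_apply]
      simp only [Prod.smul_fst, Prod.smul_snd, smul_eq_mul]
      ring
  rw [h2, h1, ← mul_assoc, mul_inv_cancel₀ (by positivity), one_mul]

theorem err {χ : S} (hz : ∀ p, 1 < ‖p‖ → χ p = 0) (q : ℕ) {lam s K : ℝ} (hl : 1 ≤ lam)
    (hs0 : 0 ≤ s) (hs1 : s ≤ 1) (hK0 : 0 ≤ K) {w : S} (hK : ∀ p, ‖p‖ ≤ 1 → |w p - w 0| ≤ K * ‖p‖) :
    |(∫ z, dil lam⁻¹ w z * ((dy^[q] (lap χ)) z * E s z)) -
      w 0 * ∫ z, (dy^[q] (lap χ)) z * E s z| ≤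
      (K * Real.exp 2 * ∫ z, |(dy^[q] (lap χ)) z|) / lam := by
  have hψ : Test (dy^[q] (lap χ)) := ⟨1, by norm_num, psi_zero hz q⟩
  have hl0 : 0 < lam := by linarith
  have i1 : Integrable fun z => dil lam⁻¹ w z * ((dy^[q] (lap χ)) z * E s z) :=
    ((hψ.mul (E s)).mul_left (dil lam⁻¹ w)).integrable
  have i2 := (hψ.integrable_mul (E s)).const_mul (w 0)
  rw [← integral_const_mul, ← integral_sub i1 i2]
  refine (abs_integral_le_integral_abs).trans ?_
  have : (K * Real.exp 2 * ∫ z, |(dy^[q] (lap χ)) z|) / lam =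
      ∫ z, (K * Real.exp 2 / lam) * |(dy^[q] (lap χ)) z| := by
    rw [integral_const_mul]; ring
  rw [this]
  refine integral_mono (i1.sub i2).abs (hψ.integrable.abs.const_mul _) fun z => ?_
  by_cases hp : 1 < ‖z‖
  · simp [psi_zero hz q z hp]
  · have hp' := not_lt.1 hp
    have a : E s z ≤ Real.exp 2 := by
      rw [E_apply]; exact Real.exp_le_exp.2 (abs_le.1 (abs_lin_le hs0 hs1 hp')).2
    have a0 : 0 < E s z := Real.exp_pos _
    have hn : ‖lam⁻¹ • z‖ ≤ lam⁻¹ := by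
      rw [norm_smul, Real.norm_eq_abs, abs_of_pos (inv_pos.2 hl0)]
      exact mul_le_of_le_one_right (inv_pos.2 hl0).le hp'
    have b : |w (lam⁻¹ • z) - w 0| ≤ K * lam⁻¹ :=
      (hK _ (hn.trans (inv_le_one_of_one_le₀ hl))).trans (mul_le_mul_of_nonneg_left hn hK0)
    simp only [dil_apply]
    rw [← sub_mul, abs_mul, abs_mul, abs_of_pos a0]
    calc |w (lam⁻¹ • z) - w 0| * (|(dy^[q] (lap χ)) z| * E s z)
        ≤ (K * lam⁻¹) * (|(dy^[q] (lap χ)) z| * Real.exp 2) := by gcongr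
      _ = _ := by rw [div_eq_mul_inv]; ring

end Fin474

open Fin474 in
theorem final : FinalStmt := by
  intro q χ l P Q t k w b₁ b₂ c hχ0 hχ1 hχz hl hP hQ hb₁ hb₂ htx hty hkx hky hwx hwy ht0 hk0 hc hw
    h1 h2
  set s : ℕ → ℝ := fun n => Real.sqrt (-k n 0) with hs
  have hs0 : ∀ n, 0 ≤ s n := fun n => Real.sqrt_nonneg _
  have hss : ∀ n, s n ^ 2 = -k n 0 := fun n => Real.sq_sqrt (by linarith [(hk0 n).2])
  have hs1 : ∀ n, s n ≤ 1 := fun n => Real.sqrt_le_one.2 (by linarith [(hk0 n).1])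
  have hsa : ∀ n, |s n| ≤ 1 := fun n => by rw [abs_of_nonneg (hs0 n)]; exact hs1 n
  have hmx : SB (fun n => dx (s n • t n - (k n - C (k n 0)))) := by
    simpa only [map_sub, map_smul, dx_C, sub_zero] using (htx.smul hsa).sub hkx
  have hmy : SB (fun n => dy (s n • t n - (k n - C (k n 0)))) := by
    simpa only [map_sub, map_smul, dy_C, sub_zero] using (hty.smul hsa).sub hky
  have hm0 : ∀ n, (s n • t n - (k n - C (k n 0)) : S) 0 = 0 := fun n => by
    sev; rw [ht0]; ring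
  have k1 := key hl hs0 hs1 ((sm_dy hl hs0 hs1 htx hty ht0).sub (sm_D s hl)) hQ
  have k2 := key hl hs0 hs1 ((sm_dy hl hs0 hs1 hmx hmy hm0).sub ((sm_D s hl).smul hsa)) hP
  have k3 := key hl hs0 hs1 (sm_v s hl) hb₂
  have k4 := key hl hs0 hs1 ((sm_v s hl).smul hsa) hb₁
  have k5 := ((k1.add k2).sub k3).sub k4
  simp only [add_zero, sub_zero] at k5
  obtain ⟨A, hA⟩ := sm_v s hl
  have k6 : Tendsto (fun n => ∫ p, v (l n) (s n) p * (w n * Psi q χ (l n ^ 2) : S) p) atTop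
      (nhds 0) := by
    refine k5.congr' ?_
    filter_upwards [hA, hl.eventually_ge_atTop 3] with n hn h3
    exact (ident (G := w n * Psi q χ (l n ^ 2)) (test_of_T h3 (hs0 n) (hs1 n) fun p => (hn p).1)
      (hss n) (h1 n) (h2 n)).symm
  obtain ⟨K, hK0, hK⟩ := SB.lip hwx hwy (r := 1) (by norm_num)
  have k7 : Tendsto (fun n => (K * Real.exp 2 * ∫ z, |(dy^[q] (lap χ)) z|) / l n ^ 2) atTop
      (nhds 0) :=
    tendsto_const_nhds.div_atTop ((tendsto_pow_atTop (by norm_num)).comp hl)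
  have k8 := k6.abs.add k7
  simp only [abs_zero, add_zero] at k8
  have hχ : Test χ := ⟨1, by norm_num, hχz⟩
  have hpos : 0 < ∫ p, χ p :=
    (S.cont χ).integral_pos_of_hasCompactSupport_nonneg_nonzero hχ.hcs hχ0 hχ1.ne'
  have hle : c * (Real.exp (-2) * ∫ p, χ p) ≤ 0 := by
    refine ge_of_tendsto k8 ?_
    filter_upwards [hl.eventually_ge_atTop 1] with n hn
    rw [scale hχz q hn (hs0 n) (hs1 n)]
    have e1 := err hχz q (lam := l n ^ 2) (by nlinarith) (hs0 n) (hs1 n) hK0 (hK n)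
    have e2 := main_lower hχ0 hχz q (hs0 n) (hs1 n)
    have e3 : c * (Real.exp (-2) * ∫ p, χ p) ≤ |w n 0 * ∫ z, (dy^[q] (lap χ)) z * E (s n) z| := by
      rw [abs_mul]
      exact mul_le_mul (hw n) e2 (by positivity) (abs_nonneg _)
    have e4 := abs_sub_abs_le_abs_sub (w n 0 * ∫ z, (dy^[q] (lap χ)) z * E (s n) z)
      (∫ z, dil (l n ^ 2)⁻¹ (w n) z * ((dy^[q] (lap χ)) z * E (s n) z))
    rw [abs_sub_comm] at e4
    linarith
  have : 0 < c * (Real.exp (-2) * ∫ p, χ p) := by positivity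
  linarith

end Crest.Agent.R220
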