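import Crest.Agent.R220.Tool

/-!
Row 220 (S0341): the Gauss and Codazzi equations for an isometric immersion of a conformal metric.
-/

set_option autoImplicit false
open scoped ContDiff

namespace Crest.Agent.R220

namespace GeoAux

/-- Dot product of `S`-valued vectors. -/
noncomputable def sdot (x y : Fin 3 → S) : S := x 0 * y 0 + x 1 * y 1 + x 2 * y 2

/-- Componentwise `∂/∂x`. -/
noncomputable def Dx (x : Fin 3 → S) : Fin 3 → S := fun i => dx (x i)
/-- Componentwise `∂/∂y`. -/
noncomputable def Dy (x : Fin 3 → S) : Fin 3 → S := fun i => dy (x i)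

theorem Dx_Dy (x : Fin 3 → S) : Dx (Dy x) = Dy (Dx x) := funext fun i => dx_dy (x i)

theorem sdot_comm (x y : Fin 3 → S) : sdot x y = sdot y x := by unfold sdot; ring

theorem dx_sdot (x y : Fin 3 → S) : dx (sdot x y) = sdot (Dx x) y + sdot x (Dx y) := by
  simp only [sdot, Dx, map_add, dx_mul]; ring
theorem dy_sdot (x y : Fin 3 → S) : dy (sdot x y) = sdot (Dy x) y + sdot x (Dy y) := by
  simp only [sdot, Dy, map_add, dy_mul]; ring

theorem dx_tri (x y z : Fin 3 → S) :
    dx (tri x y z) = tri (Dx x) y z + tri x (Dx y) z + tri x y (Dx z) := by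
  simp only [tri, Dx, map_add, map_sub, dx_mul]; ring
theorem dy_tri (x y z : Fin 3 → S) :
    dy (tri x y z) = tri (Dy x) y z + tri x (Dy y) z + tri x y (Dy z) := by
  simp only [tri, Dy, map_add, map_sub, dy_mul]; ring

theorem tri_swap12 (x y z : Fin 3 → S) : tri x y z = -tri y x z := by unfold tri; ring
theorem tri_swap23 (x y z : Fin 3 → S) : tri x y z = -tri x z y := by unfold tri; ring
theorem tri_self12 (x z : Fin 3 → S) : tri x x z = 0 := by unfold tri; ring
theorem tri_self13 (x z : Fin 3 → S) : tri x z x = 0 := by unfold tri; ring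

/-- Product of two triple products as a Gram determinant. -/
theorem gram (x y u v : Fin 3 → S) :
    tri x u v * tri y u v = sdot x y * (sdot u u * sdot v v - sdot u v ^ 2)
      - sdot x u * (sdot y u * sdot v v - sdot y v * sdot u v)
      + sdot x v * (sdot y u * sdot u v - sdot y v * sdot u u) := by
  unfold tri sdot; ring

/-- Four vectors in three-space are dependent. -/
theorem cramer (a b u v w : Fin 3 → S) :
    tri b u v * sdot a w - tri a u v * sdot b w + tri a b v * sdot u w - tri a b u * sdot v w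
      = 0 := by
  unfold tri sdot; ring

theorem sdot_apply (x y : Fin 3 → S) (p : ℝ × ℝ) : sdot x y p = ∑ i, x i p * y i p := by
  rw [Fin.sum_univ_three]; rfl

theorem sdot_self_apply (x : Fin 3 → S) (p : ℝ × ℝ) : sdot x x p = ∑ i, x i p ^ 2 := by
  rw [sdot_apply]; exact Finset.sum_congr rfl fun i _ => by ring

end GeoAux

open GeoAux in
theorem geo : GeoStmt := by
  intro f φ hI
  set u : Fin 3 → S := Dx f with hu
  set v : Fin 3 → S := Dy f with hv
  set a : Fin 3 → S := Dx u with ha
  set b : Fin 3 → S := Dy u with hb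
  set c : Fin 3 → S := Dy v with hc
  have hb' : Dx v = b := Dx_Dy f
  set W : S := sexp (2 * φ) with hW
  set E : S := sexp (-(2 * φ)) with hE
  have hWx : dx W = W * (2 * dx φ) := by rw [hW, dx_sexp, dx_mul, dx_two]; ring
  have hWy : dy W = W * (2 * dy φ) := by rw [hW, dy_sexp, dy_mul, dy_two]; ring
  have hEx : dx E = -(E * (2 * dx φ)) := by rw [hE, dx_sexp, map_neg, dx_mul, dx_two]; ring
  have hEy : dy E = -(E * (2 * dy φ)) := by rw [hE, dy_sexp, map_neg, dy_mul, dy_two]; ring
  have hWp : ∀ p, W p = Real.exp (2 * φ p) := fun p => by rw [hW, sexp_apply]; sev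
  have hEW : ∀ p, E p * W p = 1 := fun p => by
    rw [hW, hE, sexp_apply, sexp_apply, ← Real.exp_add]; sev; simp
  have huu : ∀ p ∈ Ω, sdot u u p = W p := fun p hp => by
    rw [sdot_self_apply, hWp]; exact (hI p hp).1
  have hvv : ∀ p ∈ Ω, sdot v v p = W p := fun p hp => by
    rw [sdot_self_apply, hWp]; exact (hI p hp).2.1
  have huv : ∀ p ∈ Ω, sdot u v p = (0 : S) p := fun p hp => by
    rw [sdot_apply]; exact (hI p hp).2.2
  -- first derivatives of the relations
  have hau : ∀ p ∈ Ω, sdot a u p = (W * dx φ) p := fun p hp => by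
    have h := dx_congr isOpen_Ω huu p hp
    rw [dx_sdot, hWx, ← ha, sdot_comm u a] at h
    sev at h ⊢; linarith
  have hbu : ∀ p ∈ Ω, sdot b u p = (W * dy φ) p := fun p hp => by
    have h := dy_congr isOpen_Ω huu p hp
    rw [dy_sdot, hWy, ← hb, sdot_comm u b] at h
    sev at h ⊢; linarith
  have hbv : ∀ p ∈ Ω, sdot b v p = (W * dx φ) p := fun p hp => by
    have h := dx_congr isOpen_Ω hvv p hp
    rw [dx_sdot, hWx, hb', sdot_comm v b] at h
    sev at h ⊢; linarith
  have hcv : ∀ p ∈ Ω, sdot c v p = (W * dy φ) p := fun p hp => by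
    have h := dy_congr isOpen_Ω hvv p hp
    rw [dy_sdot, hWy, ← hc, sdot_comm v c] at h
    sev at h ⊢; linarith
  have hav : ∀ p ∈ Ω, sdot a v p = (-(W * dy φ) : S) p := fun p hp => by
    have h := dx_congr isOpen_Ω huv p hp
    have h2 := hbu p hp
    rw [dx_sdot, map_zero, hb', ← ha, sdot_comm u b] at h
    sev at h h2 ⊢; linarith
  have hcu : ∀ p ∈ Ω, sdot c u p = (-(W * dx φ) : S) p := fun p hp => by
    have h := dy_congr isOpen_Ω huv p hp
    have h2 := hbv p hp
    rw [dy_sdot, map_zero, ← hb, ← hc, sdot_comm u c] at h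
    sev at h h2 ⊢; linarith
  -- the second-order relation
  have hab : Dy a = Dx b := (Dx_Dy u).symm
  have hbc : Dx c = Dy b := by rw [hc, Dx_Dy, hb']
  have hac : ∀ p ∈ Ω, sdot a c p - sdot b b p
      = -(W p * lap φ p) - 2 * W p * (dx φ p ^ 2 + dy φ p ^ 2) := fun p hp => by
    have h1 := dy_congr isOpen_Ω hav p hp
    have h2 := dx_congr isOpen_Ω hbv p hp
    rw [dy_sdot, map_neg, dy_mul, hWy, hab, ← hc] at h1
    rw [dx_sdot, dx_mul, hWx, hb'] at h2
    unfold lap
    sev at h1 h2 ⊢; linarith
  intro p hp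
  have hL : sL f φ = E * tri a u v := rfl
  have hM : sM f φ = E * tri b u v := rfl
  have hN : sN f φ = E * tri c u v := rfl
  have hk : kap φ p = -(W p * lap φ p) := rfl
  have e1 := hEW p
  have e2 := huu p hp
  have e3 := hvv p hp
  have e4 := huv p hp
  have e5 := hau p hp
  have e6 := hbu p hp
  have e7 := hbv p hp
  have e8 := hcv p hp
  have e9 := hav p hp
  have e10 := hcu p hp
  have e11 := hac p hp
  have hW0 : W p ≠ 0 := fun h => by rw [h] at e1; simp at e1
  have G : ∀ x y : Fin 3 → S, (E * tri x u v) p * (E * tri y u v) p = sdot x y p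
      - E p * (sdot x u p * sdot y u p + sdot x v p * sdot y v p) := fun x y => by
    have h := congrArg (fun g : S => g p) (gram x y u v)
    sev at h e4 ⊢
    rw [e2, e3, e4] at h
    linear_combination E p ^ 2 * h + (sdot x y p * (E p * W p + 1)
      - E p * (sdot x u p * sdot y u p + sdot x v p * sdot y v p)) * e1
  have C1 : ∀ x y : Fin 3 → S, tri x y v p * W p
      = tri x u v p * sdot y u p - tri y u v p * sdot x u p := fun x y => by
    have h := congrArg (fun g : S => g p) (cramer x y u v u)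
    rw [sdot_comm v u] at h
    sev at h e4
    rw [e2, e4] at h
    linear_combination h
  have C2 : ∀ x y : Fin 3 → S, tri x u y p * W p
      = tri x u v p * sdot y v p - tri y u v p * sdot x v p := fun x y => by
    have h := congrArg (fun g : S => g p) (cramer x y u v v)
    rw [tri_swap23 x y u] at h
    sev at h e4
    rw [e3, e4] at h
    linear_combination h
  sev at e5 e6 e7 e8 e9 e10
  refine ⟨?_, ?_, ?_, ?_, ?_, ?_⟩
  · rw [hL, hM, hN, hk, pow_two, G, G, e5, e6, e7, e8, e9, e10]
    linear_combination e11 + 2 * W p * (dx φ p ^ 2 + dy φ p ^ 2) * e1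
  · have c1 := C1 a b
    have c2 := C2 a c
    rw [e5, e6] at c1
    rw [e8, e9] at c2
    rw [hL, hM, hN, dy_mul, dx_mul, hEx, hEy, dy_tri, dx_tri, hab, hb', ← ha, ← hb, ← hc,
      tri_swap12 b a v, tri_self13 b u]
    sev
    apply mul_left_cancel₀ hW0
    linear_combination 2 * E p * c1 + E p * c2
  · have c1 := C1 c a
    have c2 := C2 b c
    rw [e5, e10] at c1
    rw [e7, e8] at c2
    rw [hL, hM, hN, dy_mul, dx_mul, hEx, hEy, dy_tri, dx_tri, hbc, hb', ← ha, ← hb, ← hc,
      tri_self12 b v, tri_swap23 c u b, tri_swap12 c b u, tri_swap23 b c u]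
    sev
    apply mul_left_cancel₀ hW0
    linear_combination 2 * E p * c2 - E p * c1
  · have h := G a a
    rw [e5, e9, sdot_self_apply] at h
    rw [hL, ← hWp, pow_two ((E * tri a u v) p), h]
    change ∑ i, a i p ^ 2 = _
    linear_combination (W p * (dx φ p ^ 2 + dy φ p ^ 2)) * e1
  · have h := G b b
    rw [e6, e7, sdot_self_apply] at h
    rw [hM, ← hWp, pow_two ((E * tri b u v) p), h]
    change ∑ i, b i p ^ 2 = _
    linear_combination (W p * (dx φ p ^ 2 + dy φ p ^ 2)) * e1
  · have h := G c c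
    rw [e8, e10, sdot_self_apply] at h
    rw [hN, ← hWp, pow_two ((E * tri c u v) p), h]
    change ∑ i, c i p ^ 2 = _
    linear_combination (W p * (dx φ p ^ 2 + dy φ p ^ 2)) * e1

end Crest.Agent.R220
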