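import Crest.Agent.R220.Local

/-!
Row 220 (S0341): from the local obstruction to the global counterexample.
-/

set_option autoImplicit false
open scoped ContDiff Topology
open Filter Metric Set

namespace Crest.Agent.R220

namespace Global

/-- the two rays bounding the first quadrant -/
noncomputable def gam (s : ℝ) : E2 := !₂[max s 0, max (-s) 0]

/-- the scales -/
noncomputable def hh (i : ℕ) : ℝ := (1 / 2) ^ i

/-- the centres of the defects -/
noncomputable def dd (i : ℕ) : E2 :=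
  gam (TopologicalSpace.denseSeq ℝ (Nat.unpair i).1) - hh i • !₂[1, 1]

/-- the smaller coordinate -/
noncomputable def mn (x : E2) : ℝ := min (x 0) (x 1)

/-- the inner product as a bilinear map -/
noncomputable def ip : E2 →L[ℝ] E2 →L[ℝ] ℝ := innerSL ℝ

lemma ip_apply (v w : E2) : ip v w = inner ℝ v w := rfl

lemma contDiff_smul_const {X Y : Type*} [NormedAddCommGroup X] [NormedSpace ℝ X]
    [NormedAddCommGroup Y] [NormedSpace ℝ Y] (c : Y) {f : X → ℝ} (hf : ContDiff ℝ ∞ f) :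
    ContDiff ℝ ∞ (fun x => f x • c) := hf.smul_const c

lemma hh_pos (i : ℕ) : 0 < hh i := by unfold hh; positivity

lemma tendsto_hh : Tendsto hh atTop (𝓝 0) :=
  tendsto_pow_atTop_nhds_zero_of_lt_one (by norm_num) (by norm_num)

lemma hh_le {i j : ℕ} (h : i < j) : hh j ≤ hh i / 2 := by
  have : hh j ≤ hh (i + 1) := pow_le_pow_of_le_one (by norm_num) (by norm_num) h
  rw [hh, hh, pow_succ] at this
  unfold hh
  linarith

lemma continuous_gam : Continuous gam := by
  unfold gam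
  fun_prop

lemma mn_dd (i : ℕ) : mn (dd i) = -hh i := by
  simp only [mn, dd, gam, PiLp.sub_apply, PiLp.smul_apply, Matrix.cons_val_zero,
    Matrix.cons_val_one, smul_eq_mul, mul_one]
  generalize TopologicalSpace.denseSeq ℝ (Nat.unpair i).1 = s
  rcases le_total s 0 with h | h
  · rw [max_eq_right h, max_eq_left (by linarith), min_eq_left (by linarith), zero_sub]
  · rw [max_eq_left h, max_eq_right (by linarith), min_eq_right (by linarith), zero_sub]

lemma mn_mem {i : ℕ} {x : E2} (h : ‖x - dd i‖ < hh i / 4) :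
    -(5 / 4 * hh i) < mn x ∧ mn x < -(3 / 4 * hh i) := by
  have h0 : |x 0 - dd i 0| < hh i / 4 := (PiLp.norm_apply_le (x - dd i) 0).trans_lt h
  have h1 : |x 1 - dd i 1| < hh i / 4 := (PiLp.norm_apply_le (x - dd i) 1).trans_lt h
  have h2 := mn_dd i
  rw [abs_lt] at h0 h1
  unfold mn at h2 ⊢
  have h3 := min_le_left (dd i 0) (dd i 1)
  have h4 := min_le_right (dd i 0) (dd i 1)
  refine ⟨lt_min (by linarith) (by linarith), ?_⟩
  rcases min_choice (dd i 0) (dd i 1) with h5 | h5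
  · exact (min_le_left _ _).trans_lt (by linarith)
  · exact (min_le_right _ _).trans_lt (by linarith)

lemma eq_of_near {i j : ℕ} {x : E2} (hi : ‖x - dd i‖ < hh i / 4) (hj : ‖x - dd j‖ < hh j / 4) :
    i = j := by
  have h1 := mn_mem hi
  have h2 := mn_mem hj
  have := hh_pos i
  have := hh_pos j
  rcases lt_trichotomy i j with h | h | h
  · linarith [hh_le h, h1.2, h2.1]
  · exact h
  · linarith [hh_le h, h1.1, h2.2]

/-- the conformal factor -/
noncomputable def phi (Φ : ℕ → E2 → ℝ) (x : E2) : ℝ :=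
  -(expNegInvGlue (x 0) * expNegInvGlue (x 1)) + ∑' i, Φ i (x - dd i)

variable {Φ : ℕ → E2 → ℝ}

lemma contDiff_phi (h1 : ∀ i, ContDiff ℝ ∞ (Φ i))
    (h3 : ∀ i, ∀ k ≤ i, ∀ x, ‖iteratedFDeriv ℝ k (Φ i) x‖ ≤ (1 / 2 : ℝ) ^ i) :
    ContDiff ℝ ∞ (phi Φ) := by
  have h4 : ∀ j : Fin 2, ContDiff ℝ ∞ fun x : E2 => expNegInvGlue (x j) := fun j =>
    expNegInvGlue.contDiff.comp (EuclideanSpace.proj j : E2 →L[ℝ] ℝ).contDiff
  refine ((h4 0).mul (h4 1)).neg.add ?_
  refine contDiff_tsum_of_eventually (N := ⊤) (v := fun _ i => (1 / 2 : ℝ) ^ i)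
    (fun i => (h1 i).comp (contDiff_id.sub contDiff_const))
    (fun _ _ => summable_geometric_two) fun k _ => ?_
  rw [Nat.cofinite_eq_atTop]
  filter_upwards [eventually_ge_atTop k] with i hi x
  rw [iteratedFDeriv_comp_sub]
  exact h3 i k hi _

lemma phi_near (h2 : ∀ i x, hh i / 4 ≤ ‖x‖ → Φ i x = 0) {i : ℕ} {x : E2}
    (hx : ‖x - dd i‖ < hh i / 4) : phi Φ x = Φ i (x - dd i) := by
  have h3 : mn x < 0 := by linarith [(mn_mem hx).2, hh_pos i]
  have h4 : expNegInvGlue (x 0) * expNegInvGlue (x 1) = 0 := by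
    rcases min_lt_iff.1 h3 with h | h
    · rw [expNegInvGlue.zero_of_nonpos h.le, zero_mul]
    · rw [expNegInvGlue.zero_of_nonpos h.le, mul_zero]
  rw [phi, h4, neg_zero, zero_add]
  refine tsum_eq_single i fun j hj => h2 j _ ?_
  by_contra h
  exact hj (eq_of_near (not_le.1 h) hx)

lemma phi_quad (h2 : ∀ i x, hh i / 4 ≤ ‖x‖ → Φ i x = 0) {x : E2} (h0 : 0 ≤ x 0) (h1 : 0 ≤ x 1) :
    phi Φ x = -(expNegInvGlue (x 0) * expNegInvGlue (x 1)) := by
  have : ∀ i, Φ i (x - dd i) = 0 := fun i => h2 i _ (by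
    by_contra h
    have h3 := (mn_mem (not_le.1 h)).2
    have h4 : 0 ≤ mn x := le_min h0 h1
    linarith [hh_pos i])
  simp [phi, this]

lemma norm_of_conf {P : E2 →L[ℝ] E3} {c : ℝ}
    (h : ∀ v w, inner ℝ (P v) (P w) = Real.exp (2 * c) * inner ℝ v w) (v : E2) :
    ‖P v‖ = Real.exp c * ‖v‖ := by
  have h1 := h v v
  rw [real_inner_self_eq_norm_sq, real_inner_self_eq_norm_sq, two_mul, Real.exp_add] at h1
  refine (sq_eq_sq₀ (norm_nonneg _) (by positivity)).1 ?_
  rw [h1]; ring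

lemma affine_on_segment {F : E2 → E3} {U : Set E2} (hU : IsOpen U) (hF : ContDiffOn ℝ ∞ F U)
    {A : E2} (h : ∀ x ∈ segment ℝ 0 A, x ∈ U ∧ fderiv ℝ (fderiv ℝ F) x = 0) :
    F A = F 0 + fderiv ℝ F 0 A := by
  have hF1 : ContDiffOn ℝ ∞ (fderiv ℝ F) U := hF.fderiv_of_isOpen hU (by simp)
  have h1 : ∀ x ∈ segment ℝ 0 A, ‖fderiv ℝ F x - fderiv ℝ F 0‖ ≤ 0 := by
    intro x hx
    have := (convex_segment (𝕜 := ℝ) 0 A).norm_image_sub_le_of_norm_fderiv_le (𝕜 := ℝ) (C := 0)
      (f := fderiv ℝ F) (fun y hy => (hF1.contDiffAt (hU.mem_nhds (h y hy).1)).differentiableAt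
        (by simp)) (fun y hy => by rw [(h y hy).2, norm_zero]) (left_mem_segment ℝ 0 A) hx
    simpa using this
  have h2 := (convex_segment (𝕜 := ℝ) 0 A).norm_image_sub_le_of_norm_fderiv_le' (𝕜 := ℝ)
    (f := F) (fun y hy => (hF.contDiffAt (hU.mem_nhds (h y hy).1)).differentiableAt (by simp))
    h1 (left_mem_segment ℝ 0 A) (right_mem_segment ℝ 0 A)
  rw [zero_mul, norm_le_zero_iff, sub_zero, sub_sub, sub_eq_zero] at h2
  exact h2

lemma convex_quad (t R : ℝ) : Convex ℝ (closedBall (0 : E2) R ∩ {x | t ≤ x 0 ∧ t ≤ x 1}) := by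
  refine (convex_closedBall 0 R).inter fun x hx y hy a b ha hb hab => ?_
  simp only [mem_ofPred_eq, PiLp.add_apply, PiLp.smul_apply, smul_eq_mul] at hx hy ⊢
  have ht : t = a * t + b * t := by rw [← add_mul, hab, one_mul]
  constructor <;> nlinarith [hx.1, hx.2, hy.1, hy.2]

/-- the second derivative vanishes on the two rays -/
lemma second_eq_zero (h2 : ∀ i x, hh i / 4 ≤ ‖x‖ → Φ i x = 0)
    (h4 : ∀ i : ℕ, ∀ F : E2 → E3, ContDiffOn ℝ ∞ F (ball 0 (hh i / 4)) →
      (∀ x ∈ ball (0 : E2) (hh i / 4), ∀ v w : E2,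
        inner ℝ (fderiv ℝ F x v) (fderiv ℝ F x w) = Real.exp (2 * Φ i x) * inner ℝ v w) →
      (∀ k ≤ 7, ∀ x ∈ ball (0 : E2) (hh i / 4), ‖iteratedFDeriv ℝ k F x‖ ≤ i) →
      ‖fderiv ℝ (fderiv ℝ F) 0‖ ≤ 1 / ((i : ℝ) + 1))
    {F : E2 → E3} {U : Set E2} (hU : IsOpen U) (hF : ContDiffOn ℝ ∞ F U)
    (hiso : ∀ x ∈ U, ∀ v w, inner ℝ (fderiv ℝ F x v) (fderiv ℝ F x w) =
      Real.exp (2 * phi Φ x) * inner ℝ v w) {R : ℝ} (hR : closedBall 0 R ⊆ U) {s : ℝ}
    (hs : ‖gam s‖ < R) : fderiv ℝ (fderiv ℝ F) (gam s) = 0 := by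
  have hF1 : ContDiffOn ℝ ∞ (fderiv ℝ F) U := hF.fderiv_of_isOpen hU (by simp)
  have hG : ContinuousOn (fderiv ℝ (fderiv ℝ F)) U :=
    hF1.continuousOn_fderiv_of_isOpen hU (by simp)
  have hb : ∀ k : ℕ, ∃ C, ∀ x ∈ closedBall (0 : E2) R, ‖iteratedFDeriv ℝ k F x‖ ≤ C := fun k =>
    (isCompact_closedBall 0 R).exists_bound_of_continuousOn fun x hx =>
      ((hF.contDiffAt (hU.mem_nhds (hR hx))).continuousAt_iteratedFDeriv
        (by exact_mod_cast le_top)).continuousWithinAt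
  choose C hC using hb
  have hmem : ∀ s, ‖gam s‖ < R → gam s ∈ U := fun s hs => hR (mem_closedBall_zero_iff.2 hs.le)
  have key : ∀ k, ‖gam (TopologicalSpace.denseSeq ℝ k)‖ < R →
      fderiv ℝ (fderiv ℝ F) (gam (TopologicalSpace.denseSeq ℝ k)) = 0 := by
    intro k hk
    have hp : Tendsto (Nat.pair k) atTop atTop :=
      tendsto_atTop_mono (Nat.right_le_pair k) tendsto_id
    have hh0 := tendsto_hh.comp hp
    have hd : Tendsto (fun m => dd (Nat.pair k m)) atTop
        (𝓝 (gam (TopologicalSpace.denseSeq ℝ k))) := by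
      have := (hh0.smul_const (!₂[1, 1] : E2)).const_sub (gam (TopologicalSpace.denseSeq ℝ k))
      simpa [dd] using this
    have e1 : ∀ᶠ m in atTop, ‖dd (Nat.pair k m)‖ + hh (Nat.pair k m) / 4 < R := by
      refine (hd.norm.add (hh0.div_const 4)).eventually (gt_mem_nhds ?_)
      simpa using hk
    have e2 : ∀ᶠ m in atTop, ∀ l ∈ Finset.range 8, C l ≤ (Nat.pair k m : ℕ) :=
      (eventually_all_finset _).2 fun l _ =>
        (tendsto_natCast_atTop_atTop.comp hp).eventually_ge_atTop (C l)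
    have e3 : ∀ᶠ m in atTop, ‖fderiv ℝ (fderiv ℝ F) (dd (Nat.pair k m))‖ ≤
        1 / (((Nat.pair k m : ℕ) : ℝ) + 1) := by
      filter_upwards [e1, e2] with m h5 h6
      generalize Nat.pair k m = i at h5 h6
      have h7 : ∀ x ∈ ball (0 : E2) (hh i / 4), x + dd i ∈ closedBall (0 : E2) R := by
        intro x hx
        rw [mem_ball_zero_iff] at hx
        rw [mem_closedBall_zero_iff]
        linarith [norm_add_le x (dd i)]
      have h8 : fderiv ℝ (fun x => F (x + dd i)) = fun x => fderiv ℝ F (x + dd i) :=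
        funext fun x => fderiv_comp_add_right _
      have := h4 i (fun x => F (x + dd i))
        (hF.comp (contDiff_id.add contDiff_const).contDiffOn fun x hx => hR (h7 x hx))
        (fun x hx v w => by
          rw [h8, hiso _ (hR (h7 x hx)), phi_near h2 (i := i) (by simpa using hx),
            add_sub_cancel_right])
        (fun l hl x hx => by
          rw [iteratedFDeriv_comp_add_right]
          exact (hC l _ (h7 x hx)).trans (h6 l (Finset.mem_range.2 (by omega))))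
      rwa [h8, fderiv_comp_add_right, zero_add] at this
    have h9 := Tendsto.norm (E := E2 →L[ℝ] E2 →L[ℝ] E3)
      ((hG.continuousAt (hU.mem_nhds (hmem _ hk))).tendsto.comp hd)
    have h10 := (tendsto_one_div_add_atTop_nhds_zero_nat (𝕜 := ℝ)).comp hp
    exact (norm_le_zero_iff (E := E2 →L[ℝ] E2 →L[ℝ] E3)).1 (le_of_tendsto_of_tendsto h9 h10 e3)
  have hO : IsOpen {s | ‖gam s‖ < R} := isOpen_lt continuous_gam.norm continuous_const
  have := Set.EqOn.of_subset_closure (f := fun s => fderiv ℝ (fderiv ℝ F) (gam s))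
    (g := fun _ => 0) (s := {s | ‖gam s‖ < R} ∩ range (TopologicalSpace.denseSeq ℝ))
    (t := {s | ‖gam s‖ < R}) (by
      rintro _ ⟨h5, k, rfl⟩
      exact key k h5)
    (hG.comp continuous_gam.continuousOn hmem) continuousOn_const inter_subset_left
    ((TopologicalSpace.denseRange_denseSeq ℝ).open_subset_closure_inter hO)
  exact this hs

lemma norm_le_of_quad {x : E2} {a : ℝ} (h0 : 0 ≤ x 0) (h1 : 0 ≤ x 1) (h : x 0 + x 1 ≤ a) :
    ‖x‖ ≤ a := by
  rw [EuclideanSpace.norm_eq, Fin.sum_univ_two, Real.norm_of_nonneg h0, Real.norm_of_nonneg h1]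
  exact Real.sqrt_le_iff.2 ⟨by linarith, by nlinarith [mul_nonneg h0 h1]⟩

end Global

open Global in
theorem main_of_local (h : LocalStmt) : MainStmt := by
  choose Φ h1 h2 h3 h4 using fun i : ℕ =>
    h i (1 / ((i : ℝ) + 1)) (hh i / 4) i (by positivity) (by have := hh_pos i; positivity)
  have hφ := contDiff_phi h1 h3
  refine ⟨fun x => Real.exp (2 * phi Φ x) • ip, ?_, fun x _ v w => ?_, fun x _ v hv => ?_, ?_⟩
  · exact (contDiff_smul_const ip (Real.contDiff_exp.comp (contDiff_const.mul hφ))).contDiffOn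
  · simp only [smul_apply, ip_apply, real_inner_comm]
  · simp only [smul_apply, ip_apply, smul_eq_mul]
    exact mul_pos (Real.exp_pos _) (real_inner_self_pos.2 hv)
  rintro U hU hU0 - ⟨F, hF, hiso⟩
  simp only [smul_apply, ip_apply, smul_eq_mul] at hiso
  obtain ⟨R, hR0, hR⟩ := Metric.nhds_basis_closedBall.mem_iff.1 (hU.mem_nhds hU0)
  have hsec := fun s => second_eq_zero h2 h4 hU hF hiso hR (s := s)
  obtain ⟨a, ha, haR⟩ : ∃ a : ℝ, 0 < a ∧ 3 * a < R := ⟨R / 4, by positivity, by linarith⟩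
  let pt : ℝ → E2 := fun t => !₂[(3 - t) * a, t * a]
  have hA : F (pt 0) = F 0 + fderiv ℝ F 0 (pt 0) := by
    refine affine_on_segment hU hF ?_
    rintro x ⟨u, t, hu, ht, hut, rfl⟩
    have e : u • (0 : E2) + t • pt 0 = gam (t * (3 * a)) := by
      have : 0 ≤ t * (3 * a) := by positivity
      ext j
      fin_cases j <;> simp [pt, gam, this]
    have hn : ‖gam (t * (3 * a))‖ < R := by
      rw [← e]
      refine (norm_le_of_quad (a := 3 * a) ?_ ?_ ?_).trans_lt haR <;> simp [pt]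
      · positivity
      · nlinarith
    rw [e]
    exact ⟨hR (mem_closedBall_zero_iff.2 hn.le), hsec _ hn⟩
  have hB : F (pt 3) = F 0 + fderiv ℝ F 0 (pt 3) := by
    refine affine_on_segment hU hF ?_
    rintro x ⟨u, t, hu, ht, hut, rfl⟩
    have e : u • (0 : E2) + t • pt 3 = gam (-(t * (3 * a))) := by
      have : 0 ≤ t * (3 * a) := by positivity
      ext j
      fin_cases j <;> simp [pt, gam, this]
    have hn : ‖gam (-(t * (3 * a)))‖ < R := by
      rw [← e]
      refine (norm_le_of_quad (a := 3 * a) ?_ ?_ ?_).trans_lt haR <;> simp [pt]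
      · positivity
      · nlinarith
    rw [e]
    exact ⟨hR (mem_closedBall_zero_iff.2 hn.le), hsec _ hn⟩
  let d : E2 := !₂[-a, a]
  have hd : ∀ t, pt (t + 1) - pt t = d := by
    intro t
    ext j
    fin_cases j <;> simp [pt, d] <;> ring
  have hd0 : 0 < ‖d‖ := norm_pos_iff.2 fun h0 => by
    have : d 1 = 0 := by rw [h0]; rfl
    simp [d] at this
    exact ha.ne' this
  have hAB : ‖F (pt 3) - F (pt 0)‖ = 3 * ‖d‖ := by
    have e : pt 3 - pt 0 = (3 : ℝ) • d := by
      ext j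
      fin_cases j <;> simp [pt, d]
    rw [hA, hB, add_sub_add_left_eq_sub, ← map_sub, norm_of_conf (hiso 0 hU0),
      phi_quad h2 (by simp) (by simp), e, norm_smul]
    simp [expNegInvGlue.zero_of_nonpos le_rfl]
  have hmv : ∀ (τ t : ℝ), 0 ≤ τ → τ ≤ t * a → τ ≤ (3 - (t + 1)) * a →
      ‖F (pt (t + 1)) - F (pt t)‖ ≤ Real.exp (-(expNegInvGlue τ * expNegInvGlue τ)) * ‖d‖ := by
    intro τ t hτ e1 e2
    have hm : ∀ u, τ ≤ u * a → τ ≤ (3 - u) * a →
        pt u ∈ closedBall (0 : E2) R ∩ {x | τ ≤ x 0 ∧ τ ≤ x 1} := by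
      intro u e3 e4
      refine ⟨mem_closedBall_zero_iff.2 ((norm_le_of_quad (a := 3 * a) ?_ ?_ ?_).trans haR.le),
        ?_⟩ <;> simp only [pt, mem_ofPred_eq, Matrix.cons_val_zero, Matrix.cons_val_one]
      · linarith
      · linarith
      · linarith
      · exact ⟨e4, e3⟩
    rw [← hd t]
    refine (convex_quad τ R).norm_image_sub_le_of_norm_fderiv_le (𝕜 := ℝ)
      (fun y hy => (hF.contDiffAt (hU.mem_nhds (hR hy.1))).differentiableAt (by simp))
      (fun y hy => ?_) (hm t e1 (by linarith)) (hm (t + 1) (by linarith) e2)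
    refine ContinuousLinearMap.opNorm_le_bound _ (Real.exp_pos _).le fun v => ?_
    rw [norm_of_conf (hiso y (hR hy.1)), phi_quad h2 (hτ.trans hy.2.1) (hτ.trans hy.2.2)]
    refine mul_le_mul_of_nonneg_right (Real.exp_le_exp.2 (neg_le_neg ?_)) (norm_nonneg _)
    exact mul_le_mul (expNegInvGlue.monotone hy.2.1) (expNegInvGlue.monotone hy.2.2)
      (expNegInvGlue.nonneg _) (expNegInvGlue.nonneg _)
  have m0 := hmv 0 0 le_rfl (by linarith) (by linarith)
  have m1 := hmv a 1 ha.le (by linarith) (by linarith)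
  have m2 := hmv 0 2 le_rfl (by linarith) (by linarith)
  rw [expNegInvGlue.zero_of_nonpos le_rfl, mul_zero, neg_zero, Real.exp_zero, one_mul] at m0 m2
  have hlt : Real.exp (-(expNegInvGlue a * expNegInvGlue a)) < 1 :=
    Real.exp_lt_one_iff.2 (neg_neg_of_pos (mul_pos (expNegInvGlue.pos_of_pos ha)
      (expNegInvGlue.pos_of_pos ha)))
  have m1' := m1.trans_lt (mul_lt_of_lt_one_left hd0 hlt)
  norm_num at m0 m1' m2
  have t1 := norm_sub_le_norm_sub_add_norm_sub (F (pt 3)) (F (pt 2)) (F (pt 0))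
  have t2 := norm_sub_le_norm_sub_add_norm_sub (F (pt 2)) (F (pt 1)) (F (pt 0))
  linarith

end Crest.Agent.R220
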