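import Crest.Agent.R220.Tool

/-!
Row 220 (S0341): estimates for the model conformal factor.
-/

set_option autoImplicit false
open scoped ContDiff
open MeasureTheory Filter

namespace Crest.Agent.R220

theorem r2_apply (p : ℝ × ℝ) : r2 p = p.1 ^ 2 + p.2 ^ 2 := by simp [r2]

theorem chi0_apply (p : ℝ × ℝ) : chi0 p = expNegInvGlue (1 - (p.1 ^ 2 + p.2 ^ 2)) := by
  simp [chi0, r2_apply]

theorem chi0_nonneg : ∀ p, 0 ≤ chi0 p := fun p => by
  rw [chi0_apply]; exact expNegInvGlue.nonneg _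

theorem chi0_pos : 0 < chi0 0 := by
  rw [chi0_apply]; exact expNegInvGlue.pos_of_pos (by simp)

theorem chi0_supp : ∀ p, 1 < ‖p‖ → chi0 p = 0 := fun p hp => by
  rw [chi0_apply]
  refine expNegInvGlue.zero_of_nonpos ?_
  rw [Prod.norm_def, lt_max_iff, Real.norm_eq_abs, Real.norm_eq_abs] at hp
  rcases hp with h | h
  · nlinarith [sq_abs p.1, sq_nonneg p.2]
  · nlinarith [sq_abs p.2, sq_nonneg p.1]

namespace Model

theorem test_chi0 : Test chi0 := ⟨1, by norm_num, chi0_supp⟩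

/-- Profile of the large-scale part. -/
noncomputable def th0 (u : ℝ) : ℝ := (u / 4 - u ^ 2 / 16) * Real.smoothTransition (19 - u)

theorem contDiff_th0 : ContDiff ℝ ∞ th0 :=
  ContDiff.mul (by fun_prop) (Real.smoothTransition.contDiff.comp (by fun_prop))

/-- The large-scale part. -/
noncomputable def phi0 : S := comp1 th0 contDiff_th0 r2

theorem phi_eq (q : ℕ) (ε lam : ℝ) : phi q ε lam = ε • phi0 + (lam ^ q)⁻¹ • dil lam chi0 :=
  S.ext fun p => by
    simp only [phi, phi0, comp1_apply, add_apply, smul_apply, dil_apply, chi0_apply, Theta, th0,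
      r2_apply, Prod.smul_fst, Prod.smul_snd, smul_eq_mul]
    congr 3
    ring

theorem lap_add (f g : S) : lap (f + g) = lap f + lap g := by
  simp only [lap, map_add]; ring

theorem lap_smul (c : ℝ) (f : S) : lap (c • f) = c • lap f := by
  simp only [lap, map_smul, smul_add]

theorem dil_add (c : ℝ) (f g : S) : dil c (f + g) = dil c f + dil c g := S.ext fun _ => rfl

theorem lap_dil (c : ℝ) (f : S) : lap (dil c f) = c ^ 2 • dil c (lap f) := by
  simp only [lap, dx_dil, dy_dil, map_smul, smul_smul, dil_add, smul_add, sq]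

/-- The rescaled bump of order `i`. -/
noncomputable def bmp (q i : ℕ) (u : S) (lam : ℝ) : S := ((lam ^ q)⁻¹ * lam ^ i) • dil lam u

theorem dx_bmp (q i : ℕ) (u : S) (lam : ℝ) : dx (bmp q i u lam) = bmp q (i + 1) (dx u) lam := by
  simp only [bmp, map_smul, dx_dil, smul_smul, pow_succ, mul_assoc]

theorem dy_bmp (q i : ℕ) (u : S) (lam : ℝ) : dy (bmp q i u lam) = bmp q (i + 1) (dy u) lam := by
  simp only [bmp, map_smul, dy_dil, smul_smul, pow_succ, mul_assoc]

theorem dyi_bmp (m q i : ℕ) (u : S) (lam : ℝ) :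
    dy^[m] (bmp q i u lam) = bmp q (i + m) (dy^[m] u) lam := by
  simp only [bmp, dyi_smul, dyi_dil, smul_smul, pow_add, mul_assoc]

theorem lap_bmp (q i : ℕ) (u : S) (lam : ℝ) : lap (bmp q i u lam) = bmp q (i + 2) (lap u) lam := by
  simp only [bmp, lap_smul, lap_dil, smul_smul, pow_add, mul_assoc]

theorem phi_eq' (q : ℕ) (ε lam : ℝ) : phi q ε lam = ε • phi0 + bmp q 0 chi0 lam := by
  rw [phi_eq, bmp, pow_zero, mul_one]

theorem coef_le {q i : ℕ} {lam : ℝ} (hl : 1 ≤ lam) (h : i ≤ q) : |(lam ^ q)⁻¹ * lam ^ i| ≤ 1 := by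
  have h0 : 0 < lam ^ q := by positivity
  rw [abs_of_nonneg (by positivity), inv_mul_le_iff₀ h0, mul_one]
  exact pow_le_pow_right₀ hl h

theorem coef_le' {q i : ℕ} {lam : ℝ} (hl : 1 ≤ lam) (h : i + 1 ≤ q) :
    |(lam ^ q)⁻¹ * lam ^ i| ≤ lam⁻¹ := by
  have h1 := coef_le hl h
  have h0 : 0 < lam := by linarith
  rw [abs_of_nonneg (by positivity)] at h1 ⊢
  calc (lam ^ q)⁻¹ * lam ^ i = ((lam ^ q)⁻¹ * lam ^ (i + 1)) * lam⁻¹ := by
        rw [pow_succ]; field_simp
    _ ≤ 1 * lam⁻¹ := by gcongr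
    _ = _ := one_mul _

theorem bmp_sb {q i : ℕ} {u : S} (hu : Test u) {lam : ℕ → ℝ} (hl : ∀ n, 1 ≤ lam n) (h : i ≤ q) :
    SB (fun n => bmp q i u (lam n)) := by
  obtain ⟨K, -, hK⟩ := hu.bound
  have : SB (fun n => dil (lam n) u) := SB.of_le (K := K) fun n p _ => hK _
  exact this.smul fun n => coef_le (hl n) h

theorem bmp_lb {q i : ℕ} {u : S} (hu : Test u) {lam : ℕ → ℝ} (hl : ∀ n, 1 ≤ lam n)
    (h : i ≤ q + 1) : LB (fun n => bmp q i u (lam n)) := by
  have key : LB (fun n => lam n • dil (lam n) u) := fun ζ hζ => by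
    obtain ⟨B, -, hB⟩ := hζ.bound
    refine ⟨B ^ 2 * ∫ p, u p ^ 2, fun n => ?_⟩
    have h0 : 0 < lam n := by linarith [hl n]
    have hi : Integrable (fun p => u p ^ 2) := by simpa using hu.integrable_sq 1
    have hi' : Integrable (fun p : ℝ × ℝ => u (lam n • p) ^ 2) :=
      (integrable_comp_smul_iff volume (fun p => u p ^ 2) h0.ne').2 hi
    calc ∫ p, (ζ p * (lam n • dil (lam n) u : S) p) ^ 2
        ≤ ∫ p, B ^ 2 * lam n ^ 2 * u (lam n • p) ^ 2 := by
          refine integral_mono (hζ.integrable_sq _) (hi'.const_mul _) fun p => ?_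
          have h2 : ζ p ^ 2 ≤ B ^ 2 := by
            rw [← sq_abs]; exact pow_le_pow_left₀ (abs_nonneg _) (hB p) 2
          simp only [smul_apply, dil_apply, mul_pow, mul_assoc]
          exact mul_le_mul_of_nonneg_right h2 (by positivity)
      _ = B ^ 2 * ∫ p, u p ^ 2 := by
          rw [integral_const_mul, Measure.integral_comp_smul volume (fun p => u p ^ 2)]
          simp only [Module.finrank_prod, Module.finrank_self, smul_eq_mul]
          rw [abs_of_nonneg (by positivity)]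
          field_simp
  cases i with
  | zero => exact (bmp_sb hu hl (Nat.zero_le _)).toLB
  | succ i =>
    have := key.smul (c := fun n => (lam n ^ q)⁻¹ * lam n ^ i) fun n => coef_le (hl n) (by omega)
    simpa only [bmp, smul_smul, pow_succ, mul_assoc] using this

theorem bmp_cy {q i k : ℕ} {u : S} (hu : Test u) {lam : ℕ → ℝ} (hl : ∀ n, 1 ≤ lam n)
    (h : i + k ≤ q) : Cy k (fun n => bmp q i u (lam n)) := fun m hm => by
  simp only [dyi_bmp]
  exact bmp_sb (hu.dyi m) hl (by omega)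

theorem bmp_hy {q i k : ℕ} {u : S} (hu : Test u) {lam : ℕ → ℝ} (hl : ∀ n, 1 ≤ lam n)
    (h : i + k ≤ q + 1) : Hy k (fun n => bmp q i u (lam n)) := fun m hm => by
  simp only [dyi_bmp]
  exact bmp_lb (hu.dyi m) hl (by omega)

theorem bmp_small {q i : ℕ} {u : S} (hu : Test u) (h : i + 1 ≤ q) {η : ℝ} (hη : 0 < η) :
    ∀ᶠ lam in atTop, ∀ p, |bmp q i u lam p| ≤ η := by
  obtain ⟨K, hK0, hK⟩ := hu.bound
  filter_upwards [eventually_ge_atTop 1, eventually_ge_atTop (K / η)] with lam h1 h2 p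
  have h0 : 0 < lam := by linarith
  rw [bmp, smul_apply, abs_mul, dil_apply]
  calc |(lam ^ q)⁻¹ * lam ^ i| * |u (lam • p)| ≤ lam⁻¹ * K :=
        mul_le_mul (coef_le' h1 h) (hK _) (abs_nonneg _) (by positivity)
    _ ≤ η := by
        rw [inv_mul_le_iff₀ h0]
        rw [div_le_iff₀ hη] at h2
        exact h2

/-! ### The large-scale part on `Ω` -/

theorem sq_lt {p : ℝ × ℝ} (hp : p ∈ Ω) : |p.1| < 3 ∧ |p.2| < 3 ∧ p.1 ^ 2 + p.2 ^ 2 < 18 := by
  have h1 : |p.1| < 3 := (abs_fst_le p).trans_lt (mem_Ω.1 hp)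
  have h2 : |p.2| < 3 := (abs_snd_le p).trans_lt (mem_Ω.1 hp)
  refine ⟨h1, h2, ?_⟩
  nlinarith [sq_abs p.1, sq_abs p.2, abs_nonneg p.1, abs_nonneg p.2]

/-- Polynomial form. -/
noncomputable def pol : S := (1 / 4 : ℝ) • r2 - (1 / 16 : ℝ) • (r2 * r2)

theorem phi0_eq : ∀ p ∈ Ω, phi0 p = pol p := fun p hp => by
  have h := (sq_lt hp).2.2
  simp only [phi0, comp1_apply, th0, pol, sub_apply, smul_apply, mul_apply]
  rw [Real.smoothTransition.one_of_one_le (by rw [r2_apply]; linarith)]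
  ring

theorem dx_r2 : dx r2 = 2 * X := by
  simp only [r2, sq, map_add, dx_mul, dx_X, dx_Y]; ring

theorem dy_r2 : dy r2 = 2 * Y := by
  simp only [r2, sq, map_add, dy_mul, dy_X, dy_Y]; ring

theorem dx_pol : dx pol = (1 / 2 : ℝ) • X - (1 / 4 : ℝ) • (X * r2) := S.ext fun p => by
  simp only [pol, map_sub, map_smul, dx_mul, dx_r2]
  sev; ring

theorem dy_pol : dy pol = (1 / 2 : ℝ) • Y - (1 / 4 : ℝ) • (Y * r2) := S.ext fun p => by
  simp only [pol, map_sub, map_smul, dy_mul, dy_r2]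
  sev; ring

theorem lap_pol : lap pol = 1 - r2 := S.ext fun p => by
  simp only [lap, dx_pol, dy_pol, map_sub, map_smul, dx_mul, dy_mul, dx_r2, dy_r2, dx_X, dy_Y]
  sev; rw [r2_apply]; ring

theorem lap_congr {f g : S} (h : ∀ p ∈ Ω, f p = g p) : ∀ p ∈ Ω, lap f p = lap g p :=
  fun p hp => by
  simp only [lap, add_apply]
  rw [dx_congr isOpen_Ω (dx_congr isOpen_Ω h) p hp, dy_congr isOpen_Ω (dy_congr isOpen_Ω h) p hp]

theorem lap_phi0 : ∀ p ∈ Ω, lap phi0 p = (1 - r2 : S) p := fun p hp => by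
  rw [lap_congr phi0_eq p hp, lap_pol]

/-- The real inequality behind the first-derivative estimates. -/
theorem deriv_est {ε δ θ E a L x R : ℝ} (hε : 0 < ε) (hεδ : 10000 * ε ≤ δ) (hθ : 10 * θ ≤ δ)
    (hE : |E - 1| ≤ 88 * ε) (hE3 : |E| ≤ 3) (ha : |a| ≤ 20 * ε) (hL : |L| ≤ 18 * ε) (hx : |x| ≤ 3)
    (hR : |R| ≤ θ * ε) :
    |-(E * (2 * a) * L + E * (ε * -(2 * x) + R)) - ε * (2 * x)| ≤ δ * ε := by
  have e : -(E * (2 * a) * L + E * (ε * -(2 * x) + R)) - ε * (2 * x)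
      = -(2 * (E * (a * L))) + 2 * ε * ((E - 1) * x) - E * R := by ring
  have h1 : |E * (a * L)| ≤ 3 * ((20 * ε) * (18 * ε)) := by
    rw [abs_mul, abs_mul]; gcongr
  have h2 : |(E - 1) * x| ≤ (88 * ε) * 3 := by rw [abs_mul]; gcongr
  have h3 : |E * R| ≤ 3 * (θ * ε) := by
    rw [abs_mul]; exact mul_le_mul hE3 hR (abs_nonneg _) (by norm_num)
  rw [e, abs_le]
  rw [abs_le] at h1 h2 h3
  constructor <;> nlinarith [h1.1, h1.2, h2.1, h2.2, h3.1, h3.2, mul_pos hε hε]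

end Model

open Model

theorem modelSmall : ModelSmallStmt := by
  intro q hq δ hδ
  refine ⟨min (1 / 44) (δ / 10000), by positivity, fun ε hε hε0 => ?_⟩
  have hε1 : ε ≤ 1 / 44 := hε0.trans (min_le_left _ _)
  have hε2 : 10000 * ε ≤ δ := by linarith [hε0.trans (min_le_right _ _)]
  set θ : ℝ := min 1 (δ / 10) with hθ
  have hθ0 : 0 < θ := by positivity
  have hθ1 : θ ≤ 1 := min_le_left _ _
  have hθ2 : 10 * θ ≤ δ := by linarith [min_le_right 1 (δ / 10)]
  have hη : 0 < θ * ε := by positivity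
  have hηε : θ * ε ≤ ε := by nlinarith
  have ev := (bmp_small (q := q) (i := 0) test_chi0 (by omega) hη).and
    ((bmp_small (q := q) (i := 0 + 1) test_chi0.dx (by omega) hη).and
    ((bmp_small (q := q) (i := 0 + 1) test_chi0.dy (by omega) hη).and
    ((bmp_small (q := q) (i := 0 + 2) test_chi0.lap (by omega) hη).and
    ((bmp_small (q := q) (i := 0 + 2 + 1) test_chi0.lap.dx (by omega) hη).and
    (bmp_small (q := q) (i := 0 + 2 + 1) test_chi0.lap.dy (by omega) hη)))))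
  obtain ⟨l₀, hl₀⟩ := eventually_atTop.1 ev
  refine ⟨l₀, fun lam hlam p hp => ?_⟩
  obtain ⟨b0, b1, b2, b3, b4, b5⟩ := hl₀ lam hlam
  obtain ⟨hx, hy, hr⟩ := sq_lt hp
  have hr0 : 0 ≤ p.1 ^ 2 + p.2 ^ 2 := by positivity
  -- pointwise formulas
  have f0 : phi q ε lam p = ε * ((p.1 ^ 2 + p.2 ^ 2) / 4 - (p.1 ^ 2 + p.2 ^ 2) ^ 2 / 16)
      + bmp q 0 chi0 lam p := by
    rw [phi_eq', add_apply, smul_apply, phi0_eq p hp, pol]; sev; rw [r2_apply]; ring
  have f1 : dx (phi q ε lam) p = ε * (p.1 * (1 / 2 - (p.1 ^ 2 + p.2 ^ 2) / 4))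
      + bmp q (0 + 1) (dx chi0) lam p := by
    rw [phi_eq', map_add, map_smul, dx_bmp, add_apply, smul_apply, dx_congr isOpen_Ω phi0_eq p hp,
      dx_pol]
    sev; rw [r2_apply]; ring
  have f2 : dy (phi q ε lam) p = ε * (p.2 * (1 / 2 - (p.1 ^ 2 + p.2 ^ 2) / 4))
      + bmp q (0 + 1) (dy chi0) lam p := by
    rw [phi_eq', map_add, map_smul, dy_bmp, add_apply, smul_apply, dy_congr isOpen_Ω phi0_eq p hp,
      dy_pol]
    sev; rw [r2_apply]; ring
  have el : lap (phi q ε lam) = ε • lap phi0 + bmp q (0 + 2) (lap chi0) lam := by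
    rw [phi_eq', lap_add, lap_smul, lap_bmp]
  have f3 : lap (phi q ε lam) p = ε * (1 - (p.1 ^ 2 + p.2 ^ 2)) + bmp q (0 + 2) (lap chi0) lam p := by
    rw [el, add_apply, smul_apply, lap_phi0 p hp]; sev; rw [r2_apply]
  have f4 : dx (lap (phi q ε lam)) p = ε * -(2 * p.1) + bmp q (0 + 2 + 1) (dx (lap chi0)) lam p := by
    rw [el, map_add, map_smul, dx_bmp, add_apply, smul_apply, dx_congr isOpen_Ω lap_phi0 p hp,
      map_sub, dx_one, dx_r2]
    sev; ring
  have f5 : dy (lap (phi q ε lam)) p = ε * -(2 * p.2) + bmp q (0 + 2 + 1) (dy (lap chi0)) lam p := by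
    rw [el, map_add, map_smul, dy_bmp, add_apply, smul_apply, dy_congr isOpen_Ω lap_phi0 p hp,
      map_sub, dy_one, dy_r2]
    sev; ring
  -- bounds
  have g0 : |phi q ε lam p| ≤ 22 * ε := by
    have h1 : |(p.1 ^ 2 + p.2 ^ 2) / 4 - (p.1 ^ 2 + p.2 ^ 2) ^ 2 / 16| ≤ 21 := by
      rw [abs_le]; constructor <;> nlinarith
    rw [f0]
    refine (abs_add_le _ _).trans ?_
    rw [abs_mul, abs_of_pos hε]
    nlinarith [b0 p]
  have hq4 : |1 / 2 - (p.1 ^ 2 + p.2 ^ 2) / 4| ≤ 4 := by rw [abs_le]; constructor <;> linarith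
  have g1 : |dx (phi q ε lam) p| ≤ 20 * ε := by
    have h1 : |p.1 * (1 / 2 - (p.1 ^ 2 + p.2 ^ 2) / 4)| ≤ 3 * 4 := by
      rw [abs_mul]; exact mul_le_mul hx.le hq4 (abs_nonneg _) (by norm_num)
    rw [f1]
    refine (abs_add_le _ _).trans ?_
    rw [abs_mul, abs_of_pos hε]
    nlinarith [b1 p]
  have g2 : |dy (phi q ε lam) p| ≤ 20 * ε := by
    have h1 : |p.2 * (1 / 2 - (p.1 ^ 2 + p.2 ^ 2) / 4)| ≤ 3 * 4 := by
      rw [abs_mul]; exact mul_le_mul hy.le hq4 (abs_nonneg _) (by norm_num)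
    rw [f2]
    refine (abs_add_le _ _).trans ?_
    rw [abs_mul, abs_of_pos hε]
    nlinarith [b2 p]
  have hr1 : |1 - (p.1 ^ 2 + p.2 ^ 2)| ≤ 17 := by rw [abs_le]; constructor <;> linarith
  have g3 : |lap (phi q ε lam) p| ≤ 18 * ε := by
    rw [f3]
    refine (abs_add_le _ _).trans ?_
    rw [abs_mul, abs_of_pos hε]
    nlinarith [b3 p]
  have h2φ : |2 * phi q ε lam p| ≤ 44 * ε := by rw [abs_mul, abs_two]; linarith
  have gE : |Real.exp (2 * phi q ε lam p) - 1| ≤ 88 * ε :=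
    (Real.abs_exp_sub_one_le (by linarith)).trans (by linarith)
  have gE3 : |Real.exp (2 * phi q ε lam p)| ≤ 3 := by
    rw [abs_le] at gE ⊢; constructor <;> linarith [gE.1, gE.2]
  refine ⟨by linarith, g1, g2, ?_, ?_, ?_⟩
  · have e : kap (phi q ε lam) p - ε * (p.1 ^ 2 + p.2 ^ 2 - 1)
        = -(ε * ((Real.exp (2 * phi q ε lam p) - 1) * (1 - (p.1 ^ 2 + p.2 ^ 2))))
          - Real.exp (2 * phi q ε lam p) * bmp q (0 + 2) (lap chi0) lam p := by
      rw [kap, neg_apply, mul_apply, sexp_apply, mul_apply, two_apply, f3]; ring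
    have h1 : |(Real.exp (2 * phi q ε lam p) - 1) * (1 - (p.1 ^ 2 + p.2 ^ 2))| ≤ (88 * ε) * 17 := by
      rw [abs_mul]; exact mul_le_mul gE hr1 (abs_nonneg _) (by positivity)
    have h2 : |Real.exp (2 * phi q ε lam p) * bmp q (0 + 2) (lap chi0) lam p| ≤ 3 * (θ * ε) := by
      rw [abs_mul]; exact mul_le_mul gE3 (b3 p) (abs_nonneg _) (by norm_num)
    rw [e, abs_le]
    rw [abs_le] at h1 h2
    constructor <;> nlinarith [h1.1, h1.2, h2.1, h2.2, mul_pos hε hε]
  · have e : dx (kap (phi q ε lam)) p = -(Real.exp (2 * phi q ε lam p) * (2 * dx (phi q ε lam) p)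
        * lap (phi q ε lam) p + Real.exp (2 * phi q ε lam p)
          * (ε * -(2 * p.1) + bmp q (0 + 2 + 1) (dx (lap chi0)) lam p)) := by
      rw [kap, map_neg, dx_mul, dx_sexp, dx_mul, dx_two, ← f4]
      simp only [neg_apply, add_apply, mul_apply, sexp_apply, two_apply, zero_apply]
      ring
    rw [e]
    exact deriv_est hε hε2 hθ2 gE gE3 g1 g3 hx.le (b4 p)
  · have e : dy (kap (phi q ε lam)) p = -(Real.exp (2 * phi q ε lam p) * (2 * dy (phi q ε lam) p)
        * lap (phi q ε lam) p + Real.exp (2 * phi q ε lam p)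
          * (ε * -(2 * p.2) + bmp q (0 + 2 + 1) (dy (lap chi0)) lam p)) := by
      rw [kap, map_neg, dy_mul, dy_sexp, dy_mul, dy_two, ← f5]
      simp only [neg_apply, add_apply, mul_apply, sexp_apply, two_apply, zero_apply]
      ring
    rw [e]
    exact deriv_est hε hε2 hθ2 gE gE3 g2 g3 hy.le (b5 p)

theorem modelFam : ModelFamStmt := by
  intro q hq ε lam hl
  have c0 : Cy q (fun n => phi q ε (lam n)) := by
    simp only [phi_eq']
    exact (Cy.const _ _).add (bmp_cy test_chi0 hl (by omega))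
  have c1 : Cy (q - 1) (fun n => dx (phi q ε (lam n))) := by
    simp only [phi_eq', map_add, dx_bmp]
    exact (Cy.const _ _).add (bmp_cy test_chi0.dx hl (by omega))
  have c2 : Cy (q - 1) (fun n => dy (phi q ε (lam n))) := by
    simp only [phi_eq', map_add, dy_bmp]
    exact (Cy.const _ _).add (bmp_cy test_chi0.dy hl (by omega))
  have c3 : Cy (q - 2) (fun n => lap (phi q ε (lam n))) := by
    simp only [phi_eq', lap_add, lap_bmp]
    exact (Cy.const _ _).add (bmp_cy test_chi0.lap hl (by omega))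
  have h3 : Hy (q - 1) (fun n => lap (phi q ε (lam n))) := by
    simp only [phi_eq', lap_add, lap_bmp]
    exact (Cy.const _ _).toHy.add (bmp_hy test_chi0.lap hl (by omega))
  have c2φ : Cy q (fun n => 2 * phi q ε (lam n)) := (Cy.const _ _).mul c0
  have cW : Cy q (fun n => sexp (2 * phi q ε (lam n))) := c2φ.sexp
  refine ⟨c1, c2, (c2φ.neg.mono (by omega)).sexp, ((cW.mono (by omega)).mul c3).neg,
    ((cW.mono (by omega)).mul_Hy h3).neg, cW.sb, ?_, cW 1 (by omega), ?_⟩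
  · simp only [dx_sexp, dx_mul, dx_two, zero_mul, zero_add]
    exact cW.sb.mul ((SB.const _).mul c1.sb)
  · have e : ∀ n, dy^[q] (kap (phi q ε (lam n))) + sexp (2 * phi q ε (lam n)) * Psi q chi0 (lam n)
        = -(∑ i ∈ Finset.range q, (q.choose (i + 1) : S) * (dy^[i + 1] (sexp (2 * phi q ε (lam n)))
            * dy^[q - (i + 1)] (lap (phi q ε (lam n)))))
          - sexp (2 * phi q ε (lam n)) * dy^[q] (lap (ε • phi0)) := by
      intro n
      have h0 : lam n ^ q ≠ 0 := pow_ne_zero _ (by linarith [hl n])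
      have e1 : dy^[q] (lap (phi q ε (lam n))) = dy^[q] (lap (ε • phi0)) + Psi q chi0 (lam n) := by
        rw [phi_eq', lap_add, lap_bmp, dyi_add, dyi_bmp, bmp, Psi]
        congr 2
        field_simp
        ring
      rw [kap, dyi_neg, dyi_mul, Finset.sum_range_succ', Nat.choose_zero_right, Nat.cast_one,
        one_mul, Nat.sub_zero, Function.iterate_zero_apply, e1]
      ring
    simp only [e]
    refine (LB.sum _ fun i hi => ?_).neg.sub (cW.sb.mul (SB.const _)).toLB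
    have hi' := Finset.mem_range.1 hi
    exact (SB.const _).mul_LB ((cW (i + 1) (by omega)).mul_LB (h3 _ (by omega)))

namespace Model

theorem iter_bound {f : E2 → ℝ} (hf : ContDiff ℝ ∞ f) (hc : HasCompactSupport f) (j : ℕ) :
    ∃ K : ℝ, 0 < K ∧ ∀ k ≤ j, ∀ x, ‖iteratedFDeriv ℝ k f x‖ ≤ K := by
  have h : ∀ k : ℕ, ∃ K : ℝ, ∀ x, ‖iteratedFDeriv ℝ k f x‖ ≤ K := fun k =>
    (hf.continuous_iteratedFDeriv (by exact_mod_cast le_top)).bounded_above_of_compact_support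
      (hc.iteratedFDeriv k)
  choose K hK using h
  refine ⟨1 + ∑ k ∈ Finset.range (j + 1), |K k|, by positivity, fun k hk x => ?_⟩
  have := Finset.single_le_sum (f := fun k => |K k|) (fun i _ => abs_nonneg (K i))
    (Finset.mem_range.2 (Nat.lt_succ_of_le hk))
  linarith [hK k x, le_abs_self (K k)]

end Model

theorem modelE2 : ModelE2Stmt := by
  intro q j ρ hjq hρ
  have hu : ContDiff ℝ ∞ (fun x : E2 => ‖x‖ ^ 2 / ρ ^ 2) := (contDiff_norm_sq ℝ).div_const _
  have h36 : ∀ x : E2, 6 * ρ ≤ ‖x‖ → 36 ≤ ‖x‖ ^ 2 / ρ ^ 2 := fun x hx => by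
    rw [le_div_iff₀ (by positivity)]; nlinarith
  let Φ : E2 → ℝ := fun x => th0 (‖x‖ ^ 2 / ρ ^ 2)
  let X0 : E2 → ℝ := fun x => expNegInvGlue (1 - ‖x‖ ^ 2 / ρ ^ 2)
  have hΦ : ContDiff ℝ ∞ Φ := contDiff_th0.comp hu
  have hX : ContDiff ℝ ∞ X0 := expNegInvGlue.contDiff.comp (contDiff_const.sub hu)
  have zΦ : ∀ x : E2, 6 * ρ ≤ ‖x‖ → Φ x = 0 := fun x hx => by
    simp only [Φ, th0]
    rw [Real.smoothTransition.zero_of_nonpos (by linarith [h36 x hx]), mul_zero]
  have zX : ∀ x : E2, 6 * ρ ≤ ‖x‖ → X0 x = 0 := fun x hx =>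
    expNegInvGlue.zero_of_nonpos (by linarith [h36 x hx])
  have cs : ∀ f : E2 → ℝ, (∀ x : E2, 6 * ρ ≤ ‖x‖ → f x = 0) → HasCompactSupport f := fun f hf =>
    HasCompactSupport.intro (isCompact_closedBall (0 : E2) (6 * ρ)) fun x hx =>
      hf x (le_of_lt (by simpa using hx))
  obtain ⟨K, hK0, hK⟩ := iter_bound hΦ (cs _ zΦ) j
  obtain ⟨K', hK0', hK'⟩ := iter_bound hX (cs _ zX) j
  set η : ℝ := (1 / 2 : ℝ) ^ j with hη
  have hη0 : 0 < η := by positivity
  refine ⟨η / (2 * K), by positivity, max 1 (2 * K' / η), fun ε lam hε hε0 hl => ?_⟩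
  have hl1 : 1 ≤ lam := (le_max_left _ _).trans hl
  have hl2 : 2 * K' / η ≤ lam := (le_max_right _ _).trans hl
  have hl0 : 0 < lam := by linarith
  have e : (fun x : E2 => Theta q ε lam (‖x‖ ^ 2 / ρ ^ 2))
      = ε • Φ + (lam ^ q)⁻¹ • fun x => X0 (lam • x) := by
    funext x
    simp only [Theta, Φ, X0, th0, Pi.add_apply, Pi.smul_apply, smul_eq_mul, norm_smul,
      Real.norm_eq_abs, mul_pow, sq_abs]
    congr 3
    ring
  have hX' : ContDiff ℝ ∞ (fun x : E2 => X0 (lam • x)) := hX.comp (contDiff_const_smul lam)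
  refine ⟨(contDiff_Theta q ε lam).comp hu, fun x hx => ?_, fun k hk x => ?_⟩
  · rw [congrFun e x]
    simp only [Pi.add_apply, Pi.smul_apply, smul_eq_mul]
    rw [zΦ x hx, zX (lam • x) ?_]
    · simp
    · rw [norm_smul, Real.norm_eq_abs, abs_of_pos hl0]
      nlinarith [norm_nonneg x]
  · have hk' : (k : WithTop ℕ∞) ≤ ∞ := by exact_mod_cast le_top
    have a1 : ContDiff ℝ ∞ (ε • Φ) := hΦ.const_smul ε
    have a2 : ContDiff ℝ ∞ ((lam ^ q)⁻¹ • fun x => X0 (lam • x)) := hX'.const_smul (lam ^ q)⁻¹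
    rw [e, iteratedFDeriv_add_apply (a1.of_le hk').contDiffAt (a2.of_le hk').contDiffAt,
      iteratedFDeriv_const_smul_apply (hΦ.of_le hk').contDiffAt,
      iteratedFDeriv_const_smul_apply (hX'.of_le hk').contDiffAt,
      iteratedFDeriv_comp_const_smul lam (hX.of_le hk'), smul_smul]
    refine (norm_add_le _ _).trans ?_
    rw [norm_smul, norm_smul, Real.norm_eq_abs, Real.norm_eq_abs, abs_of_pos hε]
    have h1 : ε * ‖iteratedFDeriv ℝ k Φ x‖ ≤ η / 2 :=
      calc ε * ‖iteratedFDeriv ℝ k Φ x‖ ≤ η / (2 * K) * K :=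
            mul_le_mul hε0 (hK k hk x) (norm_nonneg _) (by positivity)
        _ = η / 2 := by field_simp
    have h2 : |(lam ^ q)⁻¹ * lam ^ k| * ‖iteratedFDeriv ℝ k X0 (lam • x)‖ ≤ η / 2 :=
      calc |(lam ^ q)⁻¹ * lam ^ k| * ‖iteratedFDeriv ℝ k X0 (lam • x)‖ ≤ lam⁻¹ * K' :=
            mul_le_mul (coef_le' hl1 (by omega)) (hK' k hk _) (norm_nonneg _) (by positivity)
        _ ≤ η / 2 := by
            rw [inv_mul_le_iff₀ hl0]
            rw [div_le_iff₀ hη0] at hl2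
            linarith
    linarith

end Crest.Agent.R220
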