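import Crest.Agent.R220.Energy

/-!
Row 220 (S0341): Leibniz remainders and regularity bookkeeping.
-/

set_option autoImplicit false
open scoped ContDiff
open MeasureTheory Filter

namespace Crest.Agent.R220

theorem rem1 {a B : ℕ → S} {j : ℕ} (ha : Cy (j + 1) a) (hB : Hy j B) :
    LB (fun n => dy^[j + 1] (a n * B n) - a n * dy^[j + 1] (B n)) := by
  have e : ∀ n, dy^[j + 1] (a n * B n) - a n * dy^[j + 1] (B n) = ∑ i ∈ Finset.range (j + 1),
      ((j + 1).choose (i + 1) : S) * (dy^[i + 1] (a n) * dy^[j + 1 - (i + 1)] (B n)) := fun n => by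
    rw [dyi_mul, Finset.sum_range_succ']
    simp
  simp only [e]
  refine LB.sum _ fun i hi => (SB.const _).mul_LB ((ha _ ?_).mul_LB (hB _ ?_))
  · have := Finset.mem_range.1 hi; omega
  · omega

theorem prodLB {A B : ℕ → S} {j : ℕ} (hA : Hy (j + 2) A) (hB : Hy (j + 2) B) (cA : Cy j A)
    (cB : Cy j B) {i k : ℕ} (hi : i ≤ j + 2) (hk : k ≤ j + 2) (h : i ≤ j ∨ k ≤ j) :
    LB (fun n => dy^[i] (A n) * dy^[k] (B n)) := by
  rcases h with h | h
  · exact (cA i h).mul_LB (hB k hk)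
  · exact (hA i hi).mul_SB (cB k h)

theorem rem3 {A B : ℕ → S} {j : ℕ} (hj : 3 ≤ j) (hA : Hy (j + 2) A) (hB : Hy (j + 2) B) (cA : Cy j A)
    (cB : Cy j B) : LB (fun n => dy^[j + 3] (A n * B n) - A n * dy^[j + 3] (B n) -
      dy^[j + 3] (A n) * B n) := by
  have e : ∀ n, dy^[j + 3] (A n * B n) - A n * dy^[j + 3] (B n) - dy^[j + 3] (A n) * B n =
      ∑ i ∈ Finset.range (j + 2),
      ((j + 3).choose (i + 1) : S) * (dy^[i + 1] (A n) * dy^[j + 3 - (i + 1)] (B n)) := fun n => by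
    rw [dyi_mul, Finset.sum_range_succ, Finset.sum_range_succ']
    simp only [Nat.choose_zero_right, Nat.cast_one, Function.iterate_zero, id_eq, Nat.sub_zero,
      Nat.choose_self, Nat.sub_self]
    ring
  simp only [e]
  refine LB.sum _ fun i hi => (SB.const _).mul_LB (prodLB hA hB cA cB ?_ ?_ ?_) <;>
    have := Finset.mem_range.1 hi <;> omega

theorem rem4 {A B : ℕ → S} {j : ℕ} (hj : 3 ≤ j) (hA : Hy (j + 2) A) (hB : Hy (j + 2) B) (cA : Cy j A)
    (cB : Cy j B) : LB (fun n => dy^[j + 4] (A n * B n) - A n * dy (dy^[j + 3] (B n)) -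
      (j + 4 : ℕ) * (dy (A n) * dy^[j + 3] (B n)) - (j + 4 : ℕ) * (dy^[j + 3] (A n) * dy (B n)) -
      dy (dy^[j + 3] (A n)) * B n) := by
  have e : ∀ n, dy^[j + 4] (A n * B n) - A n * dy (dy^[j + 3] (B n)) -
      (j + 4 : ℕ) * (dy (A n) * dy^[j + 3] (B n)) - (j + 4 : ℕ) * (dy^[j + 3] (A n) * dy (B n)) -
      dy (dy^[j + 3] (A n)) * B n = ∑ i ∈ Finset.range (j + 1),
      ((j + 4).choose (i + 1 + 1) : S) *
        (dy^[i + 1 + 1] (A n) * dy^[j + 4 - (i + 1 + 1)] (B n)) := fun n => by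
    rw [dyi_mul, Finset.sum_range_succ, Finset.sum_range_succ, Finset.sum_range_succ',
      Finset.sum_range_succ']
    have h1 : (j + 4).choose (j + 3) = j + 4 := Nat.choose_succ_self_right (j + 3)
    have h2 : j + 4 - (j + 3) = 1 := by omega
    have h3 : j + 4 - (0 + 1) = j + 3 := by omega
    simp only [Nat.choose_zero_right, Nat.cast_one, Function.iterate_zero, id_eq, Nat.sub_zero,
      Nat.choose_self, Nat.sub_self, h1, h2, h3, zero_add, Nat.choose_one_right,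
      Function.iterate_one, ← dyi_succ]
    ring
  simp only [e]
  refine LB.sum _ fun i hi => (SB.const _).mul_LB (prodLB hA hB cA cB ?_ ?_ ?_) <;>
    have := Finset.mem_range.1 hi <;> omega

/-- Sobolev in the form used below. -/
theorem Hy.cy {f : ℕ → S} {j : ℕ} (h : Hy (j + 1) f) (hx : Hy (j + 1) (fun n => dx (f n))) :
    Cy j f := fun i hi => by
  refine sobolev (h i (by omega)) ?_ ?_ ?_
  · simpa only [dx_dyi] using hx i (by omega)
  · simpa only [← dyi_succ] using h (i + 1) (by omega)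
  · simpa only [dx_dyi, ← dyi_succ] using hx (i + 1) (by omega)

/-- A smooth function equal to `1/u` for `u ≥ 1/2`. -/
noncomputable def inv' (u : ℝ) : ℝ := Real.smoothTransition (4 * u - 1) * u⁻¹

theorem contDiff_inv' : ContDiff ℝ ∞ inv' := by
  rw [contDiff_iff_contDiffAt]
  intro u
  by_cases hu : 0 < u
  · exact (Real.smoothTransition.contDiff.comp (by fun_prop)).contDiffAt.mul
      (contDiffAt_inv ℝ hu.ne')
  · have : inv' =ᶠ[nhds u] fun _ => 0 := by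
      filter_upwards [Iio_mem_nhds (show u < 1 / 4 by linarith)] with v hv
      rw [inv', Real.smoothTransition.zero_of_nonpos (by linarith [Set.mem_Iio.1 hv]), zero_mul]
    exact contDiffAt_const.congr_of_eventuallyEq this

theorem inv'_mul {u : ℝ} (hu : 1 / 2 ≤ u) : inv' u * u = 1 := by
  rw [inv', Real.smoothTransition.one_of_one_le (by linarith), one_mul,
    inv_mul_cancel₀ (by linarith)]

namespace Data
variable {q : ℕ} {δ : ℝ} (D : Data q δ)

/-- `1/N`. -/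
noncomputable def ν (n : ℕ) : S := comp1 inv' contDiff_inv' (D.N n)
/-- `M/N`. -/
noncomputable def t (n : ℕ) : S := D.M n * D.ν n
/-- `κ/N²`. -/
noncomputable def k (n : ℕ) : S := D.κ n * D.ν n ^ 2

variable {D}

theorem inv (hδ : δ ≤ 1 / 4) (n : ℕ) : ∀ p ∈ Ω, D.ν n p * D.N n p = 1 := fun p hp =>
  inv'_mul (by linarith [(abs_le.1 (D.small n p hp).1).1])

theorem nu_near (hδ : δ ≤ 1 / 4) (n : ℕ) : ∀ p ∈ Ω, |D.ν n p - 1| ≤ 2 * δ := fun p hp => by
  have h1 := inv (D := D) hδ n p hp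
  obtain ⟨h2, h3⟩ := abs_le.1 (D.small n p hp).1
  have h4 : 0 < D.ν n p := by
    by_contra h; nlinarith [not_lt.1 h]
  have h5 : D.ν n p ≤ 2 := by nlinarith
  rw [abs_le]; constructor <;> nlinarith

theorem dv_nu (hδ : δ ≤ 1 / 4) (v : ℝ × ℝ) (n : ℕ) :
    ∀ p ∈ Ω, dv v (D.ν n) p = -(D.ν n p ^ 2 * dv v (D.N n) p) := fun p hp => by
  have h1 := dv_congr isOpen_Ω (f := D.ν n * D.N n) (g := 1) (inv hδ n) v p hp
  rw [dv_mul, dv_one] at h1
  sev at h1
  have h2 := inv (D := D) hδ n p hp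
  linear_combination D.ν n p * h1 - dv v (D.ν n) p * h2

theorem dx_nu (hδ : δ ≤ 1 / 4) (n : ℕ) :
    ∀ p ∈ Ω, dx (D.ν n) p = -(D.ν n p ^ 2 * dx (D.N n) p) := dv_nu hδ _ n
theorem dy_nu (hδ : δ ≤ 1 / 4) (n : ℕ) :
    ∀ p ∈ Ω, dy (D.ν n) p = -(D.ν n p ^ 2 * dy (D.N n) p) := dv_nu hδ _ n

theorem L_eq (hδ : δ ≤ 1 / 4) (n : ℕ) :
    ∀ p ∈ Ω, D.L n p = ((D.M n * D.M n + D.κ n) * D.ν n : S) p := fun p hp => by
  sev
  linear_combination D.ν n p * D.gauss n p hp - D.L n p * inv hδ n p hp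

theorem dxN (n : ℕ) : ∀ p ∈ Ω, dx (D.N n) p = (dy (D.M n) + D.a n * (D.L n + D.N n) : S) p :=
  fun p hp => by sev; linear_combination -D.cod2 n p hp

theorem dxM (n : ℕ) : ∀ p ∈ Ω, dx (D.M n) p = (dy (D.L n) - D.b n * (D.L n + D.N n) : S) p :=
  fun p hp => by sev; linear_combination -D.cod1 n p hp

theorem sb_nu (hδ : δ ≤ 1 / 4) : SB D.ν := SB.of_le (K := 2) fun n p hp => by
  have := abs_le.1 (nu_near (D := D) hδ n p hp)
  rw [abs_le]; constructor <;> linarith [this.1, this.2]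

theorem cy_nu (hδ : δ ≤ 1 / 4) {j : ℕ} (h : Cy j D.N) : Cy j D.ν := by
  induction j with
  | zero => intro i hi; obtain rfl : i = 0 := by omega
            exact sb_nu hδ
  | succ j ih =>
    have h1 := ih (h.mono (Nat.le_succ j))
    refine Cy.succ (sb_nu hδ) (((h1.mul h1).mul h.dy).neg.congr fun n p hp => ?_)
    rw [dy_nu hδ n p hp]; sev; ring

/-- Sobolev step. -/
theorem cy_of_hy (hδ : δ ≤ 1 / 4) {j : ℕ} (hj : j + 2 ≤ q - 1) (hL : Hy (j + 2) D.L)
    (hM : Hy (j + 2) D.M) (hN : Hy (j + 2) D.N) : Cy j D.L ∧ Cy j D.M ∧ Cy j D.N := by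
  have hLN := (hL.add hN).mono (show j + 1 ≤ j + 2 by omega)
  have cN : Cy j D.N := (hN.mono (by omega)).cy
    ((hM.dy.add ((D.Ca.mono (by omega)).mul_Hy hLN)).congr fun n p hp => (dxN n p hp).symm)
  have cM : Cy j D.M := (hM.mono (by omega)).cy
    ((hL.dy.sub ((D.Cb.mono (by omega)).mul_Hy hLN)).congr fun n p hp => (dxM n p hp).symm)
  exact ⟨(((cM.mul cM).add (D.Cκ.mono (by omega))).mul (cy_nu hδ cN)).congr
    fun n p hp => (L_eq hδ n p hp).symm, cM, cN⟩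

theorem cy_t (hδ : δ ≤ 1 / 4) : Cy 5 D.t := D.CM.mul (cy_nu hδ D.CN)

theorem cy_k (hq : 7 ≤ q) (hδ : δ ≤ 1 / 4) : Cy 5 D.k := by
  have h := cy_nu hδ D.CN
  exact ((D.Cκ.mono (by omega)).mul (h.mul h)).congr fun n p _ => by simp only [k]; sev; ring

theorem sb_dxN : SB (fun n => dx (D.N n)) :=
  ((D.CM 1 (by omega)).add (D.Ca.sb.mul (D.CL.sb.add D.CN.sb))).congr fun n p hp => (dxN n p hp).symm

theorem sb_dxM : SB (fun n => dx (D.M n)) :=
  ((D.CL 1 (by omega)).sub (D.Cb.sb.mul (D.CL.sb.add D.CN.sb))).congr fun n p hp => (dxM n p hp).symm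

theorem sb_dxnu (hδ : δ ≤ 1 / 4) : SB (fun n => dx (D.ν n)) :=
  (((sb_nu hδ).pow 2).mul sb_dxN).neg.congr fun n p hp => (dx_nu hδ n p hp).symm

theorem sb_dxt (hδ : δ ≤ 1 / 4) : SB (fun n => dx (D.t n)) := by
  simp only [t, dx_mul]
  exact (sb_dxM.mul (sb_nu hδ)).add (D.CM.sb.mul (sb_dxnu hδ))

theorem sb_dxκ (hδ : δ ≤ 1 / 4) : SB (fun n => dx (D.κ n)) := SB.of_le (K := 2) fun n p hp => by
  obtain ⟨h1, h2⟩ := abs_le.1 (D.smallκ n p hp).2.1
  obtain ⟨h3, h4⟩ := D.he n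
  have h5 := D.e0_pos
  obtain ⟨h6, h7⟩ := abs_le.1 ((abs_fst_le p).trans (mem_Ω.1 hp).le)
  rw [abs_le]; constructor <;> nlinarith

theorem sb_dxk (hδ : δ ≤ 1 / 4) : SB (fun n => dx (D.k n)) := by
  simp only [k, dx_mul, sq]
  exact ((sb_dxκ hδ).mul ((sb_nu hδ).mul (sb_nu hδ))).add
    (D.Cκ.sb.mul (((sb_dxnu hδ).mul (sb_nu hδ)).add ((sb_nu hδ).mul (sb_dxnu hδ))))

end Data

end Crest.Agent.R220
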