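import Crest.Agent.R220.Defs

/-!
Row 220 (S0341): toolkit for test functions and the classes `LB`, `SB`, `Hy`, `Cy`.
-/

set_option autoImplicit false
open scoped ContDiff
open MeasureTheory Filter

namespace Crest.Agent.R220

theorem isOpen_Ω : IsOpen Ω := Metric.isOpen_ball
theorem mem_Ω {p : ℝ × ℝ} : p ∈ Ω ↔ ‖p‖ < 3 := by simp [Ω]
theorem zero_mem_Ω : (0 : ℝ × ℝ) ∈ Ω := by simp [mem_Ω]
theorem abs_fst_le (p : ℝ × ℝ) : |p.1| ≤ ‖p‖ := norm_fst_le p
theorem abs_snd_le (p : ℝ × ℝ) : |p.2| ≤ ‖p‖ := norm_snd_le p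

/-! ### Test functions -/

namespace Test
variable {ζ : S}

theorem dv (h : Test ζ) (v : ℝ × ℝ) : Test (dv v ζ) := by
  obtain ⟨r, hr, h⟩ := h
  refine ⟨r, hr, fun p hp => ?_⟩
  have ho : IsOpen {q : ℝ × ℝ | r < ‖q‖} := isOpen_lt continuous_const continuous_norm
  have := dv_congr ho (f := ζ) (g := 0) (fun q hq => h q hq) v p hp
  rwa [map_zero] at this

theorem dx (h : Test ζ) : Test (dx ζ) := h.dv _
theorem dy (h : Test ζ) : Test (dy ζ) := h.dv _
theorem dyi (h : Test ζ) (m : ℕ) : Test (R220.dy^[m] ζ) := by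
  induction m with
  | zero => exact h
  | succ m ih => rw [dyi_succ]; exact ih.dy

theorem mul (h : Test ζ) (f : S) : Test (ζ * f) := by
  obtain ⟨r, hr, h⟩ := h
  exact ⟨r, hr, fun p hp => by rw [mul_apply, h p hp, zero_mul]⟩

theorem mul_left (h : Test ζ) (f : S) : Test (f * ζ) := by rw [mul_comm]; exact h.mul f

theorem add {ξ : S} (h : Test ζ) (h' : Test ξ) : Test (ζ + ξ) := by
  obtain ⟨r, hr, h⟩ := h
  obtain ⟨r', hr', h'⟩ := h'
  exact ⟨max r r', max_lt hr hr', fun p hp => by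
    rw [add_apply, h p (lt_of_le_of_lt (le_max_left _ _) hp),
      h' p (lt_of_le_of_lt (le_max_right _ _) hp), add_zero]⟩

theorem lap (h : Test ζ) : Test (lap ζ) := h.dx.dx.add h.dy.dy

theorem eq_zero (h : Test ζ) {p : ℝ × ℝ} (hp : p ∉ Ω) : ζ p = 0 := by
  obtain ⟨r, hr, h⟩ := h
  rw [mem_Ω, not_lt] at hp
  exact h p (by linarith)

theorem hcs (h : Test ζ) : HasCompactSupport (ζ : ℝ × ℝ → ℝ) :=
  HasCompactSupport.intro (isCompact_closedBall (0 : ℝ × ℝ) 3) fun _ hp =>
    h.eq_zero fun hq => hp (Metric.ball_subset_closedBall hq)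

theorem integrable (h : Test ζ) : Integrable (ζ : ℝ × ℝ → ℝ) :=
  (S.cont ζ).integrable_of_hasCompactSupport h.hcs

theorem integrable_mul (h : Test ζ) (f : S) : Integrable (fun p => ζ p * f p) := (h.mul f).integrable

theorem integrable_sq (h : Test ζ) (f : S) : Integrable (fun p => (ζ p * f p) ^ 2) := by
  have := ((h.mul f).mul (ζ * f)).integrable
  refine this.congr (Eventually.of_forall fun p => ?_)
  simp [sq]

theorem bound (h : Test ζ) : ∃ K : ℝ, 0 ≤ K ∧ ∀ p, |ζ p| ≤ K := by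
  obtain ⟨K, hK⟩ := (S.cont ζ).bounded_above_of_compact_support h.hcs
  exact ⟨K, (norm_nonneg _).trans (hK 0), hK⟩

theorem ibp (h : Test ζ) (v : ℝ × ℝ) (f : S) :
    ∫ p, ζ p * R220.dv v f p = -∫ p, R220.dv v ζ p * f p :=
  integral_mul_fderiv_eq_neg_fderiv_mul_of_integrable ((h.dv v).integrable_mul f)
    (h.integrable_mul (R220.dv v f)) (h.integrable_mul f) (fun p _ => S.diff ζ p)
    (fun p _ => S.diff f p)

theorem ibp_x (h : Test ζ) (f : S) : ∫ p, ζ p * R220.dx f p = -∫ p, R220.dx ζ p * f p := h.ibp _ f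
theorem ibp_y (h : Test ζ) (f : S) : ∫ p, ζ p * R220.dy f p = -∫ p, R220.dy ζ p * f p := h.ibp _ f

theorem integral_dv (h : Test ζ) (v : ℝ × ℝ) : ∫ p, R220.dv v ζ p = 0 := by
  have := h.ibp v 1
  rw [dv_one] at this
  simpa using this.symm

theorem integral_dx (h : Test ζ) : ∫ p, R220.dx ζ p = 0 := h.integral_dv _
theorem integral_dy (h : Test ζ) : ∫ p, R220.dy ζ p = 0 := h.integral_dv _

end Test

theorem exists_bump {r : ℝ} (hr : r < 3) :
    ∃ χ : S, Test χ ∧ (∀ p, ‖p‖ ≤ r → χ p = 1) ∧ ∀ p, 0 ≤ χ p ∧ χ p ≤ 1 := by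
  have h1 : max r 1 < 3 := max_lt hr (by norm_num)
  have h0 : 0 < max r 1 := lt_of_lt_of_le one_pos (le_max_right _ _)
  let b : ContDiffBump (0 : ℝ × ℝ) := ⟨max r 1, (max r 1 + 3) / 2, h0, by linarith⟩
  refine ⟨mk b b.contDiff, ⟨(max r 1 + 3) / 2, by linarith, fun p hp => ?_⟩, fun p hp => ?_,
    fun p => ⟨b.nonneg, b.le_one⟩⟩
  · exact b.zero_of_le_dist (by simpa [b] using hp.le)
  · exact b.one_of_mem_closedBall (by simpa [b] using Or.inl hp)

/-! ### `SB` -/

namespace SB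
variable {f g : ℕ → S}

theorem congr (h : SB f) (e : ∀ n, ∀ p ∈ Ω, f n p = g n p) : SB g := fun r hr => by
  obtain ⟨K, hK⟩ := h r hr
  exact ⟨K, fun n p hp => by rw [← e n p (mem_Ω.2 (by linarith))]; exact hK n p hp⟩

theorem bound (h : SB f) {r : ℝ} (hr : r < 3) :
    ∃ K : ℝ, 0 ≤ K ∧ ∀ n p, ‖p‖ ≤ r → |f n p| ≤ K := by
  obtain ⟨K, hK⟩ := h r hr
  exact ⟨max K 0, le_max_right _ _, fun n p hp => (hK n p hp).trans (le_max_left _ _)⟩

theorem of_le {K : ℝ} (h : ∀ n, ∀ p ∈ Ω, |f n p| ≤ K) : SB f := fun _ hr =>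
  ⟨K, fun n p hp => h n p (mem_Ω.2 (by linarith))⟩

theorem const (u : S) : SB (fun _ => u) := fun r _ => by
  obtain ⟨K, hK⟩ := (isCompact_closedBall (0 : ℝ × ℝ) r).exists_bound_of_continuousOn
    (S.cont u).continuousOn
  exact ⟨K, fun _ p hp => hK p (by simpa using hp)⟩

theorem add (h : SB f) (h' : SB g) : SB (fun n => f n + g n) := fun r hr => by
  obtain ⟨K, hK⟩ := h r hr
  obtain ⟨K', hK'⟩ := h' r hr
  exact ⟨K + K', fun n p hp => (abs_add_le _ _).trans (add_le_add (hK n p hp) (hK' n p hp))⟩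

theorem neg (h : SB f) : SB (fun n => -f n) := fun r hr => by
  obtain ⟨K, hK⟩ := h r hr
  exact ⟨K, fun n p hp => by rw [neg_apply, abs_neg]; exact hK n p hp⟩

theorem sub (h : SB f) (h' : SB g) : SB (fun n => f n - g n) :=
  (h.add h'.neg).congr fun n p _ => by simp [sub_eq_add_neg]

theorem mul (h : SB f) (h' : SB g) : SB (fun n => f n * g n) := fun r hr => by
  obtain ⟨K, hK0, hK⟩ := h.bound hr
  obtain ⟨K', hK'⟩ := h' r hr
  refine ⟨K * K', fun n p hp => ?_⟩
  rw [mul_apply, abs_mul]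
  exact mul_le_mul (hK n p hp) (hK' n p hp) (abs_nonneg _) hK0

theorem pow (h : SB f) (k : ℕ) : SB (fun n => f n ^ k) := by
  induction k with
  | zero => simpa using const 1
  | succ k ih => simpa [pow_succ] using ih.mul h

theorem ofC {c : ℕ → ℝ} {K : ℝ} (hc : ∀ n, |c n| ≤ K) : SB (fun n => C (c n)) :=
  of_le fun n _ _ => hc n

theorem smul (h : SB f) {c : ℕ → ℝ} {K : ℝ} (hc : ∀ n, |c n| ≤ K) : SB (fun n => c n • f n) :=
  (ofC hc).mul h

theorem sum {ι : Type*} (s : Finset ι) {F : ι → ℕ → S} (h : ∀ i ∈ s, SB (F i)) :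
    SB (fun n => ∑ i ∈ s, F i n) := by
  classical
  induction s using Finset.induction_on with
  | empty => simpa using const 0
  | insert a s ha ih =>
    simp only [Finset.sum_insert ha]
    exact (h a (Finset.mem_insert_self _ _)).add (ih fun i hi => h i (Finset.mem_insert_of_mem hi))

theorem comp1 (h : SB f) (u : ℝ → ℝ) (hu : ContDiff ℝ ∞ u) : SB (fun n => comp1 u hu (f n)) :=
  fun r hr => by
  obtain ⟨K, hK⟩ := h r hr
  obtain ⟨K', hK'⟩ := (isCompact_closedBall (0 : ℝ) K).exists_bound_of_continuousOn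
    hu.continuous.continuousOn
  exact ⟨K', fun n p hp => hK' _ (by simpa using hK n p hp)⟩

/-- Uniform Lipschitz bound at the origin. -/
theorem lip (hx : SB (fun n => dx (f n))) (hy : SB (fun n => dy (f n))) {r : ℝ} (hr : r < 3) :
    ∃ K : ℝ, 0 ≤ K ∧ ∀ n p, ‖p‖ ≤ r → |f n p - f n 0| ≤ K * ‖p‖ := by
  obtain ⟨K, hK0, hK⟩ := hx.bound hr
  obtain ⟨K', hK0', hK'⟩ := hy.bound hr
  refine ⟨K + K', by positivity, fun n p hp => ?_⟩
  have := (convex_closedBall (0 : ℝ × ℝ) r).norm_image_sub_le_of_norm_fderiv_le (𝕜 := ℝ)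
    (f := (f n : ℝ × ℝ → ℝ)) (C := K + K') (fun q _ => S.diff _ q)
    (fun q hq => (norm_fderiv_le _ q).trans
      (add_le_add (hK n q (by simpa using hq)) (hK' n q (by simpa using hq))))
    (x := 0) (y := p) (by simpa using (norm_nonneg p).trans hp) (by simpa using hp)
  simpa using this

end SB

/-! ### `LB` -/

theorem volume_Ω_bound : ∫ p, (Metric.closedBall (0 : ℝ × ℝ) 3).indicator (fun _ => (1 : ℝ)) p
    = (volume (Metric.closedBall (0 : ℝ × ℝ) 3)).toReal := by
  rw [integral_indicator measurableSet_closedBall]; simp [Measure.real]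

theorem integrable_ind : Integrable ((Metric.closedBall (0 : ℝ × ℝ) 3).indicator (fun _ => (1 : ℝ))) :=
  (integrable_indicator_iff measurableSet_closedBall).2
    (integrableOn_const (isCompact_closedBall _ _).measure_lt_top.ne)

namespace LB
variable {f g : ℕ → S}

theorem congr (h : LB f) (e : ∀ n, ∀ p ∈ Ω, f n p = g n p) : LB g := fun ζ hζ => by
  obtain ⟨K, hK⟩ := h ζ hζ
  refine ⟨K, fun n => le_of_eq_of_le (integral_congr_ae (Eventually.of_forall fun p => ?_)) (hK n)⟩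
  by_cases hp : p ∈ Ω
  · simp only [e n p hp]
  · simp only [hζ.eq_zero hp, zero_mul]

theorem add (h : LB f) (h' : LB g) : LB (fun n => f n + g n) := fun ζ hζ => by
  obtain ⟨K, hK⟩ := h ζ hζ
  obtain ⟨K', hK'⟩ := h' ζ hζ
  refine ⟨2 * K + 2 * K', fun n => ?_⟩
  calc ∫ p, (ζ p * (f n + g n : S) p) ^ 2
      ≤ ∫ p, (2 * (ζ p * f n p) ^ 2 + 2 * (ζ p * g n p) ^ 2) := by
        refine integral_mono (hζ.integrable_sq _)
          (((hζ.integrable_sq _).const_mul 2).add ((hζ.integrable_sq _).const_mul 2)) fun p => ?_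
        simp only [add_apply]
        nlinarith [sq_nonneg (ζ p * f n p - ζ p * g n p)]
    _ = 2 * (∫ p, (ζ p * f n p) ^ 2) + 2 * ∫ p, (ζ p * g n p) ^ 2 := by
        rw [integral_add ((hζ.integrable_sq _).const_mul 2) ((hζ.integrable_sq _).const_mul 2),
          integral_const_mul, integral_const_mul]
    _ ≤ _ := by linarith [hK n, hK' n]

theorem _root_.Crest.Agent.R220.SB.mul_LB (h : SB f) (h' : LB g) : LB (fun n => f n * g n) :=
  fun ζ hζ => by
  obtain ⟨K', hK'⟩ := h' ζ hζ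
  obtain ⟨r, hr, hz⟩ := id hζ
  obtain ⟨K, hK0, hK⟩ := h.bound hr
  refine ⟨K ^ 2 * K', fun n => ?_⟩
  calc ∫ p, (ζ p * (f n * g n : S) p) ^ 2 ≤ ∫ p, K ^ 2 * (ζ p * g n p) ^ 2 := by
        refine integral_mono (hζ.integrable_sq _) ((hζ.integrable_sq _).const_mul _) fun p => ?_
        simp only [mul_apply]
        by_cases hp : r < ‖p‖
        · simp [hz p hp]
        · have h1 : f n p ^ 2 ≤ K ^ 2 := by
            rw [← sq_abs]; exact pow_le_pow_left₀ (abs_nonneg _) (hK n p (not_lt.1 hp)) 2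
          calc (ζ p * (f n p * g n p)) ^ 2 = f n p ^ 2 * (ζ p * g n p) ^ 2 := by ring
            _ ≤ _ := mul_le_mul_of_nonneg_right h1 (sq_nonneg _)
    _ = K ^ 2 * ∫ p, (ζ p * g n p) ^ 2 := integral_const_mul _ _
    _ ≤ _ := mul_le_mul_of_nonneg_left (hK' n) (sq_nonneg _)

theorem mul_SB (h : LB f) (h' : SB g) : LB (fun n => f n * g n) := by
  simpa only [mul_comm] using h'.mul_LB h

theorem one : LB (fun _ => 1) := fun _ _ => ⟨_, fun _ => le_rfl⟩

theorem _root_.Crest.Agent.R220.SB.toLB (h : SB f) : LB f := by simpa using h.mul_LB one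

theorem neg (h : LB f) : LB (fun n => -f n) := by
  simpa only [neg_one_mul] using (SB.const (-1)).mul_LB h

theorem sub (h : LB f) (h' : LB g) : LB (fun n => f n - g n) := by
  simpa only [sub_eq_add_neg] using h.add h'.neg

theorem smul (h : LB f) {c : ℕ → ℝ} {K : ℝ} (hc : ∀ n, |c n| ≤ K) : LB (fun n => c n • f n) :=
  (SB.ofC hc).mul_LB h

theorem sum {ι : Type*} (s : Finset ι) {F : ι → ℕ → S} (h : ∀ i ∈ s, LB (F i)) :
    LB (fun n => ∑ i ∈ s, F i n) := by
  classical
  induction s using Finset.induction_on with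
  | empty => simpa using (SB.const 0).toLB
  | insert a s ha ih =>
    simp only [Finset.sum_insert ha]
    exact (h a (Finset.mem_insert_self _ _)).add (ih fun i hi => h i (Finset.mem_insert_of_mem hi))

/-- It suffices to test against cut-offs equal to one on a large square. -/
theorem of_bump (h : ∀ χ : S, Test χ → (∀ p, ‖p‖ ≤ 2 → χ p = 1) →
    ∃ K : ℝ, ∀ n, ∫ p, (χ p * f n p) ^ 2 ≤ K) : LB f := fun ζ hζ => by
  obtain ⟨r, hr, hz⟩ := id hζ
  obtain ⟨χ, hχ, h1, -⟩ := exists_bump (r := max r 2) (max_lt hr (by norm_num))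
  obtain ⟨K, hK⟩ := h χ hχ fun p hp => h1 p (hp.trans (le_max_right _ _))
  obtain ⟨B, hB0, hB⟩ := hζ.bound
  refine ⟨B ^ 2 * K, fun n => ?_⟩
  calc ∫ p, (ζ p * f n p) ^ 2 ≤ ∫ p, B ^ 2 * (χ p * f n p) ^ 2 := by
        refine integral_mono (hζ.integrable_sq _) ((hχ.integrable_sq _).const_mul _) fun p => ?_
        by_cases hp : r < ‖p‖
        · simp only [hz p hp, zero_mul, ne_eq, OfNat.ofNat_ne_zero, not_false_eq_true, zero_pow]
          positivity
        · have h2 : ζ p ^ 2 ≤ B ^ 2 := by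
            rw [← sq_abs]; exact pow_le_pow_left₀ (abs_nonneg _) (hB p) 2
          simp only [h1 p ((not_lt.1 hp).trans (le_max_left _ _)), one_mul, mul_pow]
          exact mul_le_mul_of_nonneg_right h2 (sq_nonneg _)
    _ = B ^ 2 * ∫ p, (χ p * f n p) ^ 2 := integral_const_mul _ _
    _ ≤ _ := mul_le_mul_of_nonneg_left (hK n) (sq_nonneg _)

/-- `L¹` bound. -/
theorem l1 (h : LB f) {ζ : S} (hζ : Test ζ) : ∃ K : ℝ, ∀ n, ∫ p, |ζ p * f n p| ≤ K := by
  obtain ⟨K, hK⟩ := h ζ hζ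
  refine ⟨K + (volume (Metric.closedBall (0 : ℝ × ℝ) 3)).toReal, fun n => ?_⟩
  calc ∫ p, |ζ p * f n p| ≤ ∫ p, ((ζ p * f n p) ^ 2 +
        (Metric.closedBall (0 : ℝ × ℝ) 3).indicator (fun _ => (1 : ℝ)) p) := by
        refine integral_mono (hζ.integrable_mul _).abs ((hζ.integrable_sq _).add integrable_ind)
          fun p => ?_
        by_cases hp : p ∈ Ω
        · simp only [Set.indicator_of_mem (Metric.ball_subset_closedBall hp)]
          nlinarith [sq_nonneg (|ζ p * f n p| - 1), sq_abs (ζ p * f n p), abs_nonneg (ζ p * f n p)]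
        · simp only [hζ.eq_zero hp, zero_mul, abs_zero]
          have : 0 ≤ (Metric.closedBall (0 : ℝ × ℝ) 3).indicator (fun _ => (1 : ℝ)) p :=
            Set.indicator_nonneg (fun _ _ => zero_le_one) p
          positivity
    _ = _ := integral_add (hζ.integrable_sq _) integrable_ind
    _ ≤ _ := by rw [volume_Ω_bound]; linarith [hK n]

end LB

/-! ### Families with bounded integrals -/

/-- Integrable families with uniformly bounded-above integrals. -/
def IB (H : ℕ → ℝ × ℝ → ℝ) : Prop := (∀ n, Integrable (H n)) ∧ ∃ K : ℝ, ∀ n, ∫ p, H n p ≤ K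

theorem LB.ib {f : ℕ → S} (h : LB f) {ζ : S} (hζ : Test ζ) : IB (fun n p => (ζ p * f n p) ^ 2) :=
  ⟨fun _ => hζ.integrable_sq _, h ζ hζ⟩

theorem IB.add {H G : ℕ → ℝ × ℝ → ℝ} (h : IB H) (h' : IB G) : IB (fun n p => H n p + G n p) := by
  obtain ⟨i, K, hK⟩ := h
  obtain ⟨i', K', hK'⟩ := h'
  exact ⟨fun n => (i n).add (i' n), K + K', fun n => by
    rw [integral_add (i n) (i' n)]; exact add_le_add (hK n) (hK' n)⟩

theorem IB.const_mul {H : ℕ → ℝ × ℝ → ℝ} (h : IB H) {c : ℝ} (hc : 0 ≤ c) :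
    IB (fun n p => c * H n p) := by
  obtain ⟨i, K, hK⟩ := h
  exact ⟨fun n => (i n).const_mul c, c * K, fun n => by
    rw [integral_const_mul]; exact mul_le_mul_of_nonneg_left (hK n) hc⟩

theorem IB.of_le {H u : ℕ → ℝ × ℝ → ℝ} (h : IB H) (hu : ∀ n, Integrable (u n))
    (hle : ∀ n p, u n p ≤ H n p) : IB u := by
  obtain ⟨i, K, hK⟩ := h
  exact ⟨hu, K, fun n => (integral_mono (hu n) (i n) (hle n)).trans (hK n)⟩

/-- Divergences of test fields. -/
theorem IB.div {A B : ℕ → S} (hA : ∀ n, Test (A n)) (hB : ∀ n, Test (B n)) :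
    IB (fun n p => dx (A n) p + dy (B n) p) :=
  ⟨fun n => (hA n).dx.integrable.add (hB n).dy.integrable, 0, fun n => by
    rw [integral_add (hA n).dx.integrable (hB n).dy.integrable, (hA n).integral_dx,
      (hB n).integral_dy, add_zero]⟩

/-! ### Sobolev -/

theorem hasDerivAt_x (u : S) (x y : ℝ) : HasDerivAt (fun s => u (s, y)) (dx u (x, y)) x := by
  have h1 : HasDerivAt (fun s : ℝ => (s, y)) ((1, 0) : ℝ × ℝ) x :=
    (hasDerivAt_id x).prodMk (hasDerivAt_const x y)
  exact (S.diff u (x, y)).hasFDerivAt.comp_hasDerivAt x h1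

theorem hasDerivAt_y (u : S) (x y : ℝ) : HasDerivAt (fun s => u (x, s)) (dy u (x, y)) y := by
  have h1 : HasDerivAt (fun s : ℝ => (x, s)) ((0, 1) : ℝ × ℝ) y :=
    (hasDerivAt_const y x).prodMk (hasDerivAt_id y)
  exact (S.diff u (x, y)).hasFDerivAt.comp_hasDerivAt y h1

theorem abs_le_integral_deriv {u u' : ℝ → ℝ} (h : ∀ s, HasDerivAt u (u' s) s) (hc : Continuous u')
    (hz : ∀ s, 3 ≤ |s| → u s = 0) (hz' : ∀ s, 3 ≤ |s| → u' s = 0) (x : ℝ) :
    |u x| ≤ ∫ s, |u' s| := by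
  have hi : Integrable u' := hc.integrable_of_hasCompactSupport
    (HasCompactSupport.intro (isCompact_closedBall (0 : ℝ) 3) fun s hs =>
      hz' s (by simpa using (not_le.1 (by simpa using hs) : (3 : ℝ) < |s|).le))
  have h1 : ∫ s in (-|x| - 3)..x, u' s = u x - u (-|x| - 3) :=
    intervalIntegral.integral_eq_sub_of_hasDerivAt (fun s _ => h s) hi.intervalIntegrable
  have h2 : u (-|x| - 3) = 0 := hz _ (by
    rw [abs_of_nonpos (by linarith [abs_nonneg x])]; linarith [abs_nonneg x])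
  have hle : -|x| - 3 ≤ x := by linarith [neg_abs_le x]
  rw [h2, sub_zero] at h1
  rw [← h1]
  refine (intervalIntegral.abs_integral_le_integral_abs hle).trans ?_
  rw [intervalIntegral.integral_of_le hle]
  exact setIntegral_le_integral hi.abs (Eventually.of_forall fun s => abs_nonneg _)

theorem Test.abs_le_integral {u : S} (h : Test u) (p : ℝ × ℝ) :
    |u p| ≤ ∫ q, |R220.dy (R220.dx u) q| := by
  obtain ⟨x, y⟩ := p
  have out1 : ∀ s t : ℝ, 3 ≤ |s| → (s, t) ∉ Ω := fun s t hs hm => by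
    linarith [mem_Ω.1 hm, abs_fst_le (s, t)]
  have out2 : ∀ s t : ℝ, 3 ≤ |t| → (s, t) ∉ Ω := fun s t hs hm => by
    linarith [mem_Ω.1 hm, abs_snd_le (s, t)]
  have h1 : |u (x, y)| ≤ ∫ s, |R220.dx u (s, y)| :=
    abs_le_integral_deriv (fun s => hasDerivAt_x u s y) ((S.cont _).comp (by fun_prop))
      (fun s hs => h.eq_zero (out1 s y hs)) (fun s hs => h.dx.eq_zero (out1 s y hs)) x
  have h2 : ∀ s, |R220.dx u (s, y)| ≤ ∫ t, |R220.dy (R220.dx u) (s, t)| := fun s =>
    abs_le_integral_deriv (fun t => hasDerivAt_y (R220.dx u) s t) ((S.cont _).comp (by fun_prop))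
      (fun t ht => h.dx.eq_zero (out2 s t ht)) (fun t ht => h.dx.dy.eq_zero (out2 s t ht)) y
  have hi : Integrable (fun q => |R220.dy (R220.dx u) q|) (volume.prod volume) := h.dx.dy.integrable.abs
  refine h1.trans ?_
  rw [show (volume : Measure (ℝ × ℝ)) = volume.prod volume from rfl, integral_prod _ hi]
  exact integral_mono_of_nonneg (Eventually.of_forall fun s => abs_nonneg _) hi.integral_prod_left
    (Eventually.of_forall h2)

/-- Sobolev embedding. -/
theorem sobolev {f : ℕ → S} (h0 : LB f) (hx : LB (fun n => dx (f n))) (hy : LB (fun n => dy (f n)))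
    (hxy : LB (fun n => dy (dx (f n)))) : SB f := fun r hr => by
  obtain ⟨χ, hχ, h1, -⟩ := exists_bump hr
  obtain ⟨K0, hK0⟩ := h0.l1 hχ.dx.dy
  obtain ⟨K1, hK1⟩ := hx.l1 hχ.dy
  obtain ⟨K2, hK2⟩ := hy.l1 hχ.dx
  obtain ⟨K3, hK3⟩ := hxy.l1 hχ
  refine ⟨K0 + K1 + K2 + K3, fun n p hp => ?_⟩
  have := (hχ.mul (f n)).abs_le_integral p
  rw [mul_apply, h1 p hp, one_mul] at this
  refine this.trans ?_
  have i0 := (hχ.dx.dy.integrable_mul (f n)).abs
  have i1 := (hχ.dy.integrable_mul (dx (f n))).abs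
  have i2 := (hχ.dx.integrable_mul (dy (f n))).abs
  have i3 := (hχ.integrable_mul (dy (dx (f n)))).abs
  calc ∫ q, |dy (dx (χ * f n)) q| ≤ ∫ q, (|dy (dx χ) q * f n q| + |dy χ q * dx (f n) q| +
        |dx χ q * dy (f n) q| + |χ q * dy (dx (f n)) q|) := by
        refine integral_mono (hχ.mul (f n)).dx.dy.integrable.abs (((i0.add i1).add i2).add i3)
          fun q => ?_
        simp only [dx_mul, map_add, dy_mul, add_apply, mul_apply]
        have a1 := abs_add_le (dy (dx χ) q * f n q + dx χ q * dy (f n) q)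
          (dy χ q * dx (f n) q + χ q * dy (dx (f n)) q)
        have a2 := abs_add_le (dy (dx χ) q * f n q) (dx χ q * dy (f n) q)
        have a3 := abs_add_le (dy χ q * dx (f n) q) (χ q * dy (dx (f n)) q)
        linarith
    _ = (∫ q, |dy (dx χ) q * f n q|) + (∫ q, |dy χ q * dx (f n) q|) +
        (∫ q, |dx χ q * dy (f n) q|) + ∫ q, |χ q * dy (dx (f n)) q| := by
        have e1 := integral_add i0 i1
        have e2 := integral_add (i0.add i1) i2
        have e3 := integral_add ((i0.add i1).add i2) i3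
        simp only [Pi.add_apply] at e2 e3
        rw [e3, e2, e1]
    _ ≤ _ := by linarith [hK0 n, hK1 n, hK2 n, hK3 n]

/-! ### `Cy`, `Hy` -/

namespace Cy
variable {k : ℕ} {f g : ℕ → S}

theorem mono {j : ℕ} (h : Cy k f) (hj : j ≤ k) : Cy j f := fun i hi => h i (hi.trans hj)
theorem sb (h : Cy k f) : SB f := h 0 (Nat.zero_le _)
theorem congr (h : Cy k f) (e : ∀ n, ∀ p ∈ Ω, f n p = g n p) : Cy k g := fun i hi =>
  (h i hi).congr fun n => dyi_congr isOpen_Ω (e n) i
theorem const (k : ℕ) (u : S) : Cy k (fun _ => u) := fun _ _ => SB.const _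
theorem add (h : Cy k f) (h' : Cy k g) : Cy k (fun n => f n + g n) := fun i hi => by
  simpa only [dyi_add] using (h i hi).add (h' i hi)
theorem neg (h : Cy k f) : Cy k (fun n => -f n) := fun i hi => by
  simpa only [dyi_neg] using (h i hi).neg
theorem sub (h : Cy k f) (h' : Cy k g) : Cy k (fun n => f n - g n) := fun i hi => by
  simpa only [dyi_sub] using (h i hi).sub (h' i hi)
theorem smul (h : Cy k f) {c : ℕ → ℝ} {K : ℝ} (hc : ∀ n, |c n| ≤ K) :
    Cy k (fun n => c n • f n) := fun i hi => by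
  simpa only [dyi_smul] using (h i hi).smul hc
theorem mul (h : Cy k f) (h' : Cy k g) : Cy k (fun n => f n * g n) := fun i hi => by
  simp only [dyi_mul]
  refine SB.sum _ fun j hj => (SB.const _).mul ((h j ?_).mul (h' _ ?_))
  · have := Finset.mem_range.1 hj; omega
  · omega
theorem dy (h : Cy (k + 1) f) : Cy k (fun n => R220.dy (f n)) := fun i hi => h (i + 1) (by omega)
theorem succ (h0 : SB f) (h : Cy k (fun n => R220.dy (f n))) : Cy (k + 1) f := fun i hi => by
  cases i with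
  | zero => exact h0
  | succ i => exact h i (by omega)
theorem toHy (h : Cy k f) : Hy k f := fun i hi => (h i hi).toLB

/-- The exponential of a `Cy` family. -/
theorem sexp (h : Cy k f) : Cy k (fun n => R220.sexp (f n)) := by
  induction k with
  | zero => intro i hi; obtain rfl : i = 0 := by omega
            exact h.sb.comp1 _ Real.contDiff_exp
  | succ k ih =>
    refine succ (h.sb.comp1 _ Real.contDiff_exp) ?_
    simp only [dy_sexp]
    exact (ih (h.mono (Nat.le_succ k))).mul h.dy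

end Cy

namespace Hy
variable {k : ℕ} {f g : ℕ → S}

theorem mono {j : ℕ} (h : Hy k f) (hj : j ≤ k) : Hy j f := fun i hi => h i (hi.trans hj)
theorem lb (h : Hy k f) : LB f := h 0 (Nat.zero_le _)
theorem congr (h : Hy k f) (e : ∀ n, ∀ p ∈ Ω, f n p = g n p) : Hy k g := fun i hi =>
  (h i hi).congr fun n => dyi_congr isOpen_Ω (e n) i
theorem add (h : Hy k f) (h' : Hy k g) : Hy k (fun n => f n + g n) := fun i hi => by
  simpa only [dyi_add] using (h i hi).add (h' i hi)
theorem neg (h : Hy k f) : Hy k (fun n => -f n) := fun i hi => by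
  simpa only [dyi_neg] using (h i hi).neg
theorem sub (h : Hy k f) (h' : Hy k g) : Hy k (fun n => f n - g n) := fun i hi => by
  simpa only [dyi_sub] using (h i hi).sub (h' i hi)
theorem smul (h : Hy k f) {c : ℕ → ℝ} {K : ℝ} (hc : ∀ n, |c n| ≤ K) :
    Hy k (fun n => c n • f n) := fun i hi => by
  simpa only [dyi_smul] using (h i hi).smul hc
theorem _root_.Crest.Agent.R220.Cy.mul_Hy (h : Cy k f) (h' : Hy k g) :
    Hy k (fun n => f n * g n) := fun i hi => by
  simp only [dyi_mul]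
  refine LB.sum _ fun j hj => (SB.const _).mul_LB ((h j ?_).mul_LB (h' _ ?_))
  · have := Finset.mem_range.1 hj; omega
  · omega
theorem dy (h : Hy (k + 1) f) : Hy k (fun n => R220.dy (f n)) := fun i hi => h (i + 1) (by omega)
theorem succ (h0 : LB f) (h : Hy k (fun n => R220.dy (f n))) : Hy (k + 1) f := fun i hi => by
  cases i with
  | zero => exact h0
  | succ i => exact h i (by omega)

end Hy

end Crest.Agent.R220
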