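import Crest.Agent.R220.Tool

/-!
Row 220 (S0341): rescaling and rotating an isometric immersion of a radial conformal metric.
-/

set_option autoImplicit false
open scoped ContDiff
open Filter Topology

namespace Crest.Agent.R220

namespace Tr

/-- The rotation sending `(1,0)` to `(a,b)`. -/
noncomputable def rot (a b : ℝ) : ℝ × ℝ →L[ℝ] E2 :=
  (ContinuousLinearMap.fst ℝ ℝ ℝ).smulRight (!₂[a, b] : E2) +
    (ContinuousLinearMap.snd ℝ ℝ ℝ).smulRight (!₂[-b, a] : E2)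

theorem rot_0 (a b : ℝ) (p : ℝ × ℝ) : rot a b p 0 = p.1 * a - p.2 * b := by
  simp [rot, sub_eq_add_neg]

theorem rot_1 (a b : ℝ) (p : ℝ × ℝ) : rot a b p 1 = p.1 * b + p.2 * a := by
  simp [rot]

theorem inner_rot {a b : ℝ} (h : a ^ 2 + b ^ 2 = 1) (p q : ℝ × ℝ) :
    inner ℝ (rot a b p) (rot a b q) = p.1 * q.1 + p.2 * q.2 := by
  simp only [PiLp.inner_apply, Fin.sum_univ_two, rot_0, rot_1, RCLike.inner_apply, conj_trivial]
  linear_combination (p.1 * q.1 + p.2 * q.2) * h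

theorem norm_sq_rot {a b : ℝ} (h : a ^ 2 + b ^ 2 = 1) (p : ℝ × ℝ) :
    ‖rot a b p‖ ^ 2 = p.1 ^ 2 + p.2 ^ 2 := by
  rw [← real_inner_self_eq_norm_sq, inner_rot h]; ring

theorem sq_le (p : ℝ × ℝ) : p.1 ^ 2 + p.2 ^ 2 ≤ 2 * ‖p‖ ^ 2 := by
  have h1 : p.1 ^ 2 ≤ ‖p‖ ^ 2 := by
    rw [← sq_abs]; exact pow_le_pow_left₀ (abs_nonneg _) (abs_fst_le p) 2
  have h2 : p.2 ^ 2 ≤ ‖p‖ ^ 2 := by
    rw [← sq_abs]; exact pow_le_pow_left₀ (abs_nonneg _) (abs_snd_le p) 2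
  linarith

theorem norm_rot_le {a b : ℝ} (h : a ^ 2 + b ^ 2 = 1) : ‖rot a b‖ ≤ 2 := by
  refine ContinuousLinearMap.opNorm_le_bound _ (by norm_num) fun p => ?_
  refine abs_le_of_sq_le_sq' ?_ (by positivity) |>.2
  rw [norm_sq_rot h]
  nlinarith [sq_le p, sq_nonneg ‖p‖]

theorem norm_rot_lt {a b : ℝ} (h : a ^ 2 + b ^ 2 = 1) {p : ℝ × ℝ} (hp : ‖p‖ < 4) :
    ‖rot a b p‖ < 6 := by
  refine (abs_lt_of_sq_lt_sq' ?_ (by norm_num)).2
  rw [norm_sq_rot h]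
  nlinarith [sq_le p, norm_nonneg p]

theorem rot_surj {a b : ℝ} (h : a ^ 2 + b ^ 2 = 1) (v : E2) : ∃ p, rot a b p = v := by
  refine ⟨(a * v 0 + b * v 1, -b * v 0 + a * v 1), ?_⟩
  ext i
  fin_cases i
  · simp only [Fin.zero_eta, rot_0]; linear_combination (v 0) * h
  · simp only [Fin.mk_one, rot_1]; linear_combination (v 1) * h

theorem rot_eq (a b : ℝ) (p : ℝ × ℝ) :
    rot a b p = p.1 • rot a b (1, 0) + p.2 • rot a b (0, 1) := by
  rw [← map_smul, ← map_smul, ← map_add]; simp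

theorem rot_x (a b : ℝ) : rot a b (1, 0) = a • rot 1 0 (1, 0) + b • rot 1 0 (0, 1) := by
  ext i; fin_cases i <;> simp [rot]

theorem rot_y (a b : ℝ) : rot a b (0, 1) = (-b) • rot 1 0 (1, 0) + a • rot 1 0 (0, 1) := by
  ext i; fin_cases i <;> simp [rot]

theorem norm_dv {v : ℝ × ℝ} (hv : ‖v‖ ≤ 1) (g : S) (k : ℕ) (p : ℝ × ℝ) :
    ‖iteratedFDeriv ℝ k (dv v g : ℝ × ℝ → ℝ) p‖ ≤ ‖iteratedFDeriv ℝ (k + 1) (g : ℝ × ℝ → ℝ) p‖ := by
  have h1 : ContDiffAt ℝ ∞ (fderiv ℝ (g : ℝ × ℝ → ℝ)) p :=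
    ((S.smooth g).fderiv_right (m := ∞) (by simp)).contDiffAt
  have h2 := norm_iteratedFDeriv_clm_apply_const (c := v) (n := k) h1 (by exact_mod_cast le_top)
  rw [norm_iteratedFDeriv_fderiv] at h2
  exact h2.trans (mul_le_of_le_one_left (norm_nonneg _) hv)

theorem norm_dv_iter {v : ℝ × ℝ} (hv : ‖v‖ ≤ 1) (g : S) (m k : ℕ) (p : ℝ × ℝ) :
    ‖iteratedFDeriv ℝ k ((dv v)^[m] g : ℝ × ℝ → ℝ) p‖ ≤
      ‖iteratedFDeriv ℝ (k + m) (g : ℝ × ℝ → ℝ) p‖ := by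
  induction m generalizing k with
  | zero => exact le_rfl
  | succ m ih =>
    rw [Function.iterate_succ_apply']
    refine (norm_dv hv _ k p).trans ((ih (k + 1)).trans (le_of_eq ?_))
    rw [show k + 1 + m = k + (m + 1) by ring]

theorem abs_iter_le (g : S) (i j : ℕ) (p : ℝ × ℝ) :
    |(dy^[i] (dx^[j] g)) p| ≤ ‖iteratedFDeriv ℝ (i + j) (g : ℝ × ℝ → ℝ) p‖ := by
  have h1 := norm_dv_iter (v := (0, 1)) (by simp) (dx^[j] g) i 0 p
  have h2 := norm_dv_iter (v := (1, 0)) (by simp) g j i p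
  rw [norm_iteratedFDeriv_zero, zero_add] at h1
  exact h1.trans h2

theorem cs2 (x y z w : ℝ) : (x * z + y * w) ^ 2 ≤ (x ^ 2 + y ^ 2) * (z ^ 2 + w ^ 2) := by
  nlinarith [sq_nonneg (x * w - y * z)]

theorem exists_diag (x y z : ℝ) : ∃ a b : ℝ, a ^ 2 + b ^ 2 = 1 ∧
    -(a * b) * x + (a ^ 2 - b ^ 2) * y + a * b * z = 0 ∧
    |a ^ 2 * x + 2 * a * b * y + b ^ 2 * z| ≤ |b ^ 2 * x - 2 * a * b * y + a ^ 2 * z| := by
  let g : ℝ → ℝ := fun t => -(Real.cos t * Real.sin t) * x +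
    (Real.cos t ^ 2 - Real.sin t ^ 2) * y + Real.cos t * Real.sin t * z
  have hg : Continuous g := by fun_prop
  have h0 : (0 : ℝ) ∈ Set.uIcc (g 0) (g (Real.pi / 2)) := by
    have e1 : g 0 = y := by simp [g]
    have e2 : g (Real.pi / 2) = -y := by simp [g]
    rw [e1, e2, Set.mem_uIcc]
    rcases le_total y 0 with h | h
    · left; constructor <;> linarith
    · right; constructor <;> linarith
  obtain ⟨t, -, ht⟩ := intermediate_value_uIcc hg.continuousOn h0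
  have h1 := Real.cos_sq_add_sin_sq t
  rcases le_total |Real.cos t ^ 2 * x + 2 * Real.cos t * Real.sin t * y + Real.sin t ^ 2 * z|
    |Real.sin t ^ 2 * x - 2 * Real.cos t * Real.sin t * y + Real.cos t ^ 2 * z| with h | h
  · exact ⟨Real.cos t, Real.sin t, h1, ht, h⟩
  · refine ⟨-Real.sin t, Real.cos t, by linarith, ?_, ?_⟩
    · simp only [g] at ht; linear_combination -ht
    · calc _ = _ := by congr 1; ring
        _ ≤ _ := h
        _ = _ := by congr 1; ring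

theorem core (Θ : ℝ → ℝ) (hΘ : ContDiff ℝ ∞ Θ) (M ρ r : ℝ) (F : E2 → E3) (hρ : 0 < ρ)
    (hr : 6 * ρ ≤ r) (hF : ContDiffOn ℝ ∞ F (Metric.ball 0 r))
    (hI : ∀ x ∈ Metric.ball (0 : E2) r, ∀ v w : E2, inner ℝ (fderiv ℝ F x v) (fderiv ℝ F x w)
      = Real.exp (2 * Θ (‖x‖ ^ 2 / ρ ^ 2)) * inner ℝ v w)
    (hM : ∀ k ≤ 7, ∀ x ∈ Metric.ball (0 : E2) r, ‖iteratedFDeriv ℝ k F x‖ ≤ M)
    {a b s : ℝ} (hab : a ^ 2 + b ^ 2 = 1) (hs : s ^ 2 = 1) :
    ∃ f : Fin 3 → S, Isom f (comp1 Θ hΘ r2) ∧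
      (∀ i j : ℕ, 1 ≤ i + j → i + j ≤ 7 → ∀ c, ∀ p ∈ Ω,
        |(dy^[i] (dx^[j] (f c))) p| ≤ 2 ^ (i + j) * ρ ^ (i + j - 1) * M) ∧
      (∀ v c, dv v (f c) 0 = s * fderiv ℝ F 0 (rot a b v) c) ∧
      ∀ v w c, dv w (dv v (f c)) 0 =
        s * ρ * fderiv ℝ (fderiv ℝ F) 0 (rot a b w) (rot a b v) c := by
  let L : ℝ × ℝ →L[ℝ] E2 := ρ • rot a b
  have hL : ∀ p, L p = ρ • rot a b p := fun p => rfl
  have hLm : ∀ p : ℝ × ℝ, ‖p‖ < 4 → L p ∈ Metric.ball (0 : E2) r := fun p hp => by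
    rw [mem_ball_zero_iff, hL, norm_smul, Real.norm_of_nonneg hρ.le]
    nlinarith [norm_rot_lt hab hp]
  have hLΩ : ∀ p ∈ Ω, L p ∈ Metric.ball (0 : E2) r := fun p hp =>
    hLm p (by linarith [mem_Ω.1 hp])
  have hFa : ∀ x ∈ Metric.ball (0 : E2) r, ContDiffAt ℝ ∞ F x := fun x hx =>
    hF.contDiffAt (Metric.isOpen_ball.mem_nhds hx)
  let ℓ : Fin 3 → E3 →L[ℝ] ℝ := fun c => (s / ρ) • EuclideanSpace.proj c
  have hℓ : ∀ c u, ℓ c u = s / ρ * u c := fun c u => rfl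
  have hG : ∀ c, ContDiffOn ℝ ∞ (ℓ c ∘ F ∘ L) (Metric.ball 0 4) := fun c p hp =>
    ((ℓ c).contDiff.contDiffAt.comp p
      ((hFa _ (hLm p (by simpa using hp))).comp p L.contDiff.contDiffAt)).contDiffWithinAt
  choose f hf using fun c => exists_extension (r := 3) (by norm_num) (by norm_num) (hG c)
  have hev : ∀ c, ∀ p ∈ Ω, (f c : ℝ × ℝ → ℝ) =ᶠ[𝓝 p] ℓ c ∘ F ∘ L := fun c p hp =>
    eventually_of_mem (isOpen_Ω.mem_nhds hp) fun q hq => hf c q (mem_Ω.1 hq).le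
  have d1 : ∀ v c, ∀ p ∈ Ω, dv v (f c) p = s * fderiv ℝ F (L p) (rot a b v) c := by
    intro v c p hp
    have h1 := (ℓ c).hasFDerivAt.comp p
      (((hFa _ (hLΩ p hp)).differentiableAt (by simp)).hasFDerivAt.comp p L.hasFDerivAt)
    rw [dv_apply, (hev c p hp).fderiv_eq, h1.fderiv]
    simp only [ContinuousLinearMap.comp_apply, hℓ, hL, map_smul, PiLp.smul_apply, smul_eq_mul]
    field_simp
  have hsabs : |s| = 1 := by
    have : |s| ^ 2 = 1 ^ 2 := by rw [sq_abs, hs, one_pow]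
    exact (pow_left_inj₀ (abs_nonneg _) zero_le_one two_ne_zero).1 this
  refine ⟨f, fun p hp => ?_, fun i j h1 h7 c p hp => ?_, fun v c => ?_, fun v w c => ?_⟩
  · have key : ∀ v w : ℝ × ℝ, ∑ c, dv v (f c) p * dv w (f c) p =
        Real.exp (2 * comp1 Θ hΘ r2 p) * (v.1 * w.1 + v.2 * w.2) := fun v w => by
      have h1 := hI _ (hLΩ p hp) (rot a b v) (rot a b w)
      have h2 : ‖L p‖ ^ 2 / ρ ^ 2 = r2 p := by
        rw [hL, norm_smul, mul_pow, norm_sq_rot hab, Real.norm_of_nonneg hρ.le]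
        simp only [r2]
        sev
        field_simp
      rw [inner_rot hab, h2] at h1
      rw [comp1_apply, ← h1]
      simp only [d1 _ _ p hp, PiLp.inner_apply, RCLike.inner_apply, conj_trivial]
      refine Finset.sum_congr rfl fun c _ => ?_
      linear_combination
        (fderiv ℝ F (L p) (rot a b v) c * fderiv ℝ F (L p) (rot a b w) c) * hs
    refine ⟨?_, ?_, ?_⟩
    · simpa [sq, dx] using key (1, 0) (1, 0)
    · simpa [sq, dy] using key (0, 1) (0, 1)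
    · simpa [dx, dy] using key (1, 0) (0, 1)
  · refine (abs_iter_le _ i j p).trans ?_
    set k := i + j with hk
    rw [((hev c p hp).iteratedFDeriv ℝ k).eq_of_nhds]
    have hk' : (k : ℕ∞ω) ≤ ∞ := by exact_mod_cast le_top
    have e1 := (ℓ c).norm_iteratedFDeriv_comp_left
      ((hFa _ (hLΩ p hp)).comp p L.contDiff.contDiffAt) hk'
    have ho : IsOpen (L ⁻¹' Metric.ball (0 : E2) r) := Metric.isOpen_ball.preimage L.continuous
    have e2 := L.iteratedFDerivWithin_comp_right hF Metric.isOpen_ball.uniqueDiffOn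
      ho.uniqueDiffOn (hLΩ p hp) hk'
    rw [iteratedFDerivWithin_of_isOpen k ho (hLΩ p hp),
      iteratedFDerivWithin_of_isOpen k Metric.isOpen_ball (hLΩ p hp)] at e2
    have e3 := (iteratedFDeriv ℝ k F (L p)).norm_compContinuousLinearMap_le fun _ => L
    rw [← e2, Finset.prod_const, Finset.card_univ, Fintype.card_fin] at e3
    have e4 : ‖ℓ c‖ ≤ ρ⁻¹ := by
      refine ContinuousLinearMap.opNorm_le_bound _ (by positivity) fun u => ?_
      rw [hℓ, norm_mul, norm_div, Real.norm_eq_abs, hsabs, Real.norm_of_nonneg hρ.le, one_div]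
      exact mul_le_mul_of_nonneg_left (PiLp.norm_apply_le u c) (by positivity)
    have e5 : ‖L‖ ≤ 2 * ρ := by
      rw [norm_smul, Real.norm_of_nonneg hρ.le, mul_comm]
      exact mul_le_mul_of_nonneg_right (norm_rot_le hab) hρ.le
    have e6 := hM k h7 _ (hLΩ p hp)
    have hM0 : 0 ≤ M := (norm_nonneg _).trans e6
    calc _ ≤ ‖ℓ c‖ * (‖iteratedFDeriv ℝ k F (L p)‖ * ‖L‖ ^ k) :=
          e1.trans (mul_le_mul_of_nonneg_left e3 (norm_nonneg _))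
      _ ≤ ρ⁻¹ * (M * (2 * ρ) ^ k) := by gcongr
      _ = _ := by
        obtain ⟨m, hm⟩ : ∃ m, k = m + 1 := ⟨k - 1, by omega⟩
        rw [hm, Nat.add_sub_cancel, mul_pow, pow_succ ρ]
        field_simp
  · rw [d1 v c 0 zero_mem_Ω, map_zero]
  · have h0 : (0 : E2) ∈ Metric.ball (0 : E2) r := by simpa using hLΩ 0 zero_mem_Ω
    have hd : DifferentiableAt ℝ (fderiv ℝ F) (L 0) := by
      rw [map_zero]
      exact ((hFa 0 h0).fderiv_right (m := ∞) (by simp)).differentiableAt (by simp)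
    let m : (E2 →L[ℝ] E3) →L[ℝ] ℝ :=
      s • (EuclideanSpace.proj c : E3 →L[ℝ] ℝ).comp (ContinuousLinearMap.apply ℝ E3 (rot a b v))
    have h1 := m.hasFDerivAt.comp 0 (hd.hasFDerivAt.comp 0 L.hasFDerivAt)
    have h2 : (dv v (f c) : ℝ × ℝ → ℝ) =ᶠ[𝓝 0] m ∘ fderiv ℝ F ∘ L :=
      eventually_of_mem (isOpen_Ω.mem_nhds zero_mem_Ω) fun q hq => d1 v c q hq
    rw [dv_apply, h2.fderiv_eq, h1.fderiv]
    simp [m, hL, mul_assoc]

end Tr

open Tr in
theorem transfer (hg : GeoStmt) : TransferStmt := by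
  intro Θ hΘ M μ ρ r F hρ hr hF hI hM hμ
  set D := fderiv ℝ F 0 with hD
  set H := fderiv ℝ (fderiv ℝ F) 0 with hH
  set e0 := rot 1 0 (1, 0) with he0
  set e1 := rot 1 0 (0, 1) with he1
  have h0 : (0 : E2) ∈ Metric.ball (0 : E2) r := by simp; linarith
  have hsym : ∀ v w, H v w = H w v := fun v w =>
    (((hF.contDiffAt (Metric.isOpen_ball.mem_nhds h0)).of_le
      (show (2 : ℕ∞ω) ≤ ∞ by norm_cast)).isSymmSndFDerivAt (by simp)).eq v w
  let T : E3 → ℝ := fun u => u 0 * (D e0 1 * D e1 2 - D e0 2 * D e1 1) +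
    u 1 * (D e0 2 * D e1 0 - D e0 0 * D e1 2) + u 2 * (D e0 0 * D e1 1 - D e0 1 * D e1 0)
  obtain ⟨a, b, hab, hoff, hle⟩ := exists_diag (T (H e0 e0)) (T (H e0 e1)) (T (H e1 e1))
  set u1 := rot a b (1, 0) with hu1
  set u2 := rot a b (0, 1) with hu2
  have t11 : T (H u1 u1) =
      a ^ 2 * T (H e0 e0) + 2 * a * b * T (H e0 e1) + b ^ 2 * T (H e1 e1) := by
    simp only [hu1, rot_x a b, ← he0, ← he1, map_add, map_smul, _root_.add_apply,
      _root_.smul_apply, hsym e1 e0, T, PiLp.add_apply, PiLp.smul_apply, smul_eq_mul]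
    ring
  have t21 : T (H u2 u1) =
      -(a * b) * T (H e0 e0) + (a ^ 2 - b ^ 2) * T (H e0 e1) + a * b * T (H e1 e1) := by
    simp only [hu1, hu2, rot_x a b, rot_y a b, ← he0, ← he1, map_add, map_smul,
      _root_.add_apply, _root_.smul_apply, hsym e1 e0, T,
      PiLp.add_apply, PiLp.smul_apply, smul_eq_mul]
    ring
  have t22 : T (H u2 u2) =
      b ^ 2 * T (H e0 e0) - 2 * a * b * T (H e0 e1) + a ^ 2 * T (H e1 e1) := by
    simp only [hu2, rot_y a b, ← he0, ← he1, map_add, map_smul, _root_.add_apply,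
      _root_.smul_apply, hsym e1 e0, T, PiLp.add_apply, PiLp.smul_apply, smul_eq_mul]
    ring
  rw [← t21] at hoff
  rw [← t11, ← t22] at hle
  obtain ⟨s, hs, hs'⟩ : ∃ s : ℝ, s ^ 2 = 1 ∧ 0 ≤ s * T (H u2 u2) := by
    rcases le_total 0 (T (H u2 u2)) with h | h
    · exact ⟨1, by norm_num, by linarith⟩
    · exact ⟨-1, by norm_num, by linarith⟩
  obtain ⟨f, hiso, hbd, d1, d2⟩ := core Θ hΘ M ρ r F hρ hr hF hI hM hab hs
  set φ := comp1 Θ hΘ r2 with hφ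
  have dxf : ∀ c, dx (f c) 0 = s * D u1 c := d1 _
  have dyf : ∀ c, dy (f c) 0 = s * D u2 c := d1 _
  have dxx : ∀ c, dx (dx (f c)) 0 = s * ρ * H u1 u1 c := d2 _ _
  have dyx : ∀ c, dy (dx (f c)) 0 = s * ρ * H u2 u1 c := d2 _ _
  have dyy : ∀ c, dy (dy (f c)) 0 = s * ρ * H u2 u2 c := d2 _ _
  have htri : ∀ (u : Fin 3 → S) (w : E3), (∀ c, u c 0 = s * ρ * w c) →
      tri u (fun i => dx (f i)) (fun i => dy (f i)) 0 = s * ρ * T w := fun u w hu => by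
    simp only [tri]
    sev
    simp only [hu, dxf, dyf, hu1, hu2, rot_x a b, rot_y a b, ← he0, ← he1, map_add, map_smul, T,
      PiLp.add_apply, PiLp.smul_apply, smul_eq_mul]
    have h1 : s ^ 2 * (a ^ 2 + b ^ 2) = 1 := by rw [hs, hab, one_mul]
    linear_combination (s * ρ * (w 0 * (D e0 1 * D e1 2 - D e0 2 * D e1 1) +
      w 1 * (D e0 2 * D e1 0 - D e0 0 * D e1 2) + w 2 * (D e0 0 * D e1 1 - D e0 1 * D e1 0))) * h1
  set E := sexp (-(2 * φ)) 0 with hE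
  have hE0 : 0 < E := Real.exp_pos _
  have eL : sL f φ 0 = E * (s * ρ * T (H u1 u1)) := by rw [sL, mul_apply, htri _ _ dxx]
  have eM : sM f φ 0 = 0 := by rw [sM, mul_apply, htri _ _ dyx, hoff]; simp
  have eN : sN f φ 0 = E * (s * ρ * T (H u2 u2)) := by rw [sN, mul_apply, htri _ _ dyy]
  have hN0 : 0 ≤ sN f φ 0 := by
    rw [eN, mul_assoc, mul_left_comm s]; positivity
  have hLN : sL f φ 0 ^ 2 ≤ sN f φ 0 ^ 2 := by
    rw [eL, eN, mul_pow, mul_pow, mul_pow E, mul_pow (s * ρ)]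
    gcongr ?_ * (?_ * ?_)
    exact sq_le_sq.2 hle
  have φx : dx φ 0 = 0 := by
    have : dx r2 = 2 * X := by
      rw [r2, map_add, dx_pow, dx_pow, dx_X, dx_Y]; push_cast; ring
    rw [hφ, dx_comp1, this]; sev; simp
  have φy : dy φ 0 = 0 := by
    have : dy r2 = 2 * Y := by
      rw [r2, map_add, dy_pow, dy_pow, dy_X, dy_Y]; push_cast; ring
    rw [hφ, dy_comp1, this]; sev; simp
  obtain ⟨-, -, -, g1, g2, g3⟩ := hg f φ hiso 0 zero_mem_Ω
  have nrm : ∀ w : E3, ∑ c, (s * ρ * w c) ^ 2 = (ρ * ‖w‖) ^ 2 := fun w => by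
    rw [mul_pow, EuclideanSpace.real_norm_sq_eq, Finset.mul_sum]
    exact Finset.sum_congr rfl fun c _ => by rw [mul_pow, mul_pow, hs, one_mul]
  simp only [φx, φy, dxx, dyx, dyy, nrm, eM] at g1 g2 g3
  have n1 : ρ * ‖H u1 u1‖ ≤ sN f φ 0 :=
    (abs_le_of_sq_le_sq' (by rw [g1]; simpa using hLN) hN0).2
  have n2 : H u2 u1 = 0 := by
    have : (ρ * ‖H u2 u1‖) ^ 2 = 0 := by rw [g2]; simp
    simpa [hρ.ne'] using this
  have n3 : ρ * ‖H u2 u2‖ ≤ sN f φ 0 :=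
    (abs_le_of_sq_le_sq' (by rw [g3]; simp) hN0).2
  refine ⟨f, hiso, hbd, eM, ?_⟩
  have hHle : ‖H‖ ≤ sN f φ 0 / ρ := by
    refine ContinuousLinearMap.opNorm_le_bound₂ _ (by positivity) fun v w => ?_
    obtain ⟨p, rfl⟩ := rot_surj hab v
    obtain ⟨q, rfl⟩ := rot_surj hab w
    have e : H (rot a b p) (rot a b q) = (p.1 * q.1) • H u1 u1 + (p.2 * q.2) • H u2 u2 := by
      rw [rot_eq a b p, rot_eq a b q, ← hu1, ← hu2]
      simp only [map_add, map_smul, _root_.add_apply,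
        _root_.smul_apply, hsym u1 u2, n2, smul_zero, add_zero, zero_add, smul_smul,
        mul_comm q.1, mul_comm q.2]
    have cs : |p.1 * q.1| + |p.2 * q.2| ≤ ‖rot a b p‖ * ‖rot a b q‖ := by
      refine (abs_le_of_sq_le_sq' ?_ (by positivity)).2
      rw [mul_pow, norm_sq_rot hab, norm_sq_rot hab, abs_mul, abs_mul, ← sq_abs p.1, ← sq_abs p.2,
        ← sq_abs q.1, ← sq_abs q.2]
      exact cs2 _ _ _ _
    have m1 : ‖H u1 u1‖ ≤ sN f φ 0 / ρ := by rw [le_div_iff₀ hρ]; linarith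
    have m3 : ‖H u2 u2‖ ≤ sN f φ 0 / ρ := by rw [le_div_iff₀ hρ]; linarith
    calc _ ≤ |p.1 * q.1| * (sN f φ 0 / ρ) + |p.2 * q.2| * (sN f φ 0 / ρ) := by
          rw [e]
          refine (norm_add_le _ _).trans ?_
          rw [norm_smul, norm_smul, Real.norm_eq_abs, Real.norm_eq_abs]
          gcongr
      _ = sN f φ 0 / ρ * (|p.1 * q.1| + |p.2 * q.2|) := by ring
      _ ≤ sN f φ 0 / ρ * (‖rot a b p‖ * ‖rot a b q‖) := by gcongr
      _ = _ := by ring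
  have := hμ.le.trans hHle
  rw [le_div_iff₀ hρ] at this
  linarith

end Crest.Agent.R220
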